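import Vale.Agent.P002.Surface.Flow

/-!
Lower triangular elements with roots of unity on the diagonal are absorbed by two commutators of
elements whose entries lie in a ring generated by roots of unity.
-/

open Matrix Finset
open scoped commutatorElement

namespace Vale.Agent.P002.Surface

variable {r k s : ℕ}

/-- The ring generated by the roots of unity of order dividing `n`. -/
def rootRing (n : ℕ) : Subring ℂ := Subring.closure {z : ℂ | z ^ n = 1}

lemma root_mem {n : ℕ} {z : ℂ} (h : z ^ n = 1) : z ∈ rootRing n := Subring.subset_closure h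

lemma root_inv_mem {n : ℕ} {z : ℂ} (h : z ^ n = 1) : z⁻¹ ∈ rootRing n :=
  root_mem (by rw [inv_pow, h, inv_one])

lemma isIntegral_of_rootRing {n : ℕ} (hn : 0 < n) {z : ℂ} (hz : z ∈ rootRing n) :
    IsIntegral ℤ z := by
  have h : rootRing n ≤ (integralClosure ℤ ℂ).toSubring := Subring.closure_le.2 fun w hw =>
    IsIntegral.of_pow hn (show IsIntegral ℤ (w ^ n) by
      rw [show w ^ n = 1 from hw]; exact isIntegral_one)
  exact h hz

lemma exists_field {n : ℕ} (hn : 0 < n) :
    ∃ L : IntermediateField ℚ ℂ, FiniteDimensional ℚ L ∧ ∀ z ∈ rootRing n, z ∈ L := by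
  let S : Set ℂ := {z | z ^ n = 1}
  have hfin : S.Finite := by
    refine ((Polynomial.nthRoots n (1 : ℂ)).toFinset.finite_toSet).subset fun z hz => ?_
    simpa [Polynomial.mem_nthRoots hn, S] using hz
  have : Finite S := hfin.to_subtype
  refine ⟨IntermediateField.adjoin ℚ S, IntermediateField.finiteDimensional_adjoin fun z hz => ?_,
    fun z hz => ?_⟩
  · exact IsIntegral.of_pow hn (show IsIntegral ℚ (z ^ n) by
      rw [show z ^ n = 1 from hz]; exact isIntegral_one)
  · have h : rootRing n ≤ (IntermediateField.adjoin ℚ S).toSubfield.toSubring :=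
      Subring.closure_le.2 fun w hw => IntermediateField.subset_adjoin ℚ S hw
    exact h hz

/-- Lower triangular. -/
def Low (M : Mat r) : Prop := ∀ a b, a < b → M a b = 0

lemma low_one : Low (1 : Mat r) := fun _ _ h => Matrix.one_apply_ne h.ne

lemma Low.mul {A B : Mat r} (hA : Low A) (hB : Low B) :
    Low (A * B) ∧ ∀ a, (A * B) a a = A a a * B a a := by
  refine ⟨fun a b h => Matrix.mul_apply.trans (Finset.sum_eq_zero fun l _ => ?_), fun a =>
    Matrix.mul_apply.trans (Finset.sum_eq_single a (fun l _ hl => ?_) (by simp))⟩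
  · rcases lt_or_ge a l with h1 | h1
    · simp [hA a l h1]
    · simp [hB l b (h1.trans_lt h)]
  · rcases lt_or_gt_of_ne hl with h1 | h1
    · simp [hB l a h1]
    · simp [hA a l h1]

lemma Low.det {A : Mat r} (hA : Low A) : A.det = ∏ a, A a a :=
  Matrix.det_of_isLowerTriangular A fun a b h => hA a b h

lemma diag_commutator (d δ : Fin r → ℂ) (h : ∀ a, d a = δ a * d (nxt a)) {E D : SL r}
    (hE : E.1 = Matrix.diagonal d) (hD : D.1 = Matrix.diagonal δ) : ⁅E, cyc r⁆ = D := by
  rw [commutatorElement_def, mul_inv_eq_iff_eq_mul, mul_inv_eq_iff_eq_mul]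
  refine Subtype.ext ?_
  ext a b
  rw [val_mul, val_mul, val_mul, hE, hD, Matrix.diagonal_mul, Matrix.mul_diagonal, Matrix.diagonal_mul,
    cyc_val]
  split_ifs with hab
  · subst hab; rw [h a]; ring
  · simp

lemma exists_unit_sub_one (r : ℕ) : ∃ (n : ℕ) (ζ : ℂ), 0 < n ∧ ζ ^ n = 1 ∧
    ∀ m, 0 < m → m < r → ∃ w ∈ rootRing n, (ζ ^ m - 1) * w = 1 := by
  obtain ⟨p, hp1, hp⟩ := Nat.exists_infinite_primes (r + 1)
  obtain ⟨q, hq1, hq⟩ := Nat.exists_infinite_primes (p + 1)
  set n := p * q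
  have hn : 0 < n := Nat.mul_pos hp.pos hq.pos
  have hprim := Complex.isPrimitiveRoot_exp n hn.ne'
  set ζ := Complex.exp (2 * Real.pi * Complex.I / n)
  refine ⟨n, ζ, hn, hprim.pow_eq_one, fun m hm0 hmr => ?_⟩
  have hm : IsPrimitiveRoot (ζ ^ m) n := hprim.pow_of_coprime m
    (Nat.Coprime.mul_right ((hp.coprime_iff_not_dvd.2 (Nat.not_dvd_of_pos_of_lt hm0 (by omega))).symm)
      ((hq.coprime_iff_not_dvd.2 (Nat.not_dvd_of_pos_of_lt hm0 (by omega))).symm))
  have h1 : (Polynomial.cyclotomic n ℂ).eval 1 = 1 := by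
    refine Polynomial.eval_one_cyclotomic_not_prime_pow fun {l} hl e he => ?_
    have h2 : p = l := (Nat.prime_dvd_prime_iff_eq hp hl).1
      (hp.dvd_of_dvd_pow (m := l) (n := e) (by rw [he]; exact Dvd.intro q rfl))
    have h3 : q = l := (Nat.prime_dvd_prime_iff_eq hq hl).1
      (hq.dvd_of_dvd_pow (m := l) (n := e) (by rw [he]; exact Dvd.intro_left p rfl))
    omega
  rw [Polynomial.cyclotomic_eq_prod_X_sub_primitiveRoots hm, Polynomial.eval_prod,
    ← Finset.mul_prod_erase _ _ ((mem_primitiveRoots hn).2 hm)] at h1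
  simp only [Polynomial.eval_sub, Polynomial.eval_X, Polynomial.eval_C] at h1
  refine ⟨-∏ μ ∈ (primitiveRoots n ℂ).erase (ζ ^ m), (1 - μ), (rootRing n).neg_mem
    ((rootRing n).prod_mem fun μ hμ => (rootRing n).sub_mem (rootRing n).one_mem ?_), ?_⟩
  · exact root_mem ((mem_primitiveRoots hn).1 (Finset.mem_of_mem_erase hμ)).pow_eq_one
  · linear_combination h1

lemma rootRing_mono {n m : ℕ} (h : n ∣ m) : rootRing n ≤ rootRing m :=
  Subring.closure_mono fun z (hz : z ^ n = 1) => by
    obtain ⟨c, rfl⟩ := h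
    show z ^ (n * c) = 1
    rw [pow_mul, hz, one_pow]

lemma exists_conjugator {O : Subring ℂ} (e : Fin r → ℂ) (he : ∀ a, e a ≠ 0)
    {U : Mat r} (hu : ∀ a b : Fin r, b < a → ∃ w, (e a / e b - 1) * w = 1 ∧ ∀ l, l < a → w * U a l ∈ O)
    (hU : Low U) (hU1 : ∀ a, U a a = 1) :
    ∃ U' : Mat r, Low U' ∧ (∀ a, U' a a = 1) ∧ (∀ a b, U' a b ∈ O) ∧
      U * U' * Matrix.diagonal e = Matrix.diagonal e * U' := by
  classical
  suffices H : ∀ n : ℕ, ∃ U' : Mat r, Low U' ∧ (∀ a, U' a a = 1) ∧ (∀ a b, U' a b ∈ O) ∧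
      ∀ a b : Fin r, a.1 < n → (U * U') a b * e b = e a * U' a b by
    obtain ⟨U', h1, h2, h3, h4⟩ := H r
    refine ⟨U', h1, h2, h3, ?_⟩
    ext a b
    rw [Matrix.mul_diagonal, Matrix.diagonal_mul]
    exact h4 a b a.2
  intro n
  induction n with
  | zero =>
    exact ⟨1, low_one, fun a => Matrix.one_apply_eq a, fun a b => by
      rw [Matrix.one_apply]; split_ifs <;> simp [O.one_mem, O.zero_mem],
      fun a b h => absurd h (Nat.not_lt_zero _)⟩
  | succ n ih =>
    obtain ⟨U', h1, h2, h3, h4⟩ := ih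
    by_cases hn : n < r
    swap
    · exact ⟨U', h1, h2, h3, fun a b _ => h4 a b (by omega)⟩
    choose w hw hwU using hu
    let row : Fin r → ℂ := fun b =>
      if h : b < ⟨n, hn⟩ then
        w ⟨n, hn⟩ b h * ∑ l ∈ univ.filter (· < (⟨n, hn⟩ : Fin r)), U ⟨n, hn⟩ l * U' l b
      else U' ⟨n, hn⟩ b
    let V : Mat r := Matrix.of fun a b => if a = ⟨n, hn⟩ then row b else U' a b
    have hVne : ∀ a b, a ≠ (⟨n, hn⟩ : Fin r) → V a b = U' a b := fun a b h => if_neg h
    have hVn : ∀ b, V ⟨n, hn⟩ b = row b := fun b => if_pos rfl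
    have hrow : ∀ b, ¬ b < (⟨n, hn⟩ : Fin r) → row b = U' ⟨n, hn⟩ b := fun b h => dif_neg h
    have hVlow : Low V := fun a b h => by
      by_cases ha : a = ⟨n, hn⟩
      · subst ha; rw [hVn, hrow b h.not_gt]; exact h1 _ _ h
      · rw [hVne a b ha]; exact h1 a b h
    have hV1 : ∀ a, V a a = 1 := fun a => by
      by_cases ha : a = ⟨n, hn⟩
      · subst ha; rw [hVn, hrow _ (lt_irrefl _)]; exact h2 _
      · rw [hVne a a ha]; exact h2 a
    have hmul : ∀ a b, a.1 ≤ n → (U * V) a b =
        ∑ l ∈ univ.filter (· < a), U a l * U' l b + V a b := fun a b ha => by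
      rw [Matrix.mul_apply, ← Finset.sum_filter_add_sum_filter_not univ (· < a)]
      congr 1
      · refine Finset.sum_congr rfl fun l hl => ?_
        have hla : l.1 < a.1 := (Finset.mem_filter.1 hl).2
        rw [hVne l b fun e => by
          rw [e] at hla
          change n < a.1 at hla
          omega]
      · rw [Finset.sum_eq_single a (fun l hl hla => by
          rw [hU a l (lt_of_le_of_ne (not_lt.1 (Finset.mem_filter.1 hl).2) (Ne.symm hla)),
            zero_mul]) (by simp), hU1, one_mul]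
    refine ⟨V, hVlow, hV1, fun a b => ?_, fun a b ha => ?_⟩
    · by_cases ha : a = ⟨n, hn⟩
      · subst ha
        rw [hVn]
        simp only [row]
        split_ifs with h
        · rw [Finset.mul_sum]
          exact O.sum_mem fun l hl => by
            rw [← mul_assoc]
            exact O.mul_mem (hwU _ _ _ l (Finset.mem_filter.1 hl).2) (h3 _ _)
        · exact h3 _ _
      · rw [hVne a b ha]; exact h3 a b
    · rcases Nat.lt_succ_iff_lt_or_eq.1 ha with ha' | ha'
      · have e2 : (U * U') a b = (U * V) a b := by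
          rw [Matrix.mul_apply, Matrix.mul_apply]
          refine Finset.sum_congr rfl fun l _ => ?_
          by_cases hl : l = ⟨n, hn⟩
          · rw [hl, hU a ⟨n, hn⟩ ha', zero_mul, zero_mul]
          · rw [hVne l b hl]
        rw [← e2, hVne a b fun e => by rw [e] at ha'; exact lt_irrefl n ha']
        exact h4 a b ha'
      · have hae : a = ⟨n, hn⟩ := Fin.ext ha'
        subst hae
        rcases lt_trichotomy b ⟨n, hn⟩ with hb | hb | hb
        · rw [hmul _ _ le_rfl, hVn, show row b = _ from dif_pos hb]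
          set σ := ∑ l ∈ univ.filter (· < (⟨n, hn⟩ : Fin r)), U ⟨n, hn⟩ l * U' l b
          have h5 := hw ⟨n, hn⟩ b hb
          set W := w ⟨n, hn⟩ b hb
          have h6 : (e ⟨n, hn⟩ - e b) * W = e b := by
            calc _ = e b * ((e ⟨n, hn⟩ / e b - 1) * W) := by
                  rw [← mul_assoc, mul_sub, mul_div_cancel₀ _ (he b), mul_one]
              _ = e b := by rw [h5, mul_one]
          linear_combination (-σ) * h6
        · subst hb
          rw [(hU.mul hVlow).2, hU1, hV1, one_mul, mul_one, one_mul]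
        · rw [(hU.mul hVlow).1 _ _ hb, hVlow _ _ hb, zero_mul, mul_zero]

lemma prod_low {N : ℕ} {n : ℕ} (hn : N ∣ n) : ∀ L : List (SL r),
    (∀ M ∈ L, Low M.1 ∧ (∀ a, M.1 a a ^ N = 1) ∧ M ∈ intGroup (rootRing n) r) →
    Low L.prod.1 ∧ (∀ a, L.prod.1 a a ^ N = 1) ∧ L.prod ∈ intGroup (rootRing n) r
  | [], _ => ⟨low_one, fun a => by simp, one_mem _⟩
  | M :: L, h => by
    obtain ⟨h1, h2, h3⟩ := h M (by simp)
    obtain ⟨g1, g2, g3⟩ := prod_low hn L fun M hM => h M (by simp [hM])
    rw [List.prod_cons]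
    exact ⟨(h1.mul g1).1, fun a => by rw [val_mul, (h1.mul g1).2, mul_pow, h2, g2, one_mul],
      mul_mem h3 g3⟩

lemma diag_mem_intGroup {O : Subring ℂ} {d : Fin r → ℂ} (hd : ∀ a, d a ∈ O) {M : SL r}
    (hM : M.1 = Matrix.diagonal d) : M ∈ intGroup O r :=
  mem_intGroup.2 fun a b => by
    rw [hM, Matrix.diagonal_apply]
    split_ifs
    · exact hd a
    · exact O.zero_mem

/-- Triangular meridians are absorbed by two further handles. -/
theorem exists_absorb (hr : 2 ≤ r) {N : ℕ} (hN : 0 < N) : ∃ n : ℕ, 0 < n ∧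
    ∀ (k : ℕ) (J : Fin s → SL r), (∀ j, Low (J j).1) → (∀ j a, (J j).1 a a ^ N = 1) →
      (∀ j a b, a ≠ b → (J j).1 a b = 0 ∨ (J j).1 a b = 1) →
      ∃ z : Rest (k + 2) s → SL r, IsInt (rootRing n) z ∧ relR z = 1 ∧
        ∀ j, z (Sum.inr j) = J j := by
  classical
  obtain ⟨pq, ζ, hpq, hζ, hunit⟩ := exists_unit_sub_one r
  set n := r * N * pq
  have hn : 0 < n := Nat.mul_pos (Nat.mul_pos (by omega) hN) hpq
  have hNn : N ∣ n := Dvd.intro (r * pq) (by ring)
  have hpqn : pq ∣ n := Dvd.intro_left _ rfl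
  have hpow : ∀ {m : ℕ} {z : ℂ}, m ∣ n → z ^ m = 1 → z ^ n = 1 := fun {m z} ⟨c, hc⟩ h => by
    rw [hc, pow_mul, h, one_pow]
  refine ⟨n, hn, fun k J hlow hdiag hoff => ?_⟩
  set O := rootRing n
  have hJO : ∀ j, J j ∈ intGroup O r := fun j => mem_intGroup.2 fun a b => by
    by_cases hab : a = b
    · subst hab; exact root_mem (hpow hNn (hdiag j a))
    · rcases hoff j a b hab with h | h <;> rw [h]
      · exact O.zero_mem
      · exact O.one_mem
  obtain ⟨hT, hTd, hTO⟩ := prod_low hNn (List.ofFn J) fun M hM => by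
    obtain ⟨j, rfl⟩ := List.mem_ofFn.1 hM
    exact ⟨hlow j, hdiag j, hJO j⟩
  set T := (List.ofFn J).prod
  let δ : Fin r → ℂ := fun a => T.1 a a
  have hδ : ∀ a, δ a ^ n = 1 := fun a => hpow hNn (hTd a)
  have hδ0 : ∀ a, δ a ≠ 0 := fun a h => by simpa [h, hn.ne'] using hδ a
  have hδ1 : ∏ a, δ a = 1 := by rw [← Low.det hT, T.2]
  let ρ : Fin r → ℂ := fun a => ∏ l ∈ univ.filter (· < a), δ l
  have hρN : ∀ a, ρ a ^ N = 1 := fun a => by
    simp only [ρ, ← Finset.prod_pow]
    exact Finset.prod_eq_one fun l _ => hTd l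
  obtain ⟨lam, hlam⟩ := IsAlgClosed.exists_pow_nat_eq (∏ a, ρ a) (show 0 < r by omega)
  have hlamn : lam ^ n = 1 := hpow (m := r * N) (Dvd.intro pq rfl) (by
    rw [pow_mul, hlam, ← Finset.prod_pow]
    exact Finset.prod_eq_one fun a _ => hρN a)
  let d : Fin r → ℂ := fun a => lam / ρ a
  have hρ0 : ∀ a, ρ a ≠ 0 := fun a => Finset.prod_ne_zero_iff.2 fun l _ => hδ0 l
  have hd1 : ∏ a, d a = 1 := by
    simp only [d, Finset.prod_div_distrib, Finset.prod_const, Finset.card_univ, Fintype.card_fin,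
      hlam]
    exact div_self (Finset.prod_ne_zero_iff.2 fun a _ => hρ0 a)
  have hdδ : ∀ a, d a = δ a * d (nxt a) := fun a => by
    have hins : ∀ a : Fin r, insert a (univ.filter (· < a)) = univ.filter (· ≤ a) := fun a => by
      ext l; simp [le_iff_eq_or_lt]
    have key : ρ (nxt a) = ρ a * δ a := by
      rcases lt_or_ge (a.1 + 1) r with h | h
      · have : (univ : Finset (Fin r)).filter (· < nxt a) = univ.filter (· ≤ a) := by
          ext l
          have e : (nxt a).1 = a.1 + 1 := Nat.mod_eq_of_lt h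
          simp only [Finset.mem_filter, Finset.mem_univ, true_and, Fin.lt_def, Fin.le_def, e,
            Nat.lt_succ_iff]
        simp only [ρ]
        rw [this, ← hins, Finset.prod_insert (by simp), mul_comm]
      · have h0 : (univ : Finset (Fin r)).filter (· < nxt a) = ∅ := by
          ext l
          have e : (nxt a).1 = 0 := by
            show (a.1 + 1) % r = 0
            rw [show a.1 + 1 = r by omega, Nat.mod_self]
          simp only [Finset.mem_filter, Finset.mem_univ, true_and, Fin.lt_def, e, Nat.not_lt_zero,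
            Finset.notMem_empty]
        have h1 : (univ : Finset (Fin r)).filter (· ≤ a) = univ := by
          ext l
          simp only [Finset.mem_filter, Finset.mem_univ, true_and, iff_true, Fin.le_def]
          omega
        simp only [ρ]
        rw [h0, Finset.prod_empty, mul_comm, ← Finset.prod_insert (by simp), hins, h1, hδ1]
    simp only [d]
    rw [key]
    field_simp [hρ0 a, hδ0 a]
  let D : SL r := ⟨Matrix.diagonal δ, by rw [Matrix.det_diagonal, hδ1]⟩
  let dD : SL r := ⟨Matrix.diagonal d, by rw [Matrix.det_diagonal, hd1]⟩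
  have hDc : ⁅dD, cyc r⁆ = D := diag_commutator d δ hdδ rfl rfl
  set U := D⁻¹ * T
  have hDinv : (D⁻¹).1 = Matrix.diagonal fun a => (δ a)⁻¹ := by
    have : D⁻¹ = ⟨Matrix.diagonal fun a => (δ a)⁻¹, by
        rw [Matrix.det_diagonal, Finset.prod_inv_distrib, hδ1, inv_one]⟩ :=
      inv_eq_of_mul_eq_one_right (Subtype.ext (by
        show Matrix.diagonal δ * Matrix.diagonal _ = 1
        rw [Matrix.diagonal_mul_diagonal]
        exact diagonal_eq_one.2 (funext fun a => mul_inv_cancel₀ (hδ0 a))))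
    rw [this]
  have hUv : ∀ a b, U.1 a b = (δ a)⁻¹ * T.1 a b := fun a b => by
    rw [val_mul, hDinv, Matrix.diagonal_mul]
  have hUlow : Low U.1 := fun a b h => by rw [hUv, hT a b h, mul_zero]
  have hU1 : ∀ a, U.1 a a = 1 := fun a => by rw [hUv]; exact inv_mul_cancel₀ (hδ0 a)
  have hUO : ∀ a b, U.1 a b ∈ O := fun a b => by
    rw [hUv]; exact O.mul_mem (root_inv_mem (hδ a)) (mem_intGroup.1 hTO a b)
  obtain ⟨μ, hμ⟩ := IsAlgClosed.exists_pow_nat_eq (∏ a : Fin r, (ζ ^ a.1)⁻¹) (show 0 < r by omega)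
  have hμn : μ ^ n = 1 := hpow (m := r * pq) (Dvd.intro N (by ring)) (by
    rw [pow_mul, hμ, ← Finset.prod_pow]
    exact Finset.prod_eq_one fun a _ => by rw [inv_pow, pow_right_comm, hζ, one_pow, inv_one])
  let e : Fin r → ℂ := fun a => μ * ζ ^ a.1
  have hζ0 : ζ ≠ 0 := fun h => by simp [h, hpq.ne'] at hζ
  have hen : ∀ a, e a ^ n = 1 := fun a => by
    rw [mul_pow, hμn, pow_right_comm, hpow hpqn hζ, one_pow, one_mul]
  have he0 : ∀ a, e a ≠ 0 := fun a h => by simpa [h, hn.ne'] using hen a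
  have he1 : ∏ a, e a = 1 := by
    rw [Finset.prod_mul_distrib, Finset.prod_const, Finset.card_univ, Fintype.card_fin, hμ,
      ← Finset.prod_mul_distrib]
    exact Finset.prod_eq_one fun a _ => inv_mul_cancel₀ (pow_ne_zero _ hζ0)
  obtain ⟨U', hU'low, hU'1, hU'O, hU'e⟩ := exists_conjugator (O := O) (U := U.1) e he0 (fun a b hba => by
    obtain ⟨w, hw, hw1⟩ := hunit (a.1 - b.1) (Nat.sub_pos_of_lt hba) (by omega)
    refine ⟨w, ?_, fun l _ => O.mul_mem (rootRing_mono hpqn hw) (hUO a l)⟩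
    rw [show e a / e b = ζ ^ (a.1 - b.1) by
      rw [div_eq_iff (he0 b)]
      simp only [e]
      rw [mul_left_comm, ← pow_add, Nat.sub_add_cancel hba.le]]
    exact hw1) hUlow hU1
  let eS : SL r := ⟨Matrix.diagonal e, by rw [Matrix.det_diagonal, he1]⟩
  let fS : SL r := ⟨U', by
    rw [Low.det hU'low]
    exact Finset.prod_eq_one fun a _ => hU'1 a⟩
  have hUc : ⁅eS, fS⁆ = U := by
    rw [commutatorElement_def, mul_inv_eq_iff_eq_mul, mul_inv_eq_iff_eq_mul]
    exact Subtype.ext hU'e.symm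
  have hTc : T = ⁅dD, cyc r⁆ * ⁅eS, fS⁆ := by rw [hDc, hUc]; exact (mul_inv_cancel_left D T).symm
  let z : Rest (k + 2) s → SL r := Sum.elim
    (fun x => if x.1.1 = 0 then (bif x.2 then eS else fS)
      else if x.1.1 = 1 then (bif x.2 then dD else cyc r) else 1) J
  have hint : ∀ M ∈ [eS, fS, dD, cyc r], M ∈ intGroup O r := by
    intro M hM
    simp only [List.mem_cons, List.not_mem_nil, or_false] at hM
    rcases hM with rfl | rfl | rfl | rfl
    · exact diag_mem_intGroup (fun a => root_mem (hen a)) rfl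
    · exact mem_intGroup.2 hU'O
    · refine diag_mem_intGroup (fun a => ?_) rfl
      exact O.mul_mem (root_mem hlamn) (root_inv_mem (hpow hNn (hρN a)))
    · refine mem_intGroup.2 fun a b => ?_
      rw [cyc_val]
      unfold cycSign
      split_ifs
      · exact intCast_mem O _
      · exact O.one_mem
      · exact O.zero_mem
  refine ⟨z, fun x => ?_, ?_, fun j => rfl⟩
  · rcases x with ⟨i, b⟩ | j
    · simp only [z, Sum.elim_inl]
      split_ifs
      · cases b <;> exact hint _ (by simp)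
      · cases b <;> exact hint _ (by simp)
      · exact one_mem _
    · exact hJO j
  · rw [relR, rel, List.ofFn_succ, List.ofFn_succ, List.prod_cons, List.prod_cons,
      List.prod_eq_one (l := List.ofFn fun i : Fin k => _) fun w hw => by
        obtain ⟨i, rfl⟩ := List.mem_ofFn.1 hw
        simp [z],
      mul_one]
    show ⁅fS, eS⁆ * ⁅cyc r, dD⁆ * T = 1
    rw [hTc, ← commutatorElement_inv eS fS, ← commutatorElement_inv dD (cyc r)]
    group

end Vale.Agent.P002.Surface
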