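import Vale.Agent.P002.Surface.Jet
import Vale.Agent.P002.Defs

/-!
Quasi-unipotent elements of `SL_r(ℂ)` are conjugate to lower triangular elements whose diagonal
entries are roots of unity and whose other entries are zero or one.
-/

open Matrix Polynomial DirectSum

namespace Vale.Agent.P002.Surface

variable {r : ℕ}

lemma mk_sum_taylor (a : ℂ) (e : ℕ) (q : ℂ[X]) :
    ∃ c : Fin e → ℂ, (Submodule.Quotient.mk q : ℂ[X] ⧸ ℂ[X] ∙ (X - C a) ^ e) =
      ∑ l : Fin e, c l • Submodule.Quotient.mk ((X - C a) ^ l.1) := by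
  refine ⟨fun l => (taylor a q).coeff l.1, ?_⟩
  have hz : ∀ n, e ≤ n →
      (Submodule.Quotient.mk ((X - C a) ^ n) : ℂ[X] ⧸ ℂ[X] ∙ (X - C a) ^ e) = 0 := fun n hn =>
    (Submodule.Quotient.mk_eq_zero _).2 (Ideal.mem_span_singleton.2 (pow_dvd_pow _ hn))
  conv_lhs => rw [← sum_taylor_eq q a]
  rw [Polynomial.sum_over_range' _ (fun n => by simp)
    (max e ((taylor a q).natDegree + 1)) (by omega), ← Submodule.mkQ_apply, map_sum,
    ← Finset.sum_range_add_sum_Ico _ (le_max_left e _),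
    Finset.sum_eq_zero (s := Finset.Ico e _) fun n hn => by
      rw [← smul_eq_C_mul, Submodule.mkQ_apply, Submodule.Quotient.mk_smul,
        hz n (Finset.mem_Ico.1 hn).1, smul_zero],
    add_zero, ← Fin.sum_univ_eq_sum_range]
  refine Finset.sum_congr rfl fun l _ => ?_
  rw [← smul_eq_C_mul, Submodule.mkQ_apply, Submodule.Quotient.mk_smul]

lemma mk_pow_independent (a : ℂ) (e : ℕ) :
    LinearIndependent ℂ fun l : Fin e =>
      (Submodule.Quotient.mk ((X - C a) ^ l.1) : ℂ[X] ⧸ ℂ[X] ∙ (X - C a) ^ e) := by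
  rw [Fintype.linearIndependent_iff]
  intro c hc l
  simp_rw [← Submodule.Quotient.mk_smul, ← Submodule.mkQ_apply, ← map_sum, Submodule.mkQ_apply] at hc
  have h : (X - C a) ^ e ∣ ∑ l : Fin e, c l • (X - C a) ^ l.1 :=
    Ideal.mem_span_singleton.1 ((Submodule.Quotient.mk_eq_zero _).1 hc)
  have h2 : (X : ℂ[X]) ^ e ∣ ∑ l : Fin e, c l • X ^ l.1 := by
    have := _root_.map_dvd (compRingHom (X + C a)) h
    simpa [coe_compRingHom, sum_comp, smul_comp] using this
  have h3 := (X_pow_dvd_iff.1 h2) l.1 l.2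
  rw [finsetSum_coeff, Finset.sum_eq_single l (fun m _ hm => by
    simp [coeff_X_pow, Fin.val_inj, Ne.symm hm]) (by simp)] at h3
  simpa using h3

/-- A basis in which an endomorphism is lower triangular with zeros and ones off the diagonal. -/
theorem exists_jordan_basis (f : Module.End ℂ (Fin r → ℂ)) :
    ∃ b : Module.Basis (Fin r) ℂ (Fin r → ℂ), ∀ x : Fin r, ∃ t : ℂ,
      f (b x) = t • b x ∨ ∃ y, x < y ∧ f (b x) = t • b x + b y := by
  classical
  obtain ⟨ι, hι, p, hp, e, ⟨φ⟩⟩ := Module.equiv_directSum_of_isTorsion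
    (R := ℂ[X]) (M := Module.AEval' f) (Module.AEval.isTorsion_of_finiteDimensional ℂ _ f)
  have hdeg : ∀ i, ∃ a : ℂ, ℂ[X] ∙ p i ^ e i = ℂ[X] ∙ (X - C a) ^ e i := fun i => by
    have h := IsAlgClosed.degree_eq_one_of_irreducible ℂ (hp i)
    have hne : (p i).coeff 1 ≠ 0 := by
      have := leadingCoeff_ne_zero.2 (hp i).ne_zero
      rwa [leadingCoeff, natDegree_eq_of_degree_eq_some h] at this
    refine ⟨-(p i).coeff 0 / (p i).coeff 1, Ideal.span_singleton_eq_span_singleton.2 ?_⟩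
    refine Associated.pow_pow (Associated.trans (Associated.of_eq ?_)
      (associated_unit_mul_left _ (C ((p i).coeff 1)) (isUnit_C.2 (Ne.isUnit hne))))
    conv_lhs => rw [eq_X_add_C_of_degree_eq_one h,
      show (p i).leadingCoeff = (p i).coeff 1 by
        rw [leadingCoeff, natDegree_eq_of_degree_eq_some h]; rfl]
    rw [mul_sub, ← C_mul, mul_div_cancel₀ _ hne, C_neg, sub_neg_eq_add]
  choose a ha using hdeg
  let q : ∀ i, (ℂ[X] ⧸ ℂ[X] ∙ p i ^ e i) ≃ₗ[ℂ[X]] ℂ[X] ⧸ ℂ[X] ∙ (X - C (a i)) ^ e i := fun i =>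
    Submodule.quotEquivOfEq _ _ (ha i)
  let L : ∀ i, (ℂ[X] ⧸ ℂ[X] ∙ (X - C (a i)) ^ e i) →ₗ[ℂ[X]] Module.AEval' f := fun i =>
    φ.symm.toLinearMap.comp ((DirectSum.lof ℂ[X] ι _ i).comp (q i).symm.toLinearMap)
  let R : ∀ i, Module.AEval' f →ₗ[ℂ[X]] ℂ[X] ⧸ ℂ[X] ∙ (X - C (a i)) ^ e i := fun i =>
    (q i).toLinearMap.comp ((DirectSum.component ℂ[X] ι _ i).comp φ.toLinearMap)
  have hRL : ∀ i z, R i (L i z) = z := fun i z => by simp [R, L]
  have hRL0 : ∀ i j z, j ≠ i → R i (L j z) = 0 := fun i j z h => by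
    simp [R, L, DirectSum.lof_eq_of, ← DirectSum.apply_eq_component,
      DirectSum.of_eq_of_ne _ _ _ h.symm]
  let v : (Σ i, Fin (e i)) → Module.AEval' f := fun x =>
    L x.1 (Submodule.Quotient.mk ((X - C (a x.1)) ^ x.2.1))
  have hspan : ⊤ ≤ Submodule.span ℂ (Set.range v) := by
    intro m _
    obtain ⟨z, rfl⟩ := φ.symm.surjective m
    induction z using DirectSum.induction_on with
    | zero => simp
    | add x y hx hy => rw [map_add]; exact Submodule.add_mem _ (hx trivial) (hy trivial)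
    | of i z =>
      obtain ⟨z, rfl⟩ := (q i).symm.surjective z
      obtain ⟨w, rfl⟩ := Submodule.Quotient.mk_surjective _ z
      obtain ⟨c, hc⟩ := mk_sum_taylor (a i) (e i) w
      show L i (Submodule.Quotient.mk w) ∈ _
      rw [hc, map_sum]
      refine Submodule.sum_mem _ fun l _ => ?_
      rw [LinearMap.map_smul_of_tower]
      exact Submodule.smul_mem _ _ (Submodule.subset_span ⟨(⟨i, l⟩ : Σ i, Fin (e i)), rfl⟩)
  have hli : LinearIndependent ℂ v := by
    rw [Fintype.linearIndependent_iff]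
    rintro c hc ⟨i, l⟩
    have h := congrArg (R i) hc
    simp only [v, map_sum, LinearMap.map_smul_of_tower, map_zero] at h
    rw [Fintype.sum_sigma, Finset.sum_eq_single i (fun j _ hj => Finset.sum_eq_zero fun m _ => by
      rw [hRL0 i j _ hj, smul_zero]) (by simp)] at h
    simp only [hRL] at h
    exact Fintype.linearIndependent_iff.1 (mk_pow_independent (a i) (e i)) (fun m => c ⟨i, m⟩) h l
  let B : Module.Basis (Σ i, Fin (e i)) ℂ (Fin r → ℂ) :=
    (Module.Basis.mk hli hspan).map (Module.AEval'.of f).symm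
  let ei := Fintype.equivFin ι
  let σ : (Σ i, Fin (e i)) ≃ (j : Fin (Fintype.card ι)) × Fin (e (ei.symm j)) :=
    (Equiv.sigmaCongrLeft (β := fun i => Fin (e i)) ei.symm).symm
  have hr : ∑ j, e (ei.symm j) = r := by
    have := Module.finrank_eq_card_basis B
    rw [Module.finrank_fin_fun, Fintype.card_sigma] at this
    simp only [Fintype.card_fin] at this
    rw [this, ← Equiv.sum_comp ei.symm]
  let τ := finSigmaFinEquiv.trans (finCongr hr)
  let E := σ.trans τ
  refine ⟨B.reindex E, fun x => ?_⟩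
  obtain ⟨⟨j, l⟩, rfl⟩ := τ.surjective x
  have hB : ∀ m : Fin (e (ei.symm j)), (B.reindex E) (τ ⟨j, m⟩) =
      (Module.AEval'.of f).symm (v ⟨ei.symm j, m⟩) := fun m => by
    rw [Module.Basis.reindex_apply]
    have : E.symm (τ ⟨j, m⟩) = ⟨ei.symm j, m⟩ := by
      simp only [E, Equiv.symm_trans_apply, Equiv.symm_apply_apply]
      rfl
    simp [B, this]
  have hX : ∀ i (l : Fin (e i)), (Module.AEval'.of f) (f ((Module.AEval'.of f).symm (v ⟨i, l⟩))) =
      a i • v ⟨i, l⟩ + if h : l.1 + 1 < e i then v ⟨i, ⟨l.1 + 1, h⟩⟩ else 0 := by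
    intro i l
    rw [← Module.AEval'.X_smul_of, LinearEquiv.apply_symm_apply]
    simp only [v, ← map_smul, ← Submodule.Quotient.mk_smul]
    have e1 : (X : ℂ[X]) • (X - C (a i)) ^ l.1 =
        a i • (X - C (a i)) ^ l.1 + (X - C (a i)) ^ (l.1 + 1) := by
      rw [smul_eq_mul, smul_eq_C_mul, pow_succ]
      ring
    rw [e1, Submodule.Quotient.mk_add, map_add, Submodule.Quotient.mk_smul,
      LinearMap.map_smul_of_tower]
    by_cases h : l.1 + 1 < e i
    · rw [dif_pos h]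
    · rw [dif_neg h, (Submodule.Quotient.mk_eq_zero _ (x := (X - C (a i)) ^ (l.1 + 1))).2
        (Ideal.mem_span_singleton.2 (pow_dvd_pow _ (by omega))), map_zero]
  have h0 := congrArg (Module.AEval'.of f).symm (hX _ l)
  rw [LinearEquiv.symm_apply_apply, map_add, map_smul] at h0
  refine ⟨a (ei.symm j), ?_⟩
  rw [hB, h0]
  by_cases h : l.1 + 1 < e (ei.symm j)
  · right
    refine ⟨τ ⟨j, ⟨l.1 + 1, h⟩⟩, ?_, ?_⟩
    · rw [Fin.lt_def]
      simp [τ, finSigmaFinEquiv_apply]
    · rw [dif_pos h, hB]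
  · left
    rw [dif_neg h, map_zero, add_zero]

/-- A quasi-unipotent element is conjugate to a triangular one with integral entries. -/
theorem exists_lower (M : SL r) (hM : QuasiUnipotent M) : ∃ Q J : SL r, M = Q * J * Q⁻¹ ∧
    (∀ a b, a < b → J.1 a b = 0) ∧ (∀ a b, a ≠ b → J.1 a b = 0 ∨ J.1 a b = 1) ∧
    ∀ a, ∃ n : ℕ, 0 < n ∧ J.1 a a ^ n = 1 := by
  classical
  rcases Nat.eq_zero_or_pos r with hr | hr
  · subst hr
    exact ⟨1, M, by simp, fun a => a.elim0, fun a => a.elim0, fun a => a.elim0⟩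
  obtain ⟨b, hb⟩ := exists_jordan_basis (Matrix.toLin' M.1)
  let P : Mat r := (Pi.basisFun ℂ (Fin r)).toMatrix b
  let J : Mat r := LinearMap.toMatrix b b (Matrix.toLin' M.1)
  have hPu : IsUnit P.det := by
    have := (Pi.basisFun ℂ (Fin r)).toMatrix_mul_toMatrix_flip b
    exact (Matrix.isUnit_iff_isUnit_det P).1 (IsUnit.of_mul_eq_one _ this)
  have hMP : M.1 * P = P * J := by
    show M.1 * P = (Pi.basisFun ℂ (Fin r)).toMatrix b * J
    rw [basis_toMatrix_mul_linearMap_toMatrix, ← linearMap_toMatrix_mul_basis_toMatrix b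
      (Pi.basisFun ℂ (Fin r)) (Pi.basisFun ℂ (Fin r)), ← Matrix.toLin_eq_toLin',
      LinearMap.toMatrix_toLin]
  have hJe : ∀ x y, J y x = b.repr (Matrix.toLin' M.1 (b x)) y := fun x y =>
    LinearMap.toMatrix_apply b b _ y x
  have hlow : ∀ x y : Fin r, y < x → J y x = 0 := fun x y hxy => by
    rw [hJe]
    obtain ⟨t, h | ⟨z, hz, h⟩⟩ := hb x <;> rw [h]
    · simp [hxy.ne']
    · simp [hxy.ne', (hxy.trans hz).ne']
  have hoff : ∀ x y : Fin r, y ≠ x → J y x = 0 ∨ J y x = 1 := fun x y hxy => by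
    rw [hJe]
    obtain ⟨t, h | ⟨z, hz, h⟩⟩ := hb x <;> rw [h]
    · simp [Ne.symm hxy]
    · by_cases hy : z = y
      · subst hy; simp [hz.ne]
      · simp [Ne.symm hxy, hy]
  obtain ⟨c, hc⟩ := IsAlgClosed.exists_pow_nat_eq P.det⁻¹ hr
  have hQ : (c • P).det = 1 := by
    rw [Matrix.det_smul, Fintype.card_fin, hc, inv_mul_cancel₀ hPu.ne_zero]
  have hcP : M.1 * (c • P) = (c • P) * J := by rw [Matrix.mul_smul, hMP, Matrix.smul_mul]
  have hJd : J.det = 1 := by
    have := congrArg Matrix.det hcP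
    rwa [Matrix.det_mul, Matrix.det_mul, hQ, M.2, one_mul, one_mul, eq_comm] at this
  let Q : SL r := ⟨c • P, hQ⟩
  let JS : SL r := ⟨J, hJd⟩
  have he : M * Q = Q * JS := Subtype.ext hcP
  refine ⟨Q, JS, by rw [← he]; group, fun a b h => hlow b a h, fun a b h => hoff b a h, fun a => ?_⟩
  refine hM _ ?_
  have hchar : M.1.charpoly = ∏ x, (X - C (J x x)) := by
    have e2 : M.1 = Q.1 * J * (Q⁻¹).1 :=
      congrArg Subtype.val (show M = Q * JS * Q⁻¹ by rw [← he]; group)
    rw [e2, Matrix.charpoly_mul_comm, ← Matrix.mul_assoc, val_inv_mul, one_mul,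
      ← Matrix.charpoly_transpose, Matrix.charpoly_of_isUpperTriangular]
    · rfl
    · exact fun i j hij => hlow i j hij
  rw [hchar, IsRoot.def, eval_prod]
  exact Finset.prod_eq_zero (Finset.mem_univ a) (by simp [JS])

end Vale.Agent.P002.Surface
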