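import Vale.Agent.P002.Surface.Local
import Vale.Agent.P002.Surface.Jordan
import Vale.Agent.P002.Surface.Absorb

/-!
Assembly: a base point over a ring of cyclotomic integers for any quasi-unipotent classes, and the
dictionary with the standard generators.
-/

open Matrix
open scoped commutatorElement

namespace Vale.Agent.P002.Surface

variable {k s r : ℕ}

/-- The generators of a punctured surface, regrouped. -/
def regroup (k s : ℕ) : Gens (3 + k) ⊕ Fin s ≃ Idx 3 k s :=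
  (((finSumFinEquiv.symm.prodCongr (Equiv.refl Bool)).trans
    (Equiv.sumProdDistrib _ _ _)).sumCongr (Equiv.refl _)).trans (Equiv.sumAssoc _ _ _)

lemma relT_regroup {G : Type} [Group G] (y : Idx 3 k s → G) :
    relT y = rel (fun x => y (regroup k s (Sum.inl x))) *
      (List.ofFn fun j => y (regroup k s (Sum.inr j))).prod := by
  have h1 : ∀ (i : Fin 3) c,
      regroup k s (Sum.inl (Fin.castAdd k i, c)) = Sum.inl (i, c) := fun i c => by simp [regroup]
  have h2 : ∀ (i : Fin k) c,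
      regroup k s (Sum.inl (Fin.natAdd 3 i, c)) = Sum.inr (Sum.inl (i, c)) := fun i c => by
    simp [regroup]
  have h3 : ∀ j, regroup k s (Sum.inr j) = Sum.inr (Sum.inr j) := fun j => by simp [regroup]
  have e : rel (fun x => y (regroup k s (Sum.inl x))) =
      rel (y ∘ Sum.inl) * rel ((y ∘ Sum.inr) ∘ Sum.inl) := by
    simp only [rel, ← List.prod_append, ← List.ofFn_fin_append]
    congr 2
    funext i
    induction i using Fin.addCases with
    | left i => simp [h1]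
    | right i => simp [h2]
  rw [e, relT, relR, mul_assoc]
  simp only [h3]
  rfl

lemma exists_base (hr : 2 ≤ r) (hks : 2 ≤ k ∨ s = 0) (C : Fin s → SL r)
    (hC : ∀ j, QuasiUnipotent (C j)) :
    ∃ n : ℕ, 0 < n ∧ ∃ z : Rest k s → SL r, IsInt (rootRing n) z ∧ relR z = 1 ∧
      ∀ j, ∃ Q : SL r, z (Sum.inr j) = Q * C j * Q⁻¹ := by
  rcases hks with hk | rfl
  · choose Q J hQ hlow hoff m hm0 hm using fun j => exists_lower (C j) (hC j)
    obtain ⟨k, rfl⟩ : ∃ l, k = l + 2 := ⟨k - 2, by omega⟩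
    let N := ∏ x : Fin s × Fin r, m x.1 x.2
    have hN : 0 < N := Finset.prod_pos fun x _ => hm0 x.1 x.2
    obtain ⟨n, hn, H⟩ := exists_absorb (s := s) hr hN
    obtain ⟨z, hz, hz1, hzJ⟩ := H k J hlow (fun j a => by
      obtain ⟨c, hc⟩ : m j a ∣ N := Finset.dvd_prod_of_mem _ (Finset.mem_univ (j, a))
      rw [hc, pow_mul, hm, one_pow]) hoff
    exact ⟨n, hn, z, hz, hz1, fun j => ⟨(Q j)⁻¹, by rw [hzJ, hQ j]; group⟩⟩
  · refine ⟨1, one_pos, fun _ => 1, fun _ => one_mem _, ?_, fun j => j.elim0⟩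
    simp [relR, rel]

theorem exists_dense_nhd (hr : 2 ≤ r) (hks : 2 ≤ k ∨ s = 0) (C : Fin s → SL r)
    (hC : ∀ j, QuasiUnipotent (C j)) :
    ∃ n : ℕ, 0 < n ∧ ∃ U : Set (Amb 3 k s r), IsOpen U ∧
      (∃ y : Idx 3 k s → SL r, relT y = 1 ∧ InClass C y ∧ crd y ∈ U) ∧
      (∀ y : Idx 3 k s → SL r, crd y ∈ U → ∀ W : Submodule ℂ (Fin r → ℂ),
        (∀ w : FreeGroup (Idx 3 k s), ∀ v ∈ W, (FreeGroup.lift y w).1 *ᵥ v ∈ W) →
          W = ⊥ ∨ W = ⊤) ∧
      (∀ y : Idx 3 k s → SL r, relT y = 1 → InClass C y → crd y ∈ U →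
        ∀ F, Van (rootRing n) C F → F y = 0) ∧
      ∀ F ∈ PolyFun (Idx 3 k s) r, ∀ G ∈ PolyFun (Idx 3 k s) r,
        (∀ y, relT y = 1 → InClass C y → crd y ∈ U → F y * G y = 0) →
        (∀ y, relT y = 1 → InClass C y → crd y ∈ U → F y = 0) ∨
          ∀ y, relT y = 1 → InClass C y → crd y ∈ U → G y = 0 := by
  obtain ⟨n, hn, z, hz, hz1, hzC⟩ := exists_base hr hks C hC
  let K : Fin (2 + 1) → SL r := baseK 3 hr
  have h1 : K ⟨1, by omega⟩ = el ⟨0, by omega⟩ (nxt ⟨0, by omega⟩) 1 := by simp [K, baseK]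
  have h2 : K ⟨2, by omega⟩ = cyc r := by simp [K, baseK]
  have h0 : K 0 = 1 := by simp [K, baseK]
  obtain ⟨U₁, hU₁, hx₁, hirr⟩ := irreducible_nhd hr K ⟨1, by omega⟩ ⟨2, by omega⟩ h1 h2 z
  obtain ⟨U, hU, hx, hUU, hvan, hprime⟩ := vanishing_nhd (g := 2) le_rfl hr h0 h1 h2 hz hz1 hzC
    hU₁ hx₁
  exact ⟨n, hn, U, hU, ⟨sliceT K z, (relT_sliceT K z).trans hz1, hzC, hx⟩,
    fun y hy => hirr y (hUU hy), hvan, hprime⟩

end Vale.Agent.P002.Surface
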