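import Vale.Agent.P002.Surface.Jet

/-!
Automorphisms of surface groups, given as natural bijections on tuples, and their action on the
slice where every `b`-generator is trivial.
-/

open Matrix Finset
open scoped commutatorElement

namespace Vale.Agent.P002.Surface

variable {g r : ℕ}

/-- The generators `a_i = (i, false)`, `b_i = (i, true)`. -/
abbrev Gens (g : ℕ) := Fin g × Bool

/-- The surface relation. -/
def rel {G : Type} [Group G] (y : Gens g → G) : G :=
  (List.ofFn fun i => ⁅y (i, false), y (i, true)⁆).prod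

lemma map_rel {G H : Type} [Group G] [Group H] (φ : G →* H) (y : Gens g → G) :
    φ (rel y) = rel (φ ∘ y) := by
  rw [rel, map_list_prod, List.map_ofFn, rel]
  congr 2
  funext i
  simp [map_commutatorElement]

/-- The tuple with `a_i = A_i` and `b_i = 1`. -/
def slice {G : Type} [Group G] (A : Fin g → G) : Gens g → G := fun x => if x.2 then 1 else A x.1

@[simp] lemma slice_false {G : Type} [Group G] (A : Fin g → G) (i : Fin g) :
    slice A (i, false) = A i := rfl

@[simp] lemma slice_true {G : Type} [Group G] (A : Fin g → G) (i : Fin g) :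
    slice A (i, true) = 1 := rfl

lemma map_slice {G H : Type} [Group G] [Group H] (φ : G →* H) (A : Fin g → G) :
    φ ∘ slice A = slice (φ ∘ A) := by
  funext ⟨i, b⟩
  cases b <;> simp

lemma rel_slice {G : Type} [Group G] (A : Fin g → G) : rel (slice A) = 1 :=
  List.prod_eq_one fun x hx => by
    obtain ⟨i, rfl⟩ := List.mem_ofFn.1 hx
    simp [commutatorElement_def]

lemma prod_ofFn_congr_pair {G : Type} [Group G] : ∀ {n : ℕ} (k : ℕ) (hk : k + 1 < n)
    (f f' : Fin n → G), (∀ i : Fin n, i.1 ≠ k → i.1 ≠ k + 1 → f i = f' i) →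
    f ⟨k, by omega⟩ * f ⟨k + 1, hk⟩ = f' ⟨k, by omega⟩ * f' ⟨k + 1, hk⟩ →
    (List.ofFn f).prod = (List.ofFn f').prod
  | 0, k, hk, _, _, _, _ => absurd hk (by omega)
  | n + 1, 0, hk, f, f', hne, he => by
    obtain ⟨m, rfl⟩ : ∃ m, n = m + 1 := ⟨n - 1, by omega⟩
    rw [List.ofFn_succ, List.ofFn_succ, List.ofFn_succ (f := f'), List.ofFn_succ]
    simp only [List.prod_cons, ← mul_assoc]
    rw [show f 0 * f (Fin.succ 0) = f' 0 * f' (Fin.succ 0) from he]
    congr 2
    refine congrArg List.ofFn (funext fun i => hne _ ?_ ?_) <;> simp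
  | n + 1, k + 1, hk, f, f', hne, he => by
    rw [List.ofFn_succ, List.ofFn_succ (f := f'), List.prod_cons, List.prod_cons,
      hne 0 (by simp) (by simp), prod_ofFn_congr_pair k (by omega) (fun i => f i.succ)
        (fun i => f' i.succ) (fun i h1 h2 => hne _ (by simpa using h1) (by simpa using h2)) he]

/-- A natural bijection on tuples preserving the relation. -/
structure Aut (g : ℕ) where
  /-- The map. -/
  f : (G : Type) → [Group G] → (Gens g → G) → Gens g → G
  /-- The inverse map. -/
  b : (G : Type) → [Group G] → (Gens g → G) → Gens g → G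
  natural : ∀ {G H : Type} [Group G] [Group H] (φ : G →* H) (y : Gens g → G),
    φ ∘ f G y = f H (φ ∘ y)
  natural_b : ∀ {G H : Type} [Group G] [Group H] (φ : G →* H) (y : Gens g → G),
    φ ∘ b G y = b H (φ ∘ y)
  left : ∀ {G : Type} [Group G] (y : Gens g → G), b G (f G y) = y
  right : ∀ {G : Type} [Group G] (y : Gens g → G), f G (b G y) = y
  rel_f : ∀ {G : Type} [Group G] (y : Gens g → G), rel (f G y) = rel y
  rel_b : ∀ {G : Type} [Group G] (y : Gens g → G), rel (b G y) = rel y

namespace Aut

/-- The identity. -/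
def refl (g : ℕ) : Aut g where
  f _ _ y := y
  b _ _ y := y
  natural _ _ := rfl
  natural_b _ _ := rfl
  left _ := rfl
  right _ := rfl
  rel_f _ := rfl
  rel_b _ := rfl

/-- The inverse. -/
def symm (e : Aut g) : Aut g where
  f := e.b
  b := e.f
  natural := e.natural_b
  natural_b := e.natural
  left := e.right
  right := e.left
  rel_f := e.rel_b
  rel_b := e.rel_f

/-- First `e`, then `e'`. -/
def trans (e e' : Aut g) : Aut g where
  f G _ y := e'.f G (e.f G y)
  b G _ y := e.b G (e'.b G y)
  natural φ y := by rw [e'.natural, e.natural]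
  natural_b φ y := by rw [e.natural_b, e'.natural_b]
  left y := by rw [e'.left, e.left]
  right y := by rw [e.right, e'.right]
  rel_f y := by rw [e'.rel_f, e.rel_f]
  rel_b y := by rw [e.rel_b, e'.rel_b]

lemma f_mem (e : Aut g) {G : Type} [Group G] (H : Subgroup G) (y : Gens g → G)
    (hy : ∀ x, y x ∈ H) (x : Gens g) : e.f G y x ∈ H := by
  have h := congrFun (e.natural H.subtype fun x => ⟨y x, hy x⟩) x
  exact h ▸ ((e.f H fun x => ⟨y x, hy x⟩) x).2

lemma b_mem (e : Aut g) {G : Type} [Group G] (H : Subgroup G) (y : Gens g → G)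
    (hy : ∀ x, y x ∈ H) (x : Gens g) : e.b G y x ∈ H := e.symm.f_mem H y hy x

end Aut

/-- The exchange of two consecutive handles. -/
def swapAut (k k' : Fin g) (hk : k'.1 = k.1 + 1) : Aut g where
  f _ _ y := fun x => if x.1 = k then ⁅y (k, false), y (k, true)⁆ * y (k', x.2) *
      ⁅y (k, false), y (k, true)⁆⁻¹ else if x.1 = k' then y (k, x.2) else y x
  b _ _ y := fun x => if x.1 = k then y (k', x.2) else if x.1 = k' then
      ⁅y (k', false), y (k', true)⁆⁻¹ * y (k, x.2) * ⁅y (k', false), y (k', true)⁆ else y x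
  natural φ y := by
    funext x
    simp only [Function.comp_apply]
    split_ifs <;> simp [map_commutatorElement]
  natural_b φ y := by
    funext x
    simp only [Function.comp_apply]
    split_ifs <;> simp [map_commutatorElement]
  left y := by
    have hne : k' ≠ k := fun e => by simp [e] at hk
    funext ⟨i, c⟩
    by_cases h1 : i = k
    · subst h1; simp [hne]
    · by_cases h2 : i = k'
      · subst h2; simp [hne, commutatorElement_def]; group
      · simp [h1, h2]
  right y := by
    have hne : k' ≠ k := fun e => by simp [e] at hk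
    funext ⟨i, c⟩
    by_cases h1 : i = k
    · subst h1; simp [hne, commutatorElement_def]; group
    · by_cases h2 : i = k'
      · subst h2; simp [hne]
      · simp [h1, h2]
  rel_f y := by
    have hne : k' ≠ k := fun e => by simp [e] at hk
    refine prod_ofFn_congr_pair k.1 (by omega) _ _ (fun i h1 h2 => ?_) ?_
    · have e1 : i ≠ k := fun e => h1 (congrArg Fin.val e)
      have e2 : i ≠ k' := fun e => h2 (by rw [e, hk])
      simp [e1, e2]
    · have e : (⟨k.1 + 1, by omega⟩ : Fin g) = k' := Fin.ext hk.symm
      simp only [Fin.eta, e, hne, if_false, if_true]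
      simp only [commutatorElement_def]
      group
  rel_b y := by
    have hne : k' ≠ k := fun e => by simp [e] at hk
    refine prod_ofFn_congr_pair k.1 (by omega) _ _ (fun i h1 h2 => ?_) ?_
    · have e1 : i ≠ k := fun e => h1 (congrArg Fin.val e)
      have e2 : i ≠ k' := fun e => h2 (by rw [e, hk])
      simp [e1, e2]
    · have e : (⟨k.1 + 1, by omega⟩ : Fin g) = k' := Fin.ext hk.symm
      simp only [Fin.eta, e, hne, if_false, if_true]
      simp only [commutatorElement_def]
      group

/-- A transvection between two consecutive handles. -/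
def slideAut (i j : Fin g) (hij : j.1 = i.1 + 1) : Aut g where
  f _ _ y := fun x => if x.1 = i then
      (bif x.2 then (y (j, false))⁻¹ * y (i, true) * y (j, false) else y (i, false) * y (j, false))
    else if x.1 = j then
      (bif x.2 then y (j, true) * ((y (j, false))⁻¹ * y (i, true) * y (j, false))⁻¹
       else ((y (j, false))⁻¹ * y (i, true) * y (j, false)) * y (j, false) *
        ((y (j, false))⁻¹ * y (i, true) * y (j, false))⁻¹)
    else y x
  b _ _ y := fun x => if x.1 = i then
      (bif x.2 then ((y (i, true))⁻¹ * y (j, false) * y (i, true)) * y (i, true) *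
          ((y (i, true))⁻¹ * y (j, false) * y (i, true))⁻¹
       else y (i, false) * ((y (i, true))⁻¹ * y (j, false) * y (i, true))⁻¹)
    else if x.1 = j then
      (bif x.2 then y (j, true) * y (i, true) else (y (i, true))⁻¹ * y (j, false) * y (i, true))
    else y x
  natural φ y := by
    funext ⟨k, c⟩
    simp only [Function.comp_apply]
    split_ifs <;> cases c <;> simp
  natural_b φ y := by
    funext ⟨k, c⟩
    simp only [Function.comp_apply]
    split_ifs <;> cases c <;> simp
  left y := by
    have hne : j ≠ i := fun e => by simp [e] at hij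
    funext ⟨k, c⟩
    by_cases h1 : k = i
    · subst h1; cases c <;> simp [hne] <;> group
    · by_cases h2 : k = j
      · subst h2; cases c <;> simp [hne] <;> group
      · simp [h1, h2]
  right y := by
    have hne : j ≠ i := fun e => by simp [e] at hij
    funext ⟨k, c⟩
    by_cases h1 : k = i
    · subst h1; cases c <;> simp [hne] <;> group
    · by_cases h2 : k = j
      · subst h2; cases c <;> simp [hne] <;> group
      · simp [h1, h2]
  rel_f y := by
    have hne : j ≠ i := fun e => by simp [e] at hij
    refine prod_ofFn_congr_pair i.1 (by omega) _ _ (fun k h1 h2 => ?_) ?_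
    · have e1 : k ≠ i := fun e => h1 (congrArg Fin.val e)
      have e2 : k ≠ j := fun e => h2 (by rw [e, hij])
      simp [e1, e2]
    · have e : (⟨i.1 + 1, by omega⟩ : Fin g) = j := Fin.ext hij.symm
      simp only [Fin.eta, e, hne, if_false, if_true, cond_true, cond_false]
      simp only [commutatorElement_def]
      group
  rel_b y := by
    have hne : j ≠ i := fun e => by simp [e] at hij
    refine prod_ofFn_congr_pair i.1 (by omega) _ _ (fun k h1 h2 => ?_) ?_
    · have e1 : k ≠ i := fun e => h1 (congrArg Fin.val e)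
      have e2 : k ≠ j := fun e => h2 (by rw [e, hij])
      simp [e1, e2]
    · have e : (⟨i.1 + 1, by omega⟩ : Fin g) = j := Fin.ext hij.symm
      simp only [Fin.eta, e, hne, if_false, if_true, cond_true, cond_false]
      simp only [commutatorElement_def]
      group

/-- The slice is preserved. -/
def SlicePres (e : Aut g) : Prop :=
  ∀ (G : Type) [Group G] (A : Fin g → G) (i : Fin g), e.f G (slice A) (i, true) = 1

lemma SlicePres.eq {e : Aut g} (h : SlicePres e) {G : Type} [Group G] (A : Fin g → G) :
    e.f G (slice A) = slice fun i => e.f G (slice A) (i, false) := by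
  funext ⟨i, c⟩
  cases c
  · rfl
  · exact h G A i

/-- The pairing between deformations along the slice and transverse to it is preserved. -/
def Dual (r : ℕ) (e : Aut g) : Prop :=
  ∀ (A : Fin g → SL r) (c : Fin g → Mat r) (δ : Gens g → Mat r),
    ∑ i, (c i * δ (i, true)).trace =
      ∑ i, ((e.f (Jet r) (slice fun i => ⟨A i, c i⟩) (i, false)).v *
        (e.f (Jet r) (fun x => ⟨slice A x, δ x⟩) (i, true)).v).trace

lemma proj_jets (A : Fin g → SL r) (δ : Gens g → Mat r) :
    Jet.proj ∘ (fun x => (⟨slice A x, δ x⟩ : Jet r)) = slice A := rfl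

lemma Dual.trans {e e' : Aut g} (h : Dual r e) (hs : SlicePres e) (h' : Dual r e') :
    Dual r (e.trans e') := by
  intro A c δ
  rw [h A c δ]
  set p := e.f (Jet r) (slice fun i => ⟨A i, c i⟩)
  set q := e.f (Jet r) fun x => ⟨slice A x, δ x⟩
  let A' : Fin g → SL r := fun i => e.f (SL r) (slice A) (i, false)
  have hp : p = slice fun i => ⟨A' i, (p (i, false)).v⟩ := by
    refine (hs.eq _).trans (congrArg slice (funext fun i => Jet.ext ?_ rfl))
    have := congrFun (e.natural Jet.proj (slice fun i => (⟨A i, c i⟩ : Jet r))) (i, false)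
    rw [map_slice] at this
    exact this
  have hq : q = fun x => ⟨slice A' x, (q x).v⟩ := by
    funext x
    refine Jet.ext ?_ rfl
    have := congrFun (e.natural Jet.proj (fun x => (⟨slice A x, δ x⟩ : Jet r))) x
    rw [proj_jets, hs.eq A] at this
    exact this
  have := h' A' (fun i => (p (i, false)).v) (fun x => (q x).v)
  rw [← hp, ← hq] at this
  exact this

lemma SlicePres.trans {e e' : Aut g} (h : SlicePres e) (h' : SlicePres e') :
    SlicePres (e.trans e') := by
  intro G _ A i
  show e'.f G (e.f G (slice A)) (i, true) = 1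
  rw [h.eq A]
  exact h' G _ i

lemma Dual.symm {e : Aut g} (h : Dual r e) (hs : SlicePres e.symm) : Dual r e.symm := by
  intro A c δ
  set p := e.b (Jet r) (slice fun i => ⟨A i, c i⟩) with hpd
  set q := e.b (Jet r) (fun x => ⟨slice A x, δ x⟩) with hqd
  let A' : Fin g → SL r := fun i => e.b (SL r) (slice A) (i, false)
  have hp : p = slice fun i => ⟨A' i, (p (i, false)).v⟩ := by
    refine (hs.eq _).trans (congrArg slice (funext fun i => Jet.ext ?_ rfl))
    have := congrFun (e.natural_b Jet.proj (slice fun i => (⟨A i, c i⟩ : Jet r))) (i, false)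
    rw [map_slice] at this
    exact this
  have hq : q = fun x => ⟨slice A' x, (q x).v⟩ := by
    funext x
    refine Jet.ext ?_ rfl
    have := congrFun (e.natural_b Jet.proj (fun x => (⟨slice A x, δ x⟩ : Jet r))) x
    rw [proj_jets, show e.b (SL r) (slice A) = slice A' from hs.eq A] at this
    exact this
  have := h A' (fun i => (p (i, false)).v) (fun x => (q x).v)
  rw [← hp, ← hq, hpd, hqd, e.right, e.right] at this
  exact this.symm

lemma slicePres_swap (k k' : Fin g) (hk : k'.1 = k.1 + 1) : SlicePres (swapAut k k' hk) := by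
  intro G _ A i
  simp [swapAut, slice, commutatorElement_def]

lemma slicePres_slide (i j : Fin g) (hij : j.1 = i.1 + 1) : SlicePres (slideAut i j hij) := by
  intro G _ A k
  simp [slideAut, slice]

lemma slicePres_slide_symm (i j : Fin g) (hij : j.1 = i.1 + 1) :
    SlicePres (slideAut i j hij).symm := by
  intro G _ A k
  simp [slideAut, Aut.symm, slice]

lemma sum_two (k k' : Fin g) (hne : k' ≠ k) (F F' : Fin g → ℂ)
    (h : ∀ i, i ≠ k → i ≠ k' → F i = F' i) (h2 : F k + F k' = F' k + F' k') :
    ∑ i, F i = ∑ i, F' i := by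
  have hm : k' ∈ univ.erase k := Finset.mem_erase.2 ⟨hne, Finset.mem_univ _⟩
  rw [← Finset.add_sum_erase _ F (Finset.mem_univ k), ← Finset.add_sum_erase _ F' (Finset.mem_univ k),
    ← Finset.add_sum_erase _ F hm, ← Finset.add_sum_erase _ F' hm, ← add_assoc, ← add_assoc, h2]
  congr 1
  refine Finset.sum_congr rfl fun i hi => ?_
  simp only [Finset.mem_erase] at hi
  exact h i hi.2.1 hi.1

lemma ad_ad_inv (M : SL r) (v : Mat r) : ad M (ad M⁻¹ v) = v := by
  rw [← ad_mul, inv_mul_cancel, ad_one]

lemma dual_swap (k k' : Fin g) (hk : k'.1 = k.1 + 1) : Dual r (swapAut k k' hk) := by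
  have hne : k' ≠ k := fun e => by simp [e] at hk
  intro A c δ
  refine sum_two k k' hne _ _ (fun i h1 h2 => by simp [swapAut, h1, h2]) ?_
  simp [swapAut, hne, slice, commutatorElement_def, add_comm, Matrix.mul_add, Matrix.trace_add]
  ring

lemma dual_slide (i j : Fin g) (hij : j.1 = i.1 + 1) : Dual r (slideAut i j hij) := by
  have hne : j ≠ i := fun e => by simp [e] at hij
  intro A c δ
  refine sum_two i j hne _ _ (fun k h1 h2 => by simp [slideAut, h1, h2]) ?_
  simp [slideAut, hne, slice, mul_add, add_mul, Matrix.trace_add, ad_ad_inv]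
  have key : ∀ (M : SL r) (v w : Mat r), (ad M v * ad M w).trace = (v * w).trace := fun M v w => by
    have : ad M v * ad M w = ad M (v * w) := by
      simp only [ad, Matrix.mul_assoc]
      rw [← Matrix.mul_assoc M.1 (M⁻¹).1, val_mul_inv, one_mul]
    rw [this, trace_ad]
  rw [key]
  ring

/-- The slice action `a₀ ↦ a₀ u`, all others fixed. -/
def Acts (i0 : Fin g) (e : Aut g) (u : FreeGroup (Fin g)) : Prop :=
  ∀ (G : Type) [Group G] (A : Fin g → G),
    e.f G (slice A) = slice (Function.update A i0 (A i0 * FreeGroup.lift A u))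

lemma Acts.slicePres {i0 : Fin g} {e : Aut g} {u : FreeGroup (Fin g)} (h : Acts i0 e u) :
    SlicePres e := fun G _ A i => by rw [h G A]; rfl

/-- Generators other than the distinguished one. -/
def others (i0 : Fin g) : Subgroup (FreeGroup (Fin g)) :=
  Subgroup.closure (FreeGroup.of '' {j | j ≠ i0})

lemma lift_others {i0 : Fin g} {G : Type} [Group G] {A A' : Fin g → G}
    (h : ∀ j, j ≠ i0 → A j = A' j) {u : FreeGroup (Fin g)} (hu : u ∈ others i0) :
    FreeGroup.lift A u = FreeGroup.lift A' u := by
  have hle : others i0 ≤ (FreeGroup.lift A).eqLocus (FreeGroup.lift A') := by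
    rw [others, Subgroup.closure_le]
    rintro _ ⟨j, hj, rfl⟩
    show FreeGroup.lift A (FreeGroup.of j) = FreeGroup.lift A' (FreeGroup.of j)
    simpa using h j hj
  exact hle hu

lemma exists_gen (hg : 2 ≤ g) (j : Fin g) (hj : j ≠ ⟨0, by omega⟩) :
    ∃ e : Aut g, Dual r e ∧ Acts ⟨0, by omega⟩ e (FreeGroup.of j) := by
  obtain ⟨n, hn⟩ : ∃ n, j.1 = n + 1 := ⟨j.1 - 1, by
    have : j.1 ≠ 0 := fun e => hj (Fin.ext e)
    omega⟩
  induction n generalizing j with
  | zero =>
    refine ⟨slideAut ⟨0, by omega⟩ j hn, dual_slide _ _ _, fun G _ A => ?_⟩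
    funext ⟨i, c⟩
    by_cases h1 : i = ⟨0, by omega⟩
    · subst h1; cases c <;> simp [slideAut, slice]
    · by_cases h2 : i = j
      · subst h2; cases c <;> simp [slideAut, slice, h1]
      · simp [slideAut, slice, h1, h2]
  | succ n ih =>
    let k : Fin g := ⟨n + 1, by omega⟩
    have hk0 : k ≠ ⟨0, by omega⟩ := fun e => by simp [k] at e
    obtain ⟨e, hd, ha⟩ := ih k hk0 rfl
    have hjk : j ≠ k := fun e => by simp [e, k] at hn
    set S := swapAut k j hn with hS
    have hSa : ∀ (G : Type) [Group G] (A : Fin g → G),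
        S.f G (slice A) = slice fun i => A (Equiv.swap k j i) := by
      intro G _ A
      funext ⟨i, c⟩
      by_cases h1 : i = k
      · subst h1; cases c <;> simp [hS, swapAut, slice, commutatorElement_def]
      · by_cases h2 : i = j
        · subst h2; cases c <;> simp [hS, swapAut, slice, h1]
        · cases c <;> simp [hS, swapAut, slice, h1, h2, Equiv.swap_apply_of_ne_of_ne h1 h2]
    refine ⟨(S.trans e).trans S,
      ((dual_swap _ _ hn).trans (slicePres_swap _ _ hn) hd).trans
        ((slicePres_swap _ _ hn).trans ha.slicePres) (dual_swap _ _ hn), fun G _ A => ?_⟩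
    show S.f G (e.f G (S.f G (slice A))) = _
    rw [hSa, ha, hSa]
    congr 1
    funext i
    have h0 : Equiv.swap k j (⟨0, by omega⟩ : Fin g) = ⟨0, by omega⟩ :=
      Equiv.swap_apply_of_ne_of_ne hk0.symm hj.symm
    by_cases hi : i = ⟨0, by omega⟩
    · subst hi
      simp [h0]
    · have hsi : Equiv.swap k j i ≠ ⟨0, by omega⟩ := fun e => hi (by
        rw [← h0] at e; exact (Equiv.swap k j).injective e)
      simp [hi, hsi, Equiv.swap_apply_self]

lemma Acts.trans {i0 : Fin g} {e e' : Aut g} {u u' : FreeGroup (Fin g)} (h : Acts i0 e u)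
    (h' : Acts i0 e' u') (hu' : u' ∈ others i0) : Acts i0 (e.trans e') (u * u') := by
  intro G _ A
  show e'.f G (e.f G (slice A)) = _
  rw [h, h']
  congr 1
  funext i
  by_cases hi : i = i0
  · subst hi
    simp [lift_others (fun j hj => Function.update_of_ne hj _ A) hu', mul_assoc]
  · simp [hi]

lemma Acts.symm {i0 : Fin g} {e : Aut g} {u : FreeGroup (Fin g)} (h : Acts i0 e u)
    (hu : u ∈ others i0) : Acts i0 e.symm u⁻¹ := by
  intro G _ A
  show e.b G (slice A) = _
  have h1 := h G (Function.update A i0 (A i0 * FreeGroup.lift A u⁻¹))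
  rw [Function.update_idem, lift_others (fun j hj => Function.update_of_ne hj _ A) hu] at h1
  rw [Function.update_self, map_inv, inv_mul_cancel_right, Function.update_eq_self] at h1
  rw [← h1, e.left, map_inv]

/-- Every word in the other generators is realised. -/
theorem exists_move (hg : 2 ≤ g) {u : FreeGroup (Fin g)} (hu : u ∈ others ⟨0, by omega⟩) :
    ∃ e : Aut g, Dual r e ∧ Acts ⟨0, by omega⟩ e u := by
  induction hu using Subgroup.closure_induction with
  | mem x hx =>
    obtain ⟨j, hj, rfl⟩ := hx
    exact exists_gen hg j hj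
  | one =>
    exact ⟨Aut.refl g, fun A c δ => rfl, fun G _ A => by simp [Aut.refl]⟩
  | mul x y hx hy ihx ihy =>
    obtain ⟨e, hd, ha⟩ := ihx
    obtain ⟨e', hd', ha'⟩ := ihy
    exact ⟨e.trans e', hd.trans ha.slicePres hd', ha.trans ha' hy⟩
  | inv x hx ih =>
    obtain ⟨e, hd, ha⟩ := ih
    exact ⟨e.symm, hd.symm (ha.symm hx).slicePres, ha.symm hx⟩

end Vale.Agent.P002.Surface
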