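import Vale.Agent.P002.Surface.Indep
import Vale.Agent.P002.Surface.Moves

/-!
Cocycles on `SL_r(ℂ)` orthogonal to the twist directions are coboundaries.
-/

open Matrix Finset

namespace Vale.Agent.P002.Surface

variable {r : ℕ}

/-- The cyclic successor as a permutation. -/
noncomputable def rot (r : ℕ) : Equiv.Perm (Fin r) :=
  Equiv.ofBijective nxt (Finite.injective_iff_bijective.1 fun a b h => by
    have := congrArg Fin.val h
    simp only [nxt] at this
    have ha := a.isLt
    have hb := b.isLt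
    refine Fin.ext ?_
    rcases lt_or_ge (a.1 + 1) r with h1 | h1 <;> rcases lt_or_ge (b.1 + 1) r with h2 | h2
    · rw [Nat.mod_eq_of_lt h1, Nat.mod_eq_of_lt h2] at this; omega
    · rw [Nat.mod_eq_of_lt h1, show b.1 + 1 = r by omega, Nat.mod_self] at this; omega
    · rw [Nat.mod_eq_of_lt h2, show a.1 + 1 = r by omega, Nat.mod_self] at this; omega
    · omega)

@[simp] lemma rot_apply (i : Fin r) : rot r i = nxt i := rfl

/-- The signs of the cyclic element. -/
noncomputable def cycSign (p : Fin r) : ℂ :=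
  if p.1 + 1 = r then ((Equiv.Perm.sign (rot r) : ℤ) : ℂ) else 1

lemma cycSign_sq (p : Fin r) : cycSign p * cycSign p = 1 := by
  unfold cycSign
  split_ifs
  · rcases Int.units_eq_one_or (Equiv.Perm.sign (rot r)) with h | h <;> simp [h]
  · simp

/-- The signed cyclic permutation matrix. -/
noncomputable def cyc (r : ℕ) : SL r :=
  ⟨Matrix.diagonal cycSign * (rot r).permMatrix ℂ, by
    rw [Matrix.det_mul, Matrix.det_diagonal, Matrix.det_permutation]
    rcases Nat.eq_zero_or_pos r with h | h
    · subst h; simp [Subsingleton.elim (rot 0) 1]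
    · rw [Finset.prod_eq_single (⟨r - 1, by omega⟩ : Fin r)]
      · rw [cycSign, if_pos (show r - 1 + 1 = r by omega)]
        rcases Int.units_eq_one_or (Equiv.Perm.sign (rot r)) with h | h <;> simp [h]
      · intro p _ hp
        rw [cycSign, if_neg]
        intro e
        exact hp (Fin.ext (show p.1 = r - 1 by omega))
      · simp⟩

lemma cyc_val (p q : Fin r) : (cyc r).1 p q = if nxt p = q then cycSign p else 0 := by
  show (Matrix.diagonal cycSign * (rot r).permMatrix ℂ : Mat r) p q = _
  rw [Matrix.diagonal_mul]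
  simp [Equiv.Perm.permMatrix]

lemma nxt_ne (hr : 2 ≤ r) (p : Fin r) : nxt p ≠ p := by
  intro h
  have := congrArg Fin.val h
  simp only [nxt] at this
  have hp := p.isLt
  rcases lt_or_ge (p.1 + 1) r with h1 | h1
  · rw [Nat.mod_eq_of_lt h1] at this; omega
  · rw [show p.1 + 1 = r by omega, Nat.mod_self] at this; omega

lemma cyc_conj (hr : 2 ≤ r) (p : Fin r) (t : ℂ) :
    el (nxt p) (nxt (nxt p)) t =
      (cyc r)⁻¹ * el p (nxt p) (cycSign p * cycSign (nxt p) * t) * cyc r := by
  have h1 := nxt_ne hr p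
  have h2 := nxt_ne hr (nxt p)
  rw [mul_assoc, eq_inv_mul_iff_mul_eq]
  refine Subtype.ext ?_
  rw [val_mul, val_mul, el_val' h2.symm, el_val' h1.symm]
  ext a b
  have hinj : ∀ x y : Fin r, nxt x = nxt y ↔ x = y := fun x y => (rot r).injective.eq_iff
  rw [Matrix.transvection, Matrix.transvection, mul_add, mul_one, add_mul, one_mul,
    Matrix.add_apply, Matrix.add_apply]
  congr 1
  by_cases hb : b = nxt (nxt p)
  · subst hb
    rw [Matrix.mul_single_apply_same, cyc_val]
    by_cases ha : a = p
    · subst ha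
      rw [Matrix.single_mul_apply_same, cyc_val]
      simp only [if_true]
      linear_combination (-cycSign a * t) * cycSign_sq (nxt a)
    · rw [if_neg (fun e => ha ((hinj _ _).1 e)), zero_mul, Matrix.single_mul_apply_of_ne _ _ _ _ _ ha]
  · rw [Matrix.mul_single_apply_of_ne _ _ _ _ _ hb]
    by_cases ha : a = p
    · subst ha
      rw [Matrix.single_mul_apply_same, cyc_val, if_neg (Ne.symm hb), mul_zero]
    · rw [Matrix.single_mul_apply_of_ne _ _ _ _ _ ha]

/-- The diagonal element of `SL_r` with given entries. -/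
noncomputable def dSL (d : Fin r → ℂ) (hd : ∏ i, d i = 1) : SL r :=
  ⟨Matrix.diagonal d, by rw [Matrix.det_diagonal, hd]⟩

lemma dSL_val (d : Fin r → ℂ) (hd : ∏ i, d i = 1) : (dSL d hd).1 = Matrix.diagonal d := rfl

lemma diag_ne_zero {d : Fin r → ℂ} (hd : ∏ i, d i = 1) (i : Fin r) : d i ≠ 0 := fun h =>
  zero_ne_one ((Finset.prod_eq_zero (Finset.mem_univ i) h).symm.trans hd)

lemma dSL_inv_val {d : Fin r → ℂ} (hd : ∏ i, d i = 1) :
    ((dSL d hd)⁻¹).1 = Matrix.diagonal fun i => (d i)⁻¹ := by
  have h : dSL d hd * dSL (fun i => (d i)⁻¹) (by simp [hd]) = 1 := Subtype.ext (by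
    show Matrix.diagonal d * Matrix.diagonal _ = 1
    rw [Matrix.diagonal_mul_diagonal, ← Matrix.diagonal_one]
    congr 1
    funext i
    exact mul_inv_cancel₀ (diag_ne_zero hd i))
  rw [inv_eq_of_mul_eq_one_right h]
  rfl

lemma ad_dSL {d : Fin r → ℂ} (hd : ∏ i, d i = 1) (v : Mat r) (i j : Fin r) :
    ad (dSL d hd) v i j = v i j * (d j / d i) := by
  rw [ad, dSL_inv_val, dSL_val, Matrix.mul_diagonal, Matrix.diagonal_mul]
  ring

lemma Par.eq_of_sum (hr : 0 < r) {α β : Fin r → ℕ} (h : Par α β) (hs : ∑ i, α i = ∑ i, β i) :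
    α = β := by
  funext a
  have h1 : ∑ b, (α a + β b) = ∑ b, (α b + β a) := Finset.sum_congr rfl fun b _ => h a b
  simp only [Finset.sum_add_distrib, Finset.sum_const, Finset.card_univ, Fintype.card_fin,
    smul_eq_mul, hs] at h1
  exact Nat.eq_of_mul_eq_mul_left hr (by omega)

/-- The coboundary of `X`. -/
noncomputable def cob (X : Mat r) (M : SL r) : Mat r := ad M X - X

lemma cob_mul (X : Mat r) (M N : SL r) : cob X (M * N) = ad N (cob X M) + cob X N := by
  simp [cob, ad_mul]

lemma trace_cob (X : Mat r) (M : SL r) (k : ℕ) : (cob X M * M.1 ^ k).trace = 0 := by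
  have h : M.1 ^ k * (M⁻¹).1 = (M⁻¹).1 * M.1 ^ k := by
    have : Commute (M⁻¹).1 M.1 := by
      show (M⁻¹).1 * M.1 = M.1 * (M⁻¹).1
      rw [val_inv_mul, val_mul_inv]
    exact (this.pow_right k).eq.symm
  have e : (M.1 * M.1 ^ k) * (M⁻¹).1 = M.1 ^ k := by
    rw [Matrix.mul_assoc, h, ← Matrix.mul_assoc, val_mul_inv, one_mul]
  rw [cob, sub_mul, Matrix.trace_sub, sub_eq_zero, ad, Matrix.mul_assoc, Matrix.mul_assoc,
    Matrix.trace_mul_comm, Matrix.mul_assoc, e]

lemma cob_el {i j : Fin r} (h : i ≠ j) (x : Fin r → ℂ) (t : ℂ) :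
    cob (Matrix.diagonal x) (el i j t) = (t * (x i - x j)) • single i j 1 := by
  have h1 : ∀ u, single i j u * Matrix.diagonal x = single i j (u * x j) := fun u => by
    ext a b
    by_cases h' : i = a ∧ j = b
    · obtain ⟨rfl, rfl⟩ := h'; simp [Matrix.single]
    · simp [Matrix.single, h']
  have h2 : ∀ u, Matrix.diagonal x * single i j u = single i j (x i * u) := fun u => by
    ext a b
    by_cases h' : i = a ∧ j = b
    · obtain ⟨rfl, rfl⟩ := h'; simp [Matrix.single]
    · simp [Matrix.single, h']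
  rw [cob, ad, el_inv h, el_val h, el_val h]
  simp only [add_mul, one_mul, mul_add, mul_one, h1, h2,
    Matrix.single_mul_single_of_ne _ _ _ _ h.symm, add_zero]
  ext a b
  by_cases h' : i = a ∧ j = b
  · obtain ⟨rfl, rfl⟩ := h'; simp [Matrix.single]; ring
  · simp [Matrix.single, h']

lemma polyLine_scale {f : ℂ → ℂ} (hf : f ∈ Algebra.adjoin ℂ {(id : ℂ → ℂ)}) (s : ℂ) :
    (fun t => f (s * t)) ∈ Algebra.adjoin ℂ {(id : ℂ → ℂ)} := by
  induction hf using Algebra.adjoin_induction with
  | mem G hG =>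
    rw [Set.mem_singleton_iff] at hG
    subst hG
    exact (Algebra.adjoin ℂ _).smul_mem polyLine_id s
  | algebraMap c => exact (Algebra.adjoin ℂ _).algebraMap_mem c
  | add G G' _ _ h h' => exact (Algebra.adjoin ℂ _).add_mem h h'
  | mul G G' _ _ h h' => exact (Algebra.adjoin ℂ _).mul_mem h h'

lemma polyLine_eigen {f : ℂ → ℂ} (hf : f ∈ Algebra.adjoin ℂ {(id : ℂ → ℂ)}) {μ κ : ℂ}
    (h : ∀ t, f (μ * t) = κ * f t) :
    ∃ p : Polynomial ℂ, (∀ t, f t = p.eval t) ∧ ∀ n, μ ^ n ≠ κ → p.coeff n = 0 := by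
  rw [Algebra.adjoin_singleton_eq_range_aeval] at hf
  obtain ⟨p, rfl⟩ := hf
  have he : ∀ t, (Polynomial.aeval (id : ℂ → ℂ) p) t = p.eval t := fun t => by
    induction p using Polynomial.induction_on' with
    | add a b _ _ => simp
    | monomial n a => simp
  refine ⟨p, he, fun n hn => ?_⟩
  have h2 : p.comp (Polynomial.C μ * Polynomial.X) = Polynomial.C κ * p := Polynomial.funext fun t => by
    simpa [he] using h t
  have h3 := congrArg (fun q : Polynomial ℂ => q.coeff n) h2
  simp only [Polynomial.comp_C_mul_X_coeff, Polynomial.coeff_C_mul] at h3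
  rcases mul_eq_mul_right_iff.1 ((mul_comm _ _).trans h3 : μ ^ n * p.coeff n = κ * p.coeff n)
    with h4 | h4
  · exact absurd h4 hn
  · exact h4

/-- A matrix-valued family with entries in `S`. -/
def MatMem {E : Type} (S : Subalgebra ℂ (E → ℂ)) (W : E → Mat r) : Prop :=
  ∀ i j, (fun e => W e i j) ∈ S

lemma MatMem.const {E : Type} (S : Subalgebra ℂ (E → ℂ)) (W : Mat r) :
    MatMem S fun _ => W := fun i j => S.algebraMap_mem (W i j)

lemma MatMem.add {E : Type} {S : Subalgebra ℂ (E → ℂ)} {V W : E → Mat r} (hV : MatMem S V)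
    (hW : MatMem S W) : MatMem S fun e => V e + W e := fun i j => S.add_mem (hV i j) (hW i j)

lemma MatMem.smul {E : Type} {S : Subalgebra ℂ (E → ℂ)} {f : E → ℂ} (hf : f ∈ S)
    {W : E → Mat r} (hW : MatMem S W) : MatMem S fun e => f e • W e := fun i j =>
  S.mul_mem hf (hW i j)

lemma MatMem.mul {E : Type} {S : Subalgebra ℂ (E → ℂ)} {V W : E → Mat r} (hV : MatMem S V)
    (hW : MatMem S W) : MatMem S fun e => V e * W e := fun i j => by
  have e : (fun e => (V e * W e) i j) = ∑ k, (fun e => V e i k) * fun e => W e k j := by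
    funext x
    rw [Finset.sum_apply]
    exact Matrix.mul_apply
  rw [e]
  exact S.sum_mem fun k _ => S.mul_mem (hV i k) (hW k j)

lemma MatMem.pow {E : Type} {S : Subalgebra ℂ (E → ℂ)} {V : E → Mat r} (hV : MatMem S V) :
    ∀ k : ℕ, MatMem S fun e => V e ^ k
  | 0 => by simpa using MatMem.const S (1 : Mat r)
  | k + 1 => by simpa [pow_succ] using (hV.pow k).mul hV

lemma MatMem.trace {E : Type} {S : Subalgebra ℂ (E → ℂ)} {V : E → Mat r} (hV : MatMem S V) :
    (fun e => (V e).trace) ∈ S := by
  have e : (fun e => (V e).trace) = ∑ k, fun e => V e k k := by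
    funext x
    simp [Matrix.trace, Finset.sum_apply]
  rw [e]
  exact S.sum_mem fun k _ => hV k k

lemma matMem_val {E : Type} {S : Subalgebra ℂ (E → ℂ)} {f : E → SL r} (hf : f ∈ entGroup S) :
    MatMem S fun e => (f e).1 := hf

lemma matMem_ad {E : Type} {S : Subalgebra ℂ (E → ℂ)} {f : E → SL r} (hf : f ∈ entGroup S)
    {W : E → Mat r} (hW : MatMem S W) : MatMem S fun e => ad (f e) (W e) :=
  (((matMem_val ((entGroup S).inv_mem hf)).mul hW).mul (matMem_val hf))

/-- The cyclically adjacent pairs. -/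
lemma el_nxt_induction (hr : 2 ≤ r) {motive : Fin r → Prop} (h0 : motive ⟨0, by omega⟩)
    (hs : ∀ p, motive p → motive (nxt p)) : ∀ p, motive p := by
  intro ⟨n, hn⟩
  induction n with
  | zero => exact h0
  | succ n ih =>
    have := hs _ (ih (by omega))
    have e : nxt (⟨n, by omega⟩ : Fin r) = ⟨n + 1, hn⟩ := Fin.ext (Nat.mod_eq_of_lt hn)
    rwa [e] at this

lemma cocycle_one {σ : SL r → Mat r} (hmul : ∀ M N, σ (M * N) = ad N (σ M) + σ N) : σ 1 = 0 := by
  have h := hmul 1 1
  rw [mul_one, ad_one] at h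
  simpa using h

/-- The kernel of a cocycle. -/
def cocycleKer {σ : SL r → Mat r} (hmul : ∀ M N, σ (M * N) = ad N (σ M) + σ N) :
    Subgroup (SL r) where
  carrier := {M | σ M = 0}
  one_mem' := cocycle_one hmul
  mul_mem' := fun {a b} ha hb => by
    simp only [Set.mem_ofPred_eq] at *
    simp [hmul, ha, hb]
  inv_mem' := fun {a} ha => by
    simp only [Set.mem_ofPred_eq] at *
    have h := hmul a a⁻¹
    rw [mul_inv_cancel, cocycle_one hmul, ha] at h
    simpa using h.symm

lemma el_poly (hr : 2 ≤ r) {σ : SL r → Mat r} (hmul : ∀ M N, σ (M * N) = ad N (σ M) + σ N)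
    (hp : MatMem (Algebra.adjoin ℂ {(id : ℂ → ℂ)})
      fun t => σ (el ⟨0, by omega⟩ (nxt ⟨0, by omega⟩) t)) :
    ∀ p, MatMem (Algebra.adjoin ℂ {(id : ℂ → ℂ)}) fun t => σ (el p (nxt p) t) := by
  refine el_nxt_induction hr hp fun p ih => ?_
  set s := cycSign p * cycSign (nxt p)
  have e : (fun t => σ (el (nxt p) (nxt (nxt p)) t)) = fun t =>
      ad (cyc r) (ad (el p (nxt p) (s * t)) (σ (cyc r)⁻¹) + σ (el p (nxt p) (s * t))) +
        σ (cyc r) := by
    funext t
    rw [cyc_conj hr, hmul, hmul]
  rw [e]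
  have hs : (fun t : ℂ => s * t) ∈ Algebra.adjoin ℂ {(id : ℂ → ℂ)} :=
    polyLine_scale polyLine_id s
  exact (matMem_ad (const_mem _ _) ((matMem_ad (el_mem _ _ _ hs) (MatMem.const _ _)).add
    fun i j => polyLine_scale (ih i j) s)).add (MatMem.const _ _)

lemma el_linear (hr : 2 ≤ r) {σ : SL r → Mat r}
    (hmul : ∀ M N, σ (M * N) = ad N (σ M) + σ N) {d : Fin r → ℂ} (hd : ∏ i, d i = 1)
    (hI : Indep d) (hh : σ (dSL d hd) = 0) (p : Fin r)
    (hp : MatMem (Algebra.adjoin ℂ {(id : ℂ → ℂ)}) fun t => σ (el p (nxt p) t)) :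
    ∃ c : ℂ, ∀ t, σ (el p (nxt p) t) = (c * t) • single p (nxt p) 1 := by
  set j := nxt p
  have hpj : p ≠ j := (nxt_ne hr p).symm
  have hne := diag_ne_zero hd
  have heig : ∀ a b t, σ (el p j (d p / d j * t)) a b = d a / d b * σ (el p j t) a b := by
    intro a b t
    have e : dSL d hd * el p j t = el p j (d p / d j * t) * dSL d hd := by
      refine Subtype.ext ?_
      rw [val_mul, val_mul, el_val' hpj, el_val' hpj, dSL_val]
      ext x y
      rw [Matrix.diagonal_mul, Matrix.mul_diagonal]
      simp only [Matrix.transvection, Matrix.add_apply, Matrix.one_apply, Matrix.single,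
        Matrix.of_apply]
      by_cases hxy : x = y
      · subst hxy
        have : ¬(p = x ∧ j = x) := fun h => hpj (h.1.trans h.2.symm)
        simp [this, mul_comm]
      · by_cases h : p = x ∧ j = y
        · obtain ⟨rfl, rfl⟩ := h
          simp [hxy]
          field_simp [hne j]
        · simp [hxy, h]
    have h := congrArg (fun M => σ M) e
    simp only [hmul, hh, ad_zero, zero_add, add_zero] at h
    have h2 := congrFun (congrFun h a) b
    rw [ad_dSL] at h2
    rw [h2]
    field_simp [hne a, hne b]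
  have hcase : ∀ (a b : Fin r) (n : ℕ), (d p / d j) ^ n = d a / d b →
      (a = b ∧ n = 0) ∨ (a = p ∧ b = j ∧ n = 1) := by
    intro a b n h
    rw [div_pow, div_eq_div_iff (pow_ne_zero _ (hne j)) (hne b)] at h
    have key : ∀ (u : Fin r) (k : ℕ), ∏ x, d x ^ (Pi.single u k : Fin r → ℕ) x = d u ^ k := by
      intro u k
      rw [Finset.prod_eq_single u (fun x _ hx => by simp [hx]) (by simp)]
      simp
    have hsum : ∀ (u : Fin r) (k : ℕ), ∑ x, (Pi.single u k : Fin r → ℕ) x = k := fun u k => by
      simp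
    have hpar := hI (fun x => (Pi.single p n : Fin r → ℕ) x + (Pi.single b 1 : Fin r → ℕ) x)
      (fun x => (Pi.single a 1 : Fin r → ℕ) x + (Pi.single j n : Fin r → ℕ) x) (by
        simp only [pow_add, Finset.prod_mul_distrib, key, pow_one]
        exact h)
    have he := hpar.eq_of_sum (by omega) (by simp [Finset.sum_add_distrib, hsum, add_comm])
    have e1 := congrFun he p
    have e2 := congrFun he a
    have e3 := congrFun he b
    simp [Pi.single_apply, hpj] at e1 e2 e3
    by_cases hn : n = 0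
    · subst hn
      simp at e2
      exact Or.inl ⟨e2, rfl⟩
    · have hap : a = p := by
        by_contra hap
        simp [Ne.symm hap] at e1
        omega
      subst hap
      have hba : b ≠ a := by
        intro hba
        subst hba
        simp at e1
        omega
      simp [hba, hba.symm] at e1 e3
      split_ifs at e3 with hbj
      exact Or.inr ⟨rfl, hbj, e1⟩
  refine ⟨σ (el p j 1) p j, fun t => ?_⟩
  ext a b
  obtain ⟨P, hP', hcoef⟩ := polyLine_eigen (hp a b) (heig a b)
  have hP : ∀ t, σ (el p j t) a b = P.eval t := hP' 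
  rw [Matrix.smul_apply, Matrix.single, Matrix.of_apply, smul_eq_mul]
  by_cases hab : p = a ∧ j = b
  · obtain ⟨rfl, rfl⟩ := hab
    have hP1 : P = Polynomial.C (P.coeff 1) * Polynomial.X := by
      ext n
      by_cases h1 : n = 1
      · subst h1; simp
      · have : P.coeff n = 0 := hcoef n fun h => by
          rcases hcase _ _ _ h with ⟨h2, -⟩ | ⟨-, -, h2⟩
          · exact hpj h2
          · exact h1 h2
        simp [Polynomial.coeff_X, this, Ne.symm h1]
    rw [if_pos ⟨rfl, rfl⟩, mul_one, hP t, hP 1, hP1]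
    simp
  · rw [if_neg hab, mul_zero, hP t]
    have hP1 : P = Polynomial.C (P.coeff 0) := by
      ext n
      by_cases h1 : n = 0
      · subst h1; simp
      · have : P.coeff n = 0 := hcoef n fun h => by
          rcases hcase _ _ _ h with ⟨-, h2⟩ | ⟨h2, h3, -⟩
          · exact h1 h2
          · exact hab ⟨h2.symm, h3.symm⟩
        simp [Polynomial.coeff_C, this, h1]
    have h0 : P.coeff 0 = 0 := by
      have := hP 0
      rw [el_zero, cocycle_one hmul] at this
      rw [Polynomial.coeff_zero_eq_eval_zero, ← this]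
      rfl
    rw [hP1, h0]
    simp

lemma classify_diag {σ : SL r → Mat r}
    (hmul : ∀ M N, σ (M * N) = ad N (σ M) + σ N) (c₀ : Mat r)
    (hcond : ∀ M, ∀ k < r, ((c₀ + σ M) * M.1 ^ k).trace = 0) {d : Fin r → ℂ} (hd : ∏ i, d i = 1)
    (hI : Indep d) (hoff : ∀ i j, i ≠ j → σ (dSL d hd) i j = 0) :
    ∀ t (ht : ∏ i, t i = 1), σ (dSL t ht) = 0 := by
  have hne := diag_ne_zero hd
  have hdiag : ∀ t (ht : ∏ i, t i = 1), ∀ i j, i ≠ j → σ (dSL t ht) i j = 0 := by
    intro t ht i j hij
    have e : dSL d hd * dSL t ht = dSL t ht * dSL d hd := Subtype.ext (by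
      show Matrix.diagonal d * Matrix.diagonal t = Matrix.diagonal t * Matrix.diagonal d
      simp [mul_comm])
    have h := congrArg (fun M => σ M) e
    simp only [hmul] at h
    have h2 := congrFun (congrFun h i) j
    simp only [Matrix.add_apply, ad_dSL, hoff i j hij, zero_mul, zero_add, add_zero] at h2
    have h3 : σ (dSL t ht) i j * (1 - d j / d i) = 0 := by linear_combination h2
    rcases mul_eq_zero.1 h3 with h4 | h4
    · exact h4
    · exact absurd (hI.injective (by field_simp [hne i] at h4; linear_combination h4)) hij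
  have hadd : ∀ s t (hs : ∏ i, s i = 1) (ht : ∏ i, t i = 1) (hst : ∏ i, (s * t) i = 1),
      σ (dSL (s * t) hst) = σ (dSL s hs) + σ (dSL t ht) := by
    intro s t hs ht hst
    have e : dSL (s * t) hst = dSL s hs * dSL t ht := Subtype.ext (by
      show Matrix.diagonal (s * t) = Matrix.diagonal s * Matrix.diagonal t
      rw [Matrix.diagonal_mul_diagonal]
      rfl)
    rw [e, hmul]
    congr 1
    ext i j
    rw [ad_dSL]
    by_cases h : i = j
    · subst h; simp [div_self (diag_ne_zero ht i)]
    · simp [hdiag s hs i j h]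
  have hreg : ∀ t (ht : ∏ i, t i = 1), Function.Injective t →
      ∀ i, c₀ i i + σ (dSL t ht) i i = 0 := by
    intro t ht hinj i
    refine congrFun (Matrix.eq_zero_of_forall_pow_sum_mul_pow_eq_zero
      (v := fun i => c₀ i i + σ (dSL t ht) i i) hinj fun k => ?_) i
    have h := hcond (dSL t ht) k k.2
    rw [dSL_val, Matrix.diagonal_pow, Matrix.trace] at h
    simpa using h
  have hd2 : ∏ i, (d * d) i = 1 := by simp [Finset.prod_mul_distrib, hd]
  have hinj2 : Function.Injective (d * d) := by
    intro i j h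
    by_contra hne'
    have := hI (Pi.single i 2) (Pi.single j 2) (by
      rw [Finset.prod_eq_single i (fun k _ hk => by simp [hk]) (by simp),
        Finset.prod_eq_single j (fun k _ hk => by simp [hk]) (by simp)]
      simpa [pow_two] using h) i j
    simp [hne', Ne.symm hne'] at this
  have hzero : ∀ i, c₀ i i = 0 ∧ σ (dSL d hd) i i = 0 := by
    intro i
    have h1 := hreg d hd hI.injective i
    have h2 := hreg _ hd2 hinj2 i
    rw [hadd d d hd hd hd2, Matrix.add_apply] at h2
    exact ⟨by linear_combination 2 * h1 - h2, by linear_combination h2 - h1⟩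
  have hh : σ (dSL d hd) = 0 := by
    ext i j
    by_cases h : i = j
    · subst h; exact (hzero i).2
    · exact hoff i j h
  intro t ht
  obtain ⟨n, hn⟩ : ∃ n : ℕ, Function.Injective (t * d ^ n) := by
    by_contra hcon
    simp only [not_exists, Function.Injective, not_forall] at hcon
    choose a b hab hne' using hcon
    obtain ⟨n, m, hnm, he⟩ := Finite.exists_ne_map_eq_of_infinite (fun n => (a n, b n))
    simp only [Prod.mk.injEq] at he
    have h1 := hab n
    have h2 := hab m
    rw [← he.1, ← he.2] at h2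
    simp only [Pi.mul_apply, Pi.pow_apply] at h1 h2
    have h3 : d (a n) ^ n * d (b n) ^ m = d (a n) ^ m * d (b n) ^ n := by
      refine mul_left_cancel₀ (diag_ne_zero ht (a n)) (mul_left_cancel₀ (diag_ne_zero ht (b n)) ?_)
      linear_combination (t (b n) * d (b n) ^ m) * h1 - (t (b n) * d (b n) ^ n) * h2
    have key : ∀ x y : ℕ, ∏ i, d i ^ ((Pi.single (a n) x : Fin r → ℕ) i +
        (Pi.single (b n) y : Fin r → ℕ) i) = d (a n) ^ x * d (b n) ^ y := by
      intro x y
      simp only [pow_add, Finset.prod_mul_distrib]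
      rw [Finset.prod_eq_single (a n) (fun k _ hk => by simp [hk]) (by simp),
        Finset.prod_eq_single (b n) (fun k _ hk => by simp [hk]) (by simp)]
      simp
    have := hI (fun i => (Pi.single (a n) n : Fin r → ℕ) i + (Pi.single (b n) m : Fin r → ℕ) i)
      (fun i => (Pi.single (a n) m : Fin r → ℕ) i + (Pi.single (b n) n : Fin r → ℕ) i)
      (by rw [key, key]; exact h3) (a n) (b n)
    simp [hne' n, Ne.symm (hne' n)] at this
    omega
  have hdn : ∀ n : ℕ, ∃ h : ∏ i, (d ^ n) i = 1, σ (dSL (d ^ n) h) = 0 := by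
    intro n
    induction n with
    | zero =>
      refine ⟨by simp, ?_⟩
      convert cocycle_one hmul
      exact Subtype.ext (by simp [dSL_val])
    | succ n ih =>
      obtain ⟨h, he⟩ := ih
      refine ⟨by simp [Finset.prod_pow, hd], ?_⟩
      simp only [pow_succ]
      rw [hadd (d ^ n) d h hd (by simp [Finset.prod_mul_distrib, Finset.prod_pow, hd]), he, hh,
        add_zero]
  obtain ⟨h, he⟩ := hdn n
  ext i j
  by_cases hij : i = j
  · subst hij
    have hp : ∏ i, (t * d ^ n) i = 1 := by simp [Finset.prod_mul_distrib, Finset.prod_pow, hd, ht]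
    have h5 := hreg _ hp hn i
    rw [hadd t (d ^ n) ht h hp, he, add_zero, (hzero i).1, zero_add] at h5
    exact h5
  · exact hdiag t ht i j hij

theorem classify (hr : 2 ≤ r) (σ : SL r → Mat r)
    (hmul : ∀ M N, σ (M * N) = ad N (σ M) + σ N) (c₀ : Mat r)
    (hcond : ∀ M, ∀ k < r, ((c₀ + σ M) * M.1 ^ k).trace = 0)
    (hp : MatMem (Algebra.adjoin ℂ {(id : ℂ → ℂ)})
      fun t => σ (el ⟨0, by omega⟩ (nxt ⟨0, by omega⟩) t)) :
    c₀ = 0 ∧ ∃ X : Mat r, ∀ M, σ M = cob X M := by
  obtain ⟨cs, hcs, hI⟩ := exists_indep (r := r)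
  set d : Fin r → ℂ := fun i => Complex.exp (cs i)
  have hd : ∏ i, d i = 1 := by rw [← Complex.exp_sum, hcs, Complex.exp_zero]
  have hne := diag_ne_zero hd
  let X : Mat r := Matrix.of fun i j =>
    if i = j then 0 else σ (dSL d hd) i j / (d j / d i - 1)
  set τ : SL r → Mat r := fun M => σ M - cob X M
  have hτmul : ∀ M N, τ (M * N) = ad N (τ M) + τ N := fun M N => by
    simp only [τ, hmul, cob_mul, ad_sub]; abel
  have hτcond : ∀ M, ∀ k < r, ((c₀ + τ M) * M.1 ^ k).trace = 0 := fun M k hk => by
    simp only [τ, ← add_sub_assoc, sub_mul, Matrix.trace_sub, hcond M k hk, trace_cob, sub_zero]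
  have hτT := classify_diag hτmul c₀ hτcond hd hI fun i j hij => by
    have : d j / d i - 1 ≠ 0 := by
      rw [sub_ne_zero, Ne, div_eq_one_iff_eq (hne i)]
      exact fun e => hij (hI.injective e).symm
    simp only [τ, cob, Matrix.sub_apply, ad_dSL, X, Matrix.of_apply, if_neg hij]
    field_simp
    ring
  have hτp : MatMem (Algebra.adjoin ℂ {(id : ℂ → ℂ)})
      fun t => τ (el ⟨0, by omega⟩ (nxt ⟨0, by omega⟩) t) := by
    intro i j
    exact Subalgebra.sub_mem _ (hp i j) (Subalgebra.sub_mem _
      (matMem_ad (el_mem _ _ _ polyLine_id) (MatMem.const _ X) i j) (MatMem.const _ X i j))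
  choose c hc using fun p =>
    el_linear hr hτmul hd hI (hτT d hd) p (el_poly hr hτmul hτp p)
  let x : Fin r → ℂ := fun i => -∑ a ∈ Finset.univ.filter (fun a : Fin r => a.1 < i.1), c a
  let D : Mat r := Matrix.diagonal x
  set ω : SL r → Mat r := fun M => τ M - cob D M
  have hωmul : ∀ M N, ω (M * N) = ad N (ω M) + ω N := fun M N => by
    simp only [ω, hτmul, cob_mul, ad_sub]; abel
  have hωT : ∀ t (ht : ∏ i, t i = 1), ω (dSL t ht) = 0 := fun t ht => by
    ext i j
    simp only [ω, hτT t ht, cob, Matrix.sub_apply, ad_dSL, Matrix.zero_apply, D]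
    by_cases h : i = j
    · subst h; simp [div_self (diag_ne_zero ht i)]
    · simp [h]
  have hωe : ∀ p : Fin r, p.1 + 1 < r → ∀ t, el p (nxt p) t ∈ cocycleKer hωmul := by
    intro p hp t
    show τ _ - cob D _ = 0
    rw [hc, cob_el (nxt_ne hr p).symm, ← sub_smul]
    have e : x p - x (nxt p) = c p := by
      have hn : (nxt p).1 = p.1 + 1 := Nat.mod_eq_of_lt hp
      simp only [x]
      rw [show (Finset.univ.filter fun a : Fin r => a.1 < (nxt p).1) =
        insert p (Finset.univ.filter fun a : Fin r => a.1 < p.1) by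
          ext a; simp [hn, Fin.ext_iff]; omega, Finset.sum_insert (by simp)]
      ring
    rw [e, mul_comm, sub_self, zero_smul]
  have h0d : ∀ (n : ℕ) (hn : n < r), 0 < n → ∀ t, el ⟨0, by omega⟩ ⟨n, hn⟩ t ∈ cocycleKer hωmul := by
    intro n
    induction n with
    | zero => intro _ h; exact absurd h (lt_irrefl 0)
    | succ n ih =>
      intro hn _ t
      have e : nxt (⟨n, by omega⟩ : Fin r) = ⟨n + 1, hn⟩ := Fin.ext (Nat.mod_eq_of_lt hn)
      rcases Nat.eq_zero_or_pos n with h | h
      · subst h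
        exact e ▸ hωe ⟨0, by omega⟩ hn t
      · have h1 := ih (by omega) h t
        have h2 : el ⟨n, by omega⟩ ⟨n + 1, hn⟩ (1 : ℂ) ∈ cocycleKer hωmul :=
          e ▸ hωe ⟨n, by omega⟩ hn 1
        have h3 := el_commutator (i := (⟨0, by omega⟩ : Fin r)) (j := ⟨n, by omega⟩)
          (k := ⟨n + 1, hn⟩) (by simp [Fin.ext_iff]; omega) (by simp [Fin.ext_iff])
          (by simp [Fin.ext_iff]) t 1
        rw [mul_one] at h3
        rw [← h3, commutatorElement_def]
        exact mul_mem (mul_mem (mul_mem h1 h2) (inv_mem h1)) (inv_mem h2)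
  set z : Fin r := ⟨0, by omega⟩
  set l : Fin r := ⟨r - 1, by omega⟩
  have hzl : z ≠ l := by simp [z, l, Fin.ext_iff]; omega
  have hnl : nxt l = z := Fin.ext (by show (r - 1 + 1) % r = 0; rw [show r - 1 + 1 = r by omega, Nat.mod_self])
  have hωl : ∀ t, ω (el l z t) = ((c l - (x l - x z)) * t) • single l z 1 := fun t => by
    show τ _ - cob D _ = _
    rw [← hnl, hc, hnl, cob_el hzl.symm, ← sub_smul]
    congr 1
    ring
  have hu : ∀ t, ω (el z l t) = 0 := fun t => h0d (r - 1) (by omega) (by omega) t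
  have hcl : c l - (x l - x z) = 0 := by
    have hw : ω (wel z l 1) = ad (el z l 1) (ω (el l z (-1 : ℂ))) := by
      rw [wel, inv_one, hωmul, hωmul, hu, ad_zero, zero_add, add_zero]
    let d' : Fin r → ℂ := fun i => d (Equiv.swap z l i)
    have hd' : ∏ i, d' i = 1 := by rw [Equiv.prod_comp (Equiv.swap z l) d, hd]
    have e : wel z l 1 * dSL d hd = dSL d' hd' * wel z l 1 := by
      refine Subtype.ext ?_
      rw [val_mul, val_mul, wel_val hzl one_ne_zero, dSL_val, dSL_val]
      ext a b
      rw [Matrix.mul_diagonal, Matrix.diagonal_mul, Matrix.of_apply]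
      simp only [d']
      by_cases h1 : a = z
      · subst h1
        by_cases h2 : b = l <;> simp [h2]
      · by_cases h3 : a = l
        · subst h3
          by_cases h2 : b = z <;> simp [h2, h1]
        · by_cases h4 : a = b
          · subst h4
            simp [h1, h3, Equiv.swap_apply_of_ne_of_ne h1 h3]
          · simp [h1, h3, h4]
    have h := congrArg (fun M => ω M) e
    simp only [hωmul, hωT, ad_zero, zero_add, add_zero] at h
    have h2 := congrFun (congrFun h l) z
    rw [ad_dSL] at h2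
    have h3 : ω (wel z l 1) l z * (d z / d l - 1) = 0 := by linear_combination h2
    have h4 : ω (wel z l 1) l z = 0 := (mul_eq_zero.1 h3).resolve_right (by
      rw [sub_eq_zero, div_eq_one_iff_eq (hne l)]
      exact fun e => hzl (hI.injective e))
    rw [hw, hωl, ad_smul, Matrix.smul_apply, ad, el_inv hzl, el_val hzl, el_val hzl] at h4
    simp [add_mul, mul_add, hzl, hzl.symm] at h4
    linear_combination -h4
  have htop : cocycleKer hωmul = ⊤ := adj_generate _ fun p t => by
    by_cases hp : p.1 + 1 < r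
    · exact hωe p hp t
    · have : p = l := Fin.ext (by have := p.isLt; show p.1 = r - 1; omega)
      subst this
      show ω _ = 0
      rw [hnl, hωl, hcl, zero_mul, zero_smul]
  have hzero : ∀ M, ω M = 0 := fun M => (htop ▸ Subgroup.mem_top M : M ∈ cocycleKer hωmul)
  have hσ : ∀ M, σ M = cob (X + D) M := fun M => by
    have h := hzero M
    simp only [ω, τ] at h
    simp only [cob, ad_add] at h ⊢
    linear_combination (norm := abel) h
  refine ⟨?_, X + D, hσ⟩
  ext i j
  have hall : ∀ M : SL r, (c₀ * M.1).trace = 0 := fun M => by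
    have h := hcond M 1 (by omega)
    rwa [pow_one, add_mul, Matrix.trace_add, hσ, show (cob (X + D) M * M.1).trace = 0 by
      simpa using trace_cob (X + D) M 1, add_zero] at h
  by_cases hij : i = j
  · subst hij
    refine congrFun (Matrix.eq_zero_of_forall_pow_sum_mul_pow_eq_zero
      (v := fun i => c₀ i i) hI.injective fun k => ?_) i
    have h := hcond (dSL d hd) k k.2
    rw [hσ, add_mul, Matrix.trace_add, trace_cob, add_zero, dSL_val, Matrix.diagonal_pow,
      Matrix.trace] at h
    simpa using h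
  · have h1 := hall 1
    have h2 := hall (el j i 1)
    rw [el_val (Ne.symm hij)] at h2
    simp only [show ((1 : SL r).1 : Mat r) = 1 from rfl, mul_one] at h1
    rw [mul_add, mul_one, Matrix.trace_add, h1, zero_add, Matrix.trace_mul_single] at h2
    simpa using h2

end Vale.Agent.P002.Surface
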