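import Vale.Agent.P002.Surface.Jet

/-!
The exponential of traceless matrices, with values in `SL_r(ℂ)`.
-/

open Matrix NormedSpace
open scoped Matrix.Norms.Operator

namespace Vale.Agent.P002.Surface

variable {r : ℕ}

/-- Coordinates of a matrix, as a continuous linear map. -/
noncomputable def toCoord (r : ℕ) : Mat r →L[ℂ] (Fin r → Fin r → ℂ) :=
  LinearMap.toContinuousLinearMap
    { toFun := fun M i j => M i j, map_add' := fun _ _ => rfl, map_smul' := fun _ _ => rfl }

/-- A matrix from its coordinates, as a continuous linear map. -/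
noncomputable def ofCoord (r : ℕ) : (Fin r → Fin r → ℂ) →L[ℂ] Mat r :=
  LinearMap.toContinuousLinearMap
    { toFun := fun y => Matrix.of y, map_add' := fun _ _ => rfl, map_smul' := fun _ _ => rfl }

lemma toCoord_apply (M : Mat r) : toCoord r M = fun i j => M i j := rfl

lemma contDiff_exp_entry (i j : Fin r) :
    ContDiff ℂ 1 (fun y : Fin r → Fin r → ℂ => (exp (Matrix.of y : Mat r)) i j) := by
  have h1 : ContDiff ℂ 1 (fun M : Mat r => exp M) :=
    contDiff_iff_contDiffAt.2 fun M => (exp_analytic (𝕂 := ℂ) M).contDiffAt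
  exact (contDiff_apply_apply ℂ ℂ i j).comp
    (((toCoord r).contDiff.comp h1).comp (ofCoord r).contDiff)

lemma hasDerivAt_exp_line (A : Mat r) (z : ℂ) :
    HasDerivAt (fun w : ℂ => fun i j => exp (w • A) i j)
      (fun i j => (exp (z • A) * A) i j) z :=
  (toCoord r).hasFDerivAt.comp_hasDerivAt z (hasDerivAt_exp_smul_const A z)

lemma det_exp (A : Mat r) : (exp A).det = Complex.exp A.trace := by
  let f : ℂ → ℂ := fun z => (exp (z • A)).det * Complex.exp (-(z * A.trace))
  have hf : ∀ z, HasDerivAt f 0 z := by
    intro z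
    have h1 : HasDerivAt (fun w : ℂ => (exp (w • A)).det) ((exp (z • A)).det * A.trace) z := by
      have hD := ((contDiff_det (r := r)).differentiable (by norm_num)
        (fun i j => exp (z • A) i j)).hasFDerivAt
      have h := hD.comp_hasDerivAt z (hasDerivAt_exp_line A z)
      rw [fderiv_det] at h
      exact h
    have h2 : HasDerivAt (fun w : ℂ => Complex.exp (-(w * A.trace)))
        (Complex.exp (-(z * A.trace)) * -A.trace) z :=
      (((hasDerivAt_id z).mul_const A.trace).neg.congr_deriv (by simp)).cexp
    exact (h1.fun_mul h2).congr_deriv (by ring)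
  have h := is_const_of_deriv_eq_zero (fun z => (hf z).differentiableAt) (fun z => (hf z).deriv) 1 0
  simp only [f, one_smul, one_mul, zero_smul, exp_zero, Matrix.det_one, zero_mul, neg_zero,
    Complex.exp_zero, mul_one] at h
  calc (exp A).det = (exp A).det * Complex.exp (-A.trace) * Complex.exp A.trace := by
        rw [mul_assoc, ← Complex.exp_add, neg_add_cancel, Complex.exp_zero, mul_one]
    _ = Complex.exp A.trace := by rw [h, one_mul]

/-- The traceless part. -/
noncomputable def tl : Mat r →ₗ[ℂ] Mat r where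
  toFun A := A - (A.trace / r) • 1
  map_add' A B := by rw [Matrix.trace_add, add_div, add_smul]; abel
  map_smul' c A := by
    simp [Matrix.trace_smul, smul_sub, smul_smul, mul_div_assoc]

lemma tl_apply (A : Mat r) : tl A = A - (A.trace / r) • 1 := rfl

lemma trace_tl (A : Mat r) : (tl A).trace = 0 := by
  rcases Nat.eq_zero_or_pos r with h | h
  · subst h; simp [Matrix.trace]
  · have h0 : (r : ℂ) ≠ 0 := by exact_mod_cast h.ne'
    simp [tl_apply, Matrix.trace_sub, Matrix.trace_smul, div_mul_cancel₀ _ h0]

lemma tl_of_trace (A : Mat r) (h : A.trace = 0) : tl A = A := by simp [tl_apply, h]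

lemma commute_tl {A B : Mat r} (h : Commute A B) : Commute A (tl B) := by
  rw [tl_apply]
  exact h.sub_right ((Commute.one_right A).smul_right _)

/-- The exponential of the traceless part. -/
noncomputable def expm (A : Mat r) : SL r :=
  ⟨exp (tl A), by rw [det_exp, trace_tl, Complex.exp_zero]⟩

lemma expm_val (A : Mat r) : (expm A).1 = exp (tl A) := rfl

lemma expm_zero : expm (0 : Mat r) = 1 := Subtype.ext (by simp [expm_val])

lemma hasJet_expm (A : Mat r) : HasJet (fun z : ℂ => expm (z • A)) ⟨1, tl A⟩ := by
  refine ⟨by simp [expm_zero], fun i j => ?_⟩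
  have h := hasDerivAt_pi.1 (hasDerivAt_pi.1 (hasDerivAt_exp_line (tl A) 0) i) j
  simp only [zero_smul, exp_zero, one_mul] at h
  show HasDerivAt _ (((1 : SL r).1 * tl A) i j) 0
  rw [show ((1 : SL r).1 : Mat r) = 1 from rfl, one_mul]
  refine h.congr_of_eventuallyEq (Filter.Eventually.of_forall fun z => ?_)
  simp [ent, expm_val]

lemma expm_mem {E : Type*} [NormedAddCommGroup E] [NormedSpace ℂ E] (W : E → Mat r)
    (hW : ∀ i j, (fun e => W e i j) ∈ C1 E) : (fun e => expm (W e)) ∈ entGroup (C1 E) := by
  intro i j
  have h : ContDiff ℂ 1 (fun e : E => fun p q => tl (W e) p q) := by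
    refine contDiff_pi.2 fun p => contDiff_pi.2 fun q => ?_
    have e1 : (fun e : E => tl (W e) p q) = (fun e => W e p q) -
        algebraMap ℂ (E → ℂ) ((1 : Mat r) p q / r) * ∑ k, fun e => W e k k := by
      funext e
      simp [tl_apply, Matrix.trace, Finset.sum_apply]
      ring
    rw [e1]
    exact (C1 E).sub_mem (hW p q)
      ((C1 E).mul_mem ((C1 E).algebraMap_mem _) ((C1 E).sum_mem fun k _ => hW k k))
  exact (contDiff_exp_entry i j).comp h

lemma commute_expm {A B : Mat r} (h : Commute A B) : Commute A (expm B).1 :=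
  (commute_tl h).exp_right

end Vale.Agent.P002.Surface
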