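import Vale.Agent.P002.Surface.Glue

/-!
Automorphisms mixing the first slice handle with a meridian or with a further handle.
-/

open Matrix Finset
open scoped commutatorElement

namespace Vale.Agent.P002.Surface

variable {g k s r : ℕ}

/-- The meridian `j`. -/
abbrev cIdx (j : Fin s) : Idx (g + 1) k s := Sum.inr (Sum.inr j)

/-- The first slice handle. -/
abbrev aIdx : Idx (g + 1) k s := Sum.inl (0, false)

/-- The second generator of the first slice handle. -/
abbrev bIdx : Idx (g + 1) k s := Sum.inl (0, true)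

/-- The product between the first slice handle and the meridian `j`. -/
def gapC {G : Type} [Group G] (j : Fin s) (y : Idx (g + 1) k s → G) : G :=
  tail (y ∘ Sum.inl) * rel ((y ∘ Sum.inr) ∘ Sum.inl) * pre j fun l => y (cIdx l)

lemma map_gapC {G H : Type} [Group G] [Group H] (φ : G →* H) (j : Fin s)
    (y : Idx (g + 1) k s → G) : φ (gapC j y) = gapC j (φ ∘ y) := by
  rw [gapC, gapC, map_mul, map_mul, map_tail, map_rel, map_pre]
  rfl

lemma gapC_congr {G : Type} [Group G] (j : Fin s) {y y' : Idx (g + 1) k s → G}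
    (h : ∀ x, x ≠ aIdx → x ≠ bIdx → x ≠ cIdx j → y x = y' x) : gapC j y = gapC j y' := by
  unfold gapC
  rw [tail_congr (y' := y' ∘ Sum.inl) (fun i c hi => h _ (by simp [hi]) (by simp [hi]) (by simp)),
    pre_congr j (f' := fun l => y' (cIdx l))
      (fun l hl => h _ (by simp) (by simp) (by simp [hl]))]
  congr 2
  exact congrArg rel (funext fun x => h _ (by simp) (by simp) (by simp))

/-- The tuple with the first handle and the meridian `j` replaced. -/
def putC {G : Type} (j : Fin s) (y : Idx (g + 1) k s → G) (a b c : G) : Idx (g + 1) k s → G :=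
  Function.update (Function.update (Function.update y aIdx a) bIdx b) (cIdx j) c

@[simp] lemma putC_a {G : Type} (j : Fin s) (y : Idx (g + 1) k s → G) (a b c : G) :
    putC j y a b c aIdx = a := by simp [putC]

@[simp] lemma putC_b {G : Type} (j : Fin s) (y : Idx (g + 1) k s → G) (a b c : G) :
    putC j y a b c bIdx = b := by simp [putC]

@[simp] lemma putC_c {G : Type} (j : Fin s) (y : Idx (g + 1) k s → G) (a b c : G) :
    putC j y a b c (cIdx j) = c := by simp [putC]

lemma putC_of_ne {G : Type} (j : Fin s) (y : Idx (g + 1) k s → G) (a b c : G)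
    {x : Idx (g + 1) k s} (ha : x ≠ aIdx) (hb : x ≠ bIdx) (hc : x ≠ cIdx j) :
    putC j y a b c x = y x := by simp [putC, ha, hb, hc]

lemma comp_putC {G H : Type} (φ : G → H) (j : Fin s) (y : Idx (g + 1) k s → G) (a b c : G) :
    φ ∘ putC j y a b c = putC j (φ ∘ y) (φ a) (φ b) (φ c) := by
  simp [putC, Function.comp_update]

lemma putC_putC {G : Type} (j : Fin s) (y : Idx (g + 1) k s → G) (a b c a' b' c' : G) :
    putC j (putC j y a b c) a' b' c' = putC j y a' b' c' := by
  funext x
  by_cases ha : x = aIdx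
  · subst ha; simp
  by_cases hb : x = bIdx
  · subst hb; simp
  by_cases hc : x = cIdx j
  · subst hc; simp
  simp [putC_of_ne, ha, hb, hc]

lemma putC_self {G : Type} (j : Fin s) (y : Idx (g + 1) k s → G) :
    putC j y (y aIdx) (y bIdx) (y (cIdx j)) = y := by
  funext x
  by_cases ha : x = aIdx
  · subst ha; simp
  by_cases hb : x = bIdx
  · subst hb; simp
  by_cases hc : x = cIdx j
  · subst hc; simp
  simp [putC_of_ne, ha, hb, hc]

lemma gapC_putC {G : Type} [Group G] (j : Fin s) (y : Idx (g + 1) k s → G) (a b c : G) :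
    gapC j (putC j y a b c) = gapC j y :=
  gapC_congr j fun _ ha hb hc => putC_of_ne j y a b c ha hb hc

lemma relT_putC {G : Type} [Group G] (j : Fin s) (y : Idx (g + 1) k s → G) (a b c : G)
    (h : ⁅a, b⁆ * gapC j y * c = ⁅y aIdx, y bIdx⁆ * gapC j y * y (cIdx j)) :
    relT (putC j y a b c) = relT y := by
  set y' := putC j y a b c
  have ht : tail (y' ∘ Sum.inl) = tail (y ∘ Sum.inl) :=
    tail_congr fun i c' hi => putC_of_ne j y a b c (by simp [hi]) (by simp [hi]) (by simp)
  have hr : (y' ∘ Sum.inr) ∘ Sum.inl = (y ∘ Sum.inr) ∘ Sum.inl :=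
    funext fun x => putC_of_ne j y a b c (x := Sum.inr (Sum.inl x)) (by simp) (by simp) (by simp)
  have hp : pre j (fun l => y' (cIdx l)) = pre j (fun l => y (cIdx l)) :=
    pre_congr j fun l hl => putC_of_ne j y a b c (by simp) (by simp) (by simp [hl])
  simp only [relT, relR, rel_eq_tail, ← mul_assoc]
  refine prod_congr_pre j _ _
    (fun l hl => putC_of_ne j y a b c (by simp) (by simp) (by simp [hl])) ?_
  show _ * (pre j (fun l => y' (cIdx l)) * y' (cIdx j)) = _ * (pre j (fun l => y (cIdx l)) * y (cIdx j))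
  rw [hp, hr, ht]
  simp only [Function.comp_apply, y', putC_a, putC_b, putC_c]
  simpa [gapC, mul_assoc] using h

/-- The drag of a meridian around the first handle. -/
def dragMove (j : Fin s) : Move (g + 1) k s where
  f _ _ y :=
    let Q := gapC j y
    let a := y aIdx
    let b := y bIdx
    let C := Q * y (cIdx j) * Q⁻¹
    putC j y (b⁻¹ * C⁻¹ * b * a) b
      ((Q⁻¹ * C⁻¹ * (b * a * b⁻¹ * a⁻¹ * b⁻¹) * Q) * y (cIdx j) *
        (Q⁻¹ * C⁻¹ * (b * a * b⁻¹ * a⁻¹ * b⁻¹) * Q)⁻¹)
  b _ _ y :=
    let Q := gapC j y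
    let a := y aIdx
    let b := y bIdx
    let q := b * a * b⁻¹ * a⁻¹ * b⁻¹
    let C := q⁻¹ * (Q * y (cIdx j) * Q⁻¹) * q
    putC j y (b⁻¹ * C * b * a) b (Q⁻¹ * C * Q)
  natural φ y := by simp [comp_putC, map_gapC]
  natural_b φ y := by simp [comp_putC, map_gapC]
  left y := by
    simp only [gapC_putC, putC_a, putC_b, putC_c, putC_putC]
    conv_rhs => rw [← putC_self j y]
    congr 1 <;> group
  right y := by
    simp only [gapC_putC, putC_a, putC_b, putC_c, putC_putC]
    conv_rhs => rw [← putC_self j y]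
    congr 1 <;> group
  rel_f y := relT_putC j y _ _ _ (by simp only [commutatorElement_def]; group)
  cls_f y l := by
    by_cases hl : l = j
    · subst hl
      exact ⟨_, putC_c _ _ _ _ _⟩
    · exact ⟨1, by simp [putC_of_ne, hl]⟩

/-- A generator of the further handle `i`. -/
abbrev pIdx (i : Fin k) (c : Bool) : Idx (g + 1) k s := Sum.inr (Sum.inl (i, c))

/-- The product between the first slice handle and the further handle `i`. -/
def gapH {G : Type} [Group G] (i : Fin k) (y : Idx (g + 1) k s → G) : G :=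
  tail (y ∘ Sum.inl) * pre i fun l => ⁅y (pIdx l false), y (pIdx l true)⁆

lemma map_gapH {G H : Type} [Group G] [Group H] (φ : G →* H) (i : Fin k)
    (y : Idx (g + 1) k s → G) : φ (gapH i y) = gapH i (φ ∘ y) := by
  rw [gapH, gapH, map_mul, map_tail, map_pre]
  congr 2
  funext l
  simp [map_commutatorElement]

/-- The tuple with the first handle and the further handle `i` replaced. -/
def putH {G : Type} (i : Fin k) (y : Idx (g + 1) k s → G) (a b p q : G) : Idx (g + 1) k s → G :=
  Function.update (Function.update (Function.update (Function.update y aIdx a) bIdx b)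
    (pIdx i false) p) (pIdx i true) q

@[simp] lemma putH_a {G : Type} (i : Fin k) (y : Idx (g + 1) k s → G) (a b p q : G) :
    putH i y a b p q aIdx = a := by simp [putH]

@[simp] lemma putH_b {G : Type} (i : Fin k) (y : Idx (g + 1) k s → G) (a b p q : G) :
    putH i y a b p q bIdx = b := by simp [putH]

@[simp] lemma putH_p {G : Type} (i : Fin k) (y : Idx (g + 1) k s → G) (a b p q : G) :
    putH i y a b p q (pIdx i false) = p := by simp [putH]

@[simp] lemma putH_q {G : Type} (i : Fin k) (y : Idx (g + 1) k s → G) (a b p q : G) :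
    putH i y a b p q (pIdx i true) = q := by simp [putH]

lemma putH_of_ne {G : Type} (i : Fin k) (y : Idx (g + 1) k s → G) (a b p q : G)
    {x : Idx (g + 1) k s} (ha : x ≠ aIdx) (hb : x ≠ bIdx) (hp : x ≠ pIdx i false)
    (hq : x ≠ pIdx i true) : putH i y a b p q x = y x := by
  simp [putH, ha, hb, hp, hq]

lemma comp_putH {G H : Type} (φ : G → H) (i : Fin k) (y : Idx (g + 1) k s → G) (a b p q : G) :
    φ ∘ putH i y a b p q = putH i (φ ∘ y) (φ a) (φ b) (φ p) (φ q) := by
  simp [putH, Function.comp_update]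

lemma putH_putH {G : Type} (i : Fin k) (y : Idx (g + 1) k s → G) (a b p q a' b' p' q' : G) :
    putH i (putH i y a b p q) a' b' p' q' = putH i y a' b' p' q' := by
  funext x
  by_cases ha : x = aIdx
  · subst ha; simp
  by_cases hb : x = bIdx
  · subst hb; simp
  by_cases hp : x = pIdx i false
  · subst hp; simp
  by_cases hq : x = pIdx i true
  · subst hq; simp
  simp [putH_of_ne, ha, hb, hp, hq]

lemma putH_self {G : Type} (i : Fin k) (y : Idx (g + 1) k s → G) :
    putH i y (y aIdx) (y bIdx) (y (pIdx i false)) (y (pIdx i true)) = y := by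
  funext x
  by_cases ha : x = aIdx
  · subst ha; simp
  by_cases hb : x = bIdx
  · subst hb; simp
  by_cases hp : x = pIdx i false
  · subst hp; simp
  by_cases hq : x = pIdx i true
  · subst hq; simp
  simp [putH_of_ne, ha, hb, hp, hq]

lemma gapH_putH {G : Type} [Group G] (i : Fin k) (y : Idx (g + 1) k s → G) (a b p q : G) :
    gapH i (putH i y a b p q) = gapH i y := by
  unfold gapH
  rw [tail_congr (y' := y ∘ Sum.inl) (fun l c hl => putH_of_ne i y a b p q (by simp [hl])
      (by simp [hl]) (by simp) (by simp)),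
    pre_congr i (f' := fun l => ⁅y (pIdx l false), y (pIdx l true)⁆) fun l hl => ?_]
  rw [putH_of_ne i y a b p q (by simp) (by simp) (by simp [hl]) (by simp),
    putH_of_ne i y a b p q (by simp) (by simp) (by simp) (by simp [hl])]

lemma relT_putH {G : Type} [Group G] (i : Fin k) (y : Idx (g + 1) k s → G) (a b p q : G)
    (h : ⁅a, b⁆ * gapH i y * ⁅p, q⁆ =
      ⁅y aIdx, y bIdx⁆ * gapH i y * ⁅y (pIdx i false), y (pIdx i true)⁆) :
    relT (putH i y a b p q) = relT y := by
  set y' := putH i y a b p q
  have ht : tail (y' ∘ Sum.inl) = tail (y ∘ Sum.inl) :=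
    tail_congr fun l c hl => putH_of_ne i y a b p q (by simp [hl]) (by simp [hl]) (by simp) (by simp)
  have hc : (fun l => (y' ∘ Sum.inr) (Sum.inr l)) = fun l => (y ∘ Sum.inr) (Sum.inr l) :=
    funext fun l => putH_of_ne i y a b p q (x := Sum.inr (Sum.inr l)) (by simp) (by simp) (by simp)
      (by simp)
  have hoff : ∀ l, l ≠ i →
      ⁅y' (pIdx l false), y' (pIdx l true)⁆ = ⁅y (pIdx l false), y (pIdx l true)⁆ := fun l hl => by
    simp only [y']
    rw [putH_of_ne i y a b p q (by simp) (by simp) (by simp [hl]) (by simp),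
      putH_of_ne i y a b p q (by simp) (by simp) (by simp) (by simp [hl])]
  simp only [relT, relR, hc, ← mul_assoc]
  congr 1
  rw [rel_eq_tail, rel_eq_tail]
  unfold rel
  refine prod_congr_pre i _ _ (fun l hl => hoff l hl) ?_
  show _ * (pre i (fun l => ⁅y' (pIdx l false), y' (pIdx l true)⁆) *
      ⁅y' (pIdx i false), y' (pIdx i true)⁆) =
    _ * (pre i (fun l => ⁅y (pIdx l false), y (pIdx l true)⁆) *
      ⁅y (pIdx i false), y (pIdx i true)⁆)
  rw [pre_congr i hoff, ht]
  simp only [Function.comp_apply, y', putH_a, putH_b, putH_p, putH_q]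
  simpa [gapH, mul_assoc] using h

/-- The slide of the first handle over the further handle `i`. -/
def farMove (i : Fin k) : Move (g + 1) k s where
  f _ _ y :=
    let Q := gapH i y
    let a := y aIdx
    let b := y bIdx
    let p := Q * y (pIdx i false) * Q⁻¹
    let q := Q * y (pIdx i true) * Q⁻¹
    let B := p⁻¹ * b * p
    putH i y (a * p) B (Q⁻¹ * (B * p * B⁻¹) * Q) (Q⁻¹ * (q * B⁻¹) * Q)
  b _ _ y :=
    let Q := gapH i y
    let a := y aIdx
    let B := y bIdx
    let p := B⁻¹ * (Q * y (pIdx i false) * Q⁻¹) * B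
    let q := Q * y (pIdx i true) * Q⁻¹ * B
    putH i y (a * p⁻¹) (p * B * p⁻¹) (Q⁻¹ * p * Q) (Q⁻¹ * q * Q)
  natural φ y := by simp [comp_putH, map_gapH]
  natural_b φ y := by simp [comp_putH, map_gapH]
  left y := by
    simp only [gapH_putH, putH_a, putH_b, putH_p, putH_q, putH_putH]
    conv_rhs => rw [← putH_self i y]
    congr 1 <;> group
  right y := by
    simp only [gapH_putH, putH_a, putH_b, putH_p, putH_q, putH_putH]
    conv_rhs => rw [← putH_self i y]
    congr 1 <;> group
  rel_f y := relT_putH i y _ _ _ _ (by simp only [commutatorElement_def]; group)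
  cls_f y l := ⟨1, by simp [putH_of_ne]⟩

/-- The rotation of the further handle `i`. -/
def rotMove (i : Fin k) : Move (g + 1) k s where
  f _ _ y :=
    let p := y (pIdx i false)
    let q := y (pIdx i true)
    putH i y (y aIdx) (y bIdx) (p * q * p⁻¹) p⁻¹
  b _ _ y :=
    let p := y (pIdx i false)
    let q := y (pIdx i true)
    putH i y (y aIdx) (y bIdx) q⁻¹ (q * p * q⁻¹)
  natural φ y := by simp [comp_putH]
  natural_b φ y := by simp [comp_putH]
  left y := by
    simp only [putH_a, putH_b, putH_p, putH_q, putH_putH]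
    conv_rhs => rw [← putH_self i y]
    congr 1 <;> group
  right y := by
    simp only [putH_a, putH_b, putH_p, putH_q, putH_putH]
    conv_rhs => rw [← putH_self i y]
    congr 1 <;> group
  rel_f y := relT_putH i y _ _ _ _ (by simp only [commutatorElement_def]; group)
  cls_f y l := ⟨1, by simp [putH_of_ne]⟩

end Vale.Agent.P002.Surface
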