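import Vale.Agent.P002.Surface.Spanning
import Vale.Agent.P002.Surface.Mix

/-!
Entire families of representations of punctured surface groups on which every polynomial vanishing
at the integral points vanishes, and their enlargement by twist flows.
-/

open Matrix Finset Filter Topology

namespace Vale.Agent.P002.Surface

variable {g k s r L : ℕ}

/-- Each meridian lies in its class. -/
def InClass (C : Fin s → SL r) (y : Idx g k s → SL r) : Prop :=
  ∀ j, ∃ Q : SL r, y (Sum.inr (Sum.inr j)) = Q * C j * Q⁻¹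

/-- A polynomial function vanishing at all integral representations with the given classes. -/
def Van (O : Subring ℂ) (C : Fin s → SL r) (F : (Idx g k s → SL r) → ℂ) : Prop :=
  F ∈ PolyFun (Idx g k s) r ∧
    ∀ y : Idx g k s → SL r, IsInt O y → relT y = 1 → InClass C y → F y = 0

lemma InClass.move_f {C : Fin s → SL r} {y : Idx g k s → SL r} (h : InClass C y)
    (e : Move g k s) : InClass C (e.f (SL r) y) := fun j => by
  obtain ⟨Q, hQ⟩ := h j
  obtain ⟨Q', hQ'⟩ := e.cls_f y j
  exact ⟨Q' * Q, by rw [hQ', hQ]; group⟩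

lemma InClass.move_b {C : Fin s → SL r} {y : Idx g k s → SL r} (h : InClass C y)
    (e : Move g k s) : InClass C (e.b (SL r) y) := fun j => by
  obtain ⟨Q, hQ⟩ := h j
  obtain ⟨Q', hQ'⟩ := e.cls_b y j
  exact ⟨Q' * Q, by rw [hQ', hQ]; group⟩

lemma Move.fam_f (e : Move g k s) {E : Type} (H : Subgroup (E → SL r))
    (Φ : E → Idx g k s → SL r) (hΦ : ∀ x, (fun q => Φ q x) ∈ H) (x : Idx g k s) :
    (fun q => e.f (SL r) (Φ q) x) ∈ H := by
  have h : e.f (E → SL r) (fun x q => Φ q x) x = fun q => e.f (SL r) (Φ q) x := by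
    funext q
    exact congrFun (e.natural (Pi.evalMonoidHom (fun _ : E => SL r) q) fun x q => Φ q x) x
  exact h ▸ e.f_mem H _ hΦ x

lemma Move.fam_b (e : Move g k s) {E : Type} (H : Subgroup (E → SL r))
    (Φ : E → Idx g k s → SL r) (hΦ : ∀ x, (fun q => Φ q x) ∈ H) (x : Idx g k s) :
    (fun q => e.b (SL r) (Φ q) x) ∈ H := by
  have h : e.b (E → SL r) (fun x q => Φ q x) x = fun q => e.b (SL r) (Φ q) x := by
    funext q
    exact congrFun (e.natural_b (Pi.evalMonoidHom (fun _ : E => SL r) q) fun x q => Φ q x) x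
  exact h ▸ e.b_mem H _ hΦ x

/-- The twist of the first handle of the slice. -/
def twist (i0 : Fin g) {G : Type} [Group G] (t : G) (y : Gens g → G) : Gens g → G :=
  Function.update y (i0, true) (y (i0, true) * t)

/-- The twist of the first handle, on all generators. -/
def twistT {G : Type} [Group G] (t : G) (y : Idx (g + 1) k s → G) : Idx (g + 1) k s → G :=
  Function.update y bIdx (y bIdx * t)

lemma rel_twist (i0 : Fin g) {G : Type} [Group G] (t : G) (y : Gens g → G)
    (h : Commute (y (i0, false)) t) : rel (twist i0 t y) = rel y := by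
  unfold rel
  congr 2
  funext i
  by_cases hi : i = i0
  · subst hi
    have h' : t * (y (i, false))⁻¹ = (y (i, false))⁻¹ * t := (h.symm.inv_right).eq
    rw [show twist i t y (i, false) = y (i, false) from Function.update_of_ne (by simp) _ _,
      show twist i t y (i, true) = y (i, true) * t from Function.update_self _ _ _,
      commutatorElement_def, commutatorElement_def]
    calc y (i, false) * (y (i, true) * t) * (y (i, false))⁻¹ * (y (i, true) * t)⁻¹
        = y (i, false) * y (i, true) * (t * (y (i, false))⁻¹) * t⁻¹ * (y (i, true))⁻¹ := by group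
      _ = _ := by rw [h']; group
  · unfold twist
    rw [Function.update_of_ne (fun e => hi (congrArg Prod.fst e)),
      Function.update_of_ne (fun e => hi (congrArg Prod.fst e))]

lemma twistT_inl {G : Type} [Group G] (t : G) (y : Idx (g + 1) k s → G) :
    twistT t y ∘ Sum.inl = twist 0 t (y ∘ Sum.inl) :=
  Function.update_comp_eq_of_injective y Sum.inl_injective _ _

lemma twistT_inr {G : Type} [Group G] (t : G) (y : Idx (g + 1) k s → G) :
    twistT t y ∘ Sum.inr = y ∘ Sum.inr :=
  funext fun x => by simp [twistT]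

lemma relT_twistT {G : Type} [Group G] (t : G) (y : Idx (g + 1) k s → G)
    (h : Commute (y aIdx) t) : relT (twistT t y) = relT y := by
  rw [relT, relT, twistT_inl, twistT_inr, rel_twist 0 t _ h]

lemma twistT_one {G : Type} [Group G] (y : Idx (g + 1) k s → G) : twistT 1 y = y := by
  funext x
  by_cases hx : x = bIdx
  · subst hx; simp [twistT]
  · simp [twistT, hx]

lemma InClass.twistT {C : Fin s → SL r} {y : Idx (g + 1) k s → SL r} (h : InClass C y)
    (t : SL r) : InClass C (Surface.twistT t y) := fun j => by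
  simpa [Surface.twistT] using h j

lemma twistT_mem {E : Type} (H : Subgroup (E → SL r)) (Φ : E → Idx (g + 1) k s → SL r)
    (hΦ : ∀ x, (fun q => Φ q x) ∈ H) {t : E → SL r} (ht : t ∈ H) (x : Idx (g + 1) k s) :
    (fun q => twistT (t q) (Φ q) x) ∈ H := by
  by_cases hx : x = bIdx
  · subst hx
    have e : (fun q => twistT (t q) (Φ q) bIdx) = (fun q => Φ q bIdx) * t := by
      funext q; simp [twistT]
    rw [e]
    exact H.mul_mem (hΦ _) ht
  · have e : (fun q => twistT (t q) (Φ q) x) = fun q => Φ q x := by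
      funext q; simp [twistT, hx]
    rw [e]
    exact hΦ x

/-- Every such polynomial vanishes on the slice. -/
theorem slice_vanish {O : Subring ℂ} {C : Fin s → SL r} {F : (Idx g k s → SL r) → ℂ}
    (hF : Van O C F) {z₀ : Rest k s → SL r} (hz : IsInt O z₀) (hz1 : relR z₀ = 1)
    (hzC : ∀ j, ∃ Q : SL r, z₀ (Sum.inr j) = Q * C j * Q⁻¹) (A : Fin g → SL r) :
    F (sliceT A z₀) = 0 := by
  let I : Subgroup (SL r) := intGroup O r
  suffices H : ∀ t : Finset (Fin g), ∀ A : Fin g → SL r, (∀ i ∉ t, A i ∈ I) →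
      F (sliceT A z₀) = 0 from
    H Finset.univ A fun i hi => absurd (Finset.mem_univ i) hi
  intro t
  induction t using Finset.induction with
  | empty =>
    intro A hA
    refine hF.2 _ (fun x => ?_) (by rw [relT_sliceT, hz1]) hzC
    rcases x with ⟨i, c⟩ | x
    · cases c
      · exact hA i (Finset.notMem_empty i)
      · exact I.one_mem
    · exact hz x
  | @insert i s' hi ih =>
    let Z : Set (SL r) := {M | ∀ N ∈ I, ∀ A : Fin g → SL r, (∀ j ∉ insert i s', A j ∈ I) →
      F (sliceT (Function.update A i (N * M)) z₀) = 0}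
    have hZ : ∀ M, M ∈ Z := by
      have htop := el_generate (Submonoid.closure {M : SL r | ∃ a b t, a ≠ b ∧ M = el a b t})
        fun a b t h => Submonoid.subset_closure ⟨a, b, t, h, rfl⟩
      intro M
      have hM : M ∈ Submonoid.closure {M : SL r | ∃ a b t, a ≠ b ∧ M = el a b t} :=
        htop ▸ Submonoid.mem_top M
      induction hM using Submonoid.closure_induction_left with
      | one =>
        intro N hN A hA
        refine ih _ fun j hj => ?_
        by_cases hji : j = i
        · subst hji; simpa using hN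
        · rw [Function.update_of_ne hji]; exact hA j (by simp [hj, hji])
      | mul_left x hx y _ ihy =>
        obtain ⟨a, b, u, hab, rfl⟩ := hx
        intro N hN A hA
        set S := Algebra.adjoin ℂ {(id : ℂ → ℂ)}
        have hS : (fun v => F (sliceT (Function.update A i (N * (el a b v * y))) z₀)) ∈ S := by
          refine polyFun_comp S (fun v => sliceT (Function.update A i (N * (el a b v * y))) z₀)
            (fun x => ?_) hF.1
          rcases x with ⟨j, c⟩ | x
          · cases c
            · by_cases hji : j = i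
              · subst hji
                simp only [sliceT, Sum.elim_inl, slice_false, Function.update_self]
                exact (entGroup S).mul_mem (const_mem S N)
                  ((entGroup S).mul_mem (el_mem S a b polyLine_id) (const_mem S y))
              · simp only [sliceT, Sum.elim_inl, slice_false, Function.update_of_ne hji]
                exact const_mem S _
            · simp only [sliceT, Sum.elim_inl, slice_true]
              exact const_mem S _
          · exact const_mem S (z₀ x)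
        refine congrFun (eq_zero_of_nat hS fun n => ?_) u
        rw [← mul_assoc]
        refine ihy _ (I.mul_mem hN (mem_intGroup.2 fun p q => ?_)) A hA
        rw [el_val hab, Matrix.add_apply, Matrix.one_apply, Matrix.single, Matrix.of_apply]
        refine O.add_mem ?_ ?_
        · split_ifs <;> simp
        · split_ifs
          · exact natCast_mem O n
          · exact O.zero_mem
    intro A hA
    have := hZ (A i) 1 I.one_mem A hA
    rwa [one_mul, Function.update_eq_self] at this

/-- The twist by a power of the first handle, conjugated by `e`. -/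
noncomputable def intFlow (e : Move (g + 1) k s) (n : ℕ) (y : Idx (g + 1) k s → SL r) :
    Idx (g + 1) k s → SL r :=
  e.b (SL r) (twistT (e.f (SL r) y aIdx ^ n) (e.f (SL r) y))

lemma van_intFlow (e : Move (g + 1) k s) (n : ℕ) {O : Subring ℂ} {C : Fin s → SL r}
    {F : (Idx (g + 1) k s → SL r) → ℂ} (hF : Van O C F) :
    Van O C fun y => F (intFlow e n y) := by
  refine ⟨?_, fun y hy hr hc => hF.2 _ ?_ ?_ (((hc.move_f e).twistT _).move_b e)⟩
  · refine polyFun_comp _ (intFlow e n) (fun x => ?_) hF.1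
    have h := fun x => e.fam_f (entGroup (PolyFun (Idx (g + 1) k s) r)) (fun y => y) proj_mem x
    exact e.fam_b _ (fun y => twistT (e.f (SL r) y aIdx ^ n) (e.f (SL r) y))
      (twistT_mem _ _ h ((entGroup _).pow_mem (h aIdx) n)) x
  · have h := fun x => e.f_mem (intGroup O r) y hy x
    refine fun x => e.b_mem (intGroup O r) _ (fun x => ?_) x
    by_cases hx : x = bIdx
    · subst hx
      simp only [twistT, Function.update_self]
      exact (intGroup O r).mul_mem (h _) ((intGroup O r).pow_mem (h _) n)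
    · simp only [twistT, Function.update_of_ne hx]
      exact h x
  · unfold intFlow
    rw [e.rel_b, relT_twistT _ _ ((Commute.refl _).pow_right n), e.rel_f]
    exact hr

/-- The value of a matrix exponential on a diagonalised matrix. -/
lemma expm_conj (V : (Mat r)ˣ) (p : Fin r → ℂ) :
    (expm (V.1 * Matrix.diagonal p * (V⁻¹).1)).1 =
      V.1 * Matrix.diagonal (fun i => Complex.exp (p i - (∑ j, p j) / r)) * (V⁻¹).1 := by
  have ht : (V.1 * Matrix.diagonal p * (V⁻¹).1).trace = ∑ j, p j := by
    rw [Matrix.trace_mul_cycle, Units.inv_mul, one_mul, Matrix.trace_diagonal]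
  have e : tl (V.1 * Matrix.diagonal p * (V⁻¹).1) =
      V.1 * Matrix.diagonal (fun i => p i - (∑ j, p j) / r) * (V⁻¹).1 := by
    rw [tl_apply, ht, show (Matrix.diagonal fun i => p i - (∑ j, p j) / r : Mat r) =
      Matrix.diagonal p - ((∑ j, p j) / r) • 1 by
        rw [← Matrix.diagonal_one, ← Matrix.diagonal_smul, Matrix.diagonal_sub]
        congr 1; funext i; simp]
    rw [mul_sub, sub_mul, Matrix.mul_smul, Matrix.smul_mul, mul_one, Units.mul_inv]
  rw [expm_val, e, Matrix.exp_units_conj, Matrix.exp_diagonal]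
  congr 3
  funext i
  rw [Pi.coe_exp, Complex.exp_eq_exp_ℂ]

lemma expm_diagonal (c : Fin r → ℂ) (h : ∑ i, c i = 0) :
    (expm (Matrix.diagonal c)).1 = Matrix.diagonal fun i => Complex.exp (c i) := by
  have := expm_conj 1 c
  simpa [h] using this

/-- The twist parameter. -/
noncomputable def flowGen (w : Mat r) (s : Fin r → ℂ) : Mat r := ∑ k : Fin r, s k • w ^ k.1

lemma commute_flowGen (w : Mat r) (s : Fin r → ℂ) : Commute w (flowGen w s) :=
  Commute.sum_right _ _ _ fun _k _ => ((Commute.refl w).pow_right _).smul_right _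

/-- Vanishing after a twist along the torus of a good point. -/
lemma van_torus (e : Move (g + 1) k s) {O : Subring ℂ} {C : Fin s → SL r}
    {F : (Idx (g + 1) k s → SL r) → ℂ} (y : Idx (g + 1) k s → SL r)
    (h : ∀ n : ℕ, F (intFlow e n y) = 0) (hF : Van O C F)
    (hgood : ∀ α β : Fin r → ℕ, ¬ Par α β → hInd α β (e.f (SL r) y aIdx).1 ≠ 0)
    (sv : Fin r → ℂ) :
    F (e.b (SL r) (twistT (expm (flowGen (e.f (SL r) y aIdx).1 sv)) (e.f (SL r) y))) = 0 := by
  set z := e.f (SL r) y
  obtain ⟨V, d, hw, hI⟩ := exists_diag hgood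
  let E := {t : Fin r → ℂ // ∏ i, t i = 1}
  let T : E → SL r := fun t => ⟨V.1 * Matrix.diagonal t.1 * (V⁻¹).1, by
    rw [Matrix.det_units_conj, Matrix.det_diagonal, t.2]⟩
  let S : Subalgebra ℂ (E → ℂ) := Algebra.adjoin ℂ (Set.range fun (i : Fin r) (t : E) => t.1 i)
  have hT : T ∈ entGroup S := by
    intro a b
    have e : ent T a b = ∑ k, (V.1 a k * (V⁻¹).1 k b) • fun t : E => t.1 k := by
      funext t
      show (V.1 * Matrix.diagonal t.1 * (V⁻¹).1) a b = _
      rw [Matrix.mul_apply, Finset.sum_apply]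
      refine Finset.sum_congr rfl fun k _ => ?_
      rw [Matrix.mul_diagonal, Pi.smul_apply, smul_eq_mul]
      ring
    rw [e]
    exact S.sum_mem fun k _ => S.smul_mem (Algebra.subset_adjoin (Set.mem_range_self k)) _
  have hG : (fun t => F (e.b (SL r) (twistT (T t) z))) ∈ S :=
    polyFun_comp S _ (fun x => e.fam_b _ (fun t => twistT (T t) z)
      (twistT_mem _ (fun _ => z) (fun x => const_mem S (z x)) hT) x) hF.1
  rw [show S = (MvPolynomial.aeval fun (i : Fin r) (t : E) => t.1 i).range from
    Algebra.adjoin_range_eq_range_aeval ℂ _] at hG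
  obtain ⟨p, hp⟩ := hG
  have hpe : ∀ t : E, MvPolynomial.eval t.1 p = F (e.b (SL r) (twistT (T t) z)) := by
    intro t
    have := congrFun hp t
    rw [← this]
    clear this hp
    induction p using MvPolynomial.induction_on with
    | C a => simp
    | add a b ha hb => simp [ha, hb]
    | mul_X a i ha => simp [ha]
  have hd : ∏ i, d i = 1 := by
    have := congrArg Matrix.det hw
    rw [(e.f (SL r) y aIdx).2, Matrix.det_units_conj, Matrix.det_diagonal] at this
    exact this.symm
  have h0 : ∀ n : ℕ, MvPolynomial.eval (fun i => d i ^ n) p = 0 := fun n => by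
    rw [hpe ⟨fun i => d i ^ n, by rw [Finset.prod_pow, hd, one_pow]⟩, ← h n]
    congr 3
    refine Subtype.ext ?_
    show V.1 * Matrix.diagonal (fun i => d i ^ n) * (V⁻¹).1 = _
    rw [Matrix.SpecialLinearGroup.coe_pow, hw, Units.conj_pow, Matrix.diagonal_pow]
    rfl
  let q : Fin r → ℂ := fun i => ∑ k : Fin r, sv k * d i ^ k.1
  let t : E := ⟨fun i => Complex.exp (q i - (∑ j, q j) / r), by
    rw [← Complex.exp_sum, Finset.sum_sub_distrib, Finset.sum_const, Finset.card_univ,
      Fintype.card_fin, nsmul_eq_mul]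
    rcases Nat.eq_zero_or_pos r with h | h
    · subst h; simp
    · rw [mul_div_cancel₀ _ (Nat.cast_ne_zero.2 h.ne'), sub_self, Complex.exp_zero]⟩
  have hexp : expm (flowGen (z aIdx).1 sv) = T t := by
    refine Subtype.ext ?_
    show _ = V.1 * Matrix.diagonal _ * (V⁻¹).1
    rw [← expm_conj]
    congr 2
    have e1 : (Matrix.diagonal q : Mat r) = ∑ k : Fin r, sv k • Matrix.diagonal d ^ k.1 := by
      ext a b
      rw [Matrix.sum_apply]
      simp only [Matrix.diagonal_pow, Matrix.smul_apply, Matrix.diagonal_apply, Pi.pow_apply,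
        smul_eq_mul]
      split_ifs with hab
      · subst hab; rfl
      · simp
    rw [flowGen, hw, e1, Finset.mul_sum, Finset.sum_mul]
    refine Finset.sum_congr rfl fun k _ => ?_
    rw [Units.conj_pow, Matrix.mul_smul, Matrix.smul_mul]
  rw [hexp, ← hpe]
  exact torus_vanish hI p h0 t.2

lemma dense_ne_zero {f : ℂ → ℂ} (hf : Differentiable ℂ f) (h0 : f 0 ≠ 0) :
    IsOpen {z | f z ≠ 0} ∧ Dense {z | f z ≠ 0} := by
  refine ⟨isOpen_ne_fun hf.continuous continuous_const, ?_⟩
  rw [dense_iff_inter_open]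
  intro U hU ⟨a, ha⟩
  by_contra hcon
  rw [Set.not_nonempty_iff_eq_empty] at hcon
  have hev : f =ᶠ[𝓝 a] 0 := by
    filter_upwards [hU.mem_nhds ha] with z hz
    by_contra hne
    exact Set.eq_empty_iff_forall_notMem.1 hcon z ⟨hz, hne⟩
  exact h0 (congrFun ((Complex.analyticOnNhd_univ_iff_differentiable.2 hf).eq_of_eventuallyEq
    analyticOnNhd_const hev) 0)

/-- An entire family of representations through the base point. -/
structure Fam (g r : ℕ) {k s L : ℕ} (O : Subring ℂ) (C : Fin s → SL r) (K : Fin (g + 1) → SL r)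
    (z₀ : Rest k s → SL r) (N : Fin L → SL r) where
  /-- The number of parameters. -/
  n : ℕ
  /-- The family. -/
  Ψ : (Fin n → ℂ) → Idx (g + 1) k s → SL r
  smooth : ∀ x, (fun q => Ψ q x) ∈ entGroup (C1 (Fin n → ℂ))
  rel_eq : ∀ q, relT (Ψ q) = 1
  cls : ∀ q, InClass C (Ψ q)
  van : ∀ F, Van O C F → ∀ q, F (Ψ q) = 0
  base : Ψ 0 = sliceT K z₀
  good : ∀ l, ∃ q, ∃ A : Fin (g + 1) → SL r, Ψ q = sliceT A z₀ ∧ (∀ j, j ≠ 0 → A j = 1) ∧
    A 0 = N l
  slice_tan : ∀ a : Fin (g + 1) → Mat r, (∀ i, (a i).trace = 0) → ∃ v, ∀ x,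
    fd (fun q => Ψ q x) v = Sum.elim (fun y : Gens (g + 1) => if y.2 then 0 else a y.1)
      (fun _ => 0) x

variable {O : Subring ℂ} {C : Fin s → SL r} {K : Fin (g + 1) → SL r} {z₀ : Rest k s → SL r}
  {N : Fin L → SL r}

/-- The derivative of a family. -/
noncomputable def Fam.tan (P : Fam g r O C K z₀ N) :
    (Fin P.n → ℂ) →ₗ[ℂ] Idx (g + 1) k s → Mat r :=
  LinearMap.pi fun x => fd fun q => P.Ψ q x

lemma exists_path (M : SL r) : ∃ γ : ℂ → SL r, γ ∈ entGroup (C1 ℂ) ∧ γ 0 = 1 ∧ γ 1 = M := by
  let G : Submonoid (SL r) :=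
    { carrier := {M | ∃ γ : ℂ → SL r, γ ∈ entGroup (C1 ℂ) ∧ γ 0 = 1 ∧ γ 1 = M}
      one_mem' := ⟨1, (entGroup _).one_mem, rfl, rfl⟩
      mul_mem' := by
        rintro _ _ ⟨γ, hγ, h0, rfl⟩ ⟨δ, hδ, h0', rfl⟩
        exact ⟨γ * δ, (entGroup _).mul_mem hγ hδ, by simp [h0, h0'], rfl⟩ }
  have h := el_generate G fun a b t hab =>
    ⟨fun s => el a b (s * t), el_mem _ _ _ ((C1 ℂ).mul_mem
      (show (fun s : ℂ => s) ∈ C1 ℂ from show ContDiff ℂ 1 _ from contDiff_id)
      ((C1 ℂ).algebraMap_mem t)), by simp [el_zero], by simp⟩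
  exact (h ▸ Submonoid.mem_top M : M ∈ G)

lemma entGroup_comp {E E' : Type} [NormedAddCommGroup E] [NormedSpace ℂ E] [NormedAddCommGroup E']
    [NormedSpace ℂ E'] {f : E → SL r} (hf : f ∈ entGroup (C1 E)) {φ : E' → E}
    (hφ : ContDiff ℂ 1 φ) : (fun x => f (φ x)) ∈ entGroup (C1 E') := fun i j =>
  show ContDiff ℂ 1 _ from (show ContDiff ℂ 1 (ent f i j) from hf i j).comp hφ

lemma pre_one {G : Type} [Group G] {n : ℕ} (j : Fin n) : pre j (fun _ => (1 : G)) = 1 :=
  (map_pre (1 : G →* G) j fun _ => 1).symm.trans (MonoidHom.one_apply _)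

lemma prod_ofFn_single {G : Type} [Group G] {n : ℕ} (j : Fin n) (f : Fin n → G)
    (h : ∀ l, l ≠ j → f l = 1) : (List.ofFn f).prod = f j := by
  have h1 := prod_congr_pre j (f := f) (f' := fun _ => 1) 1 (f j) h
    (by rw [pre_congr j (f := f) (f' := fun _ => 1) h, pre_one]; simp)
  simpa using h1

lemma exists_fam (hz : IsInt O z₀) (hz1 : relR z₀ = 1)
    (hzC : ∀ j, ∃ Q : SL r, z₀ (Sum.inr j) = Q * C j * Q⁻¹) :
    Nonempty (Fam g r O C K z₀ N) := by
  classical
  choose γ hγ hγ0 hγ1 using fun i => exists_path (K i)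
  choose δ hδ hδ0 hδ1 using fun l => exists_path (N l)
  let ι := Option (Fin L ⊕ Fin (g + 1) × Fin r × Fin r)
  let M := Fintype.card ι
  let eq : ι ≃ Fin M := Fintype.equivFin ι
  let Y : (Fin M → ℂ) → Fin (g + 1) → Mat r := fun q i =>
    Matrix.of fun a b => q (eq (some (Sum.inr (i, a, b))))
  let B : (Fin M → ℂ) → SL r := fun q =>
    (List.ofFn fun l => δ l (q (eq (some (Sum.inl l))))).prod
  let A : (Fin M → ℂ) → Fin (g + 1) → SL r := fun q i =>
    γ i (1 - q (eq none)) * (if i = 0 then B q else 1) * expm (Y q i)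
  have hB : B ∈ entGroup (C1 (Fin M → ℂ)) := by
    have e : B = (List.ofFn fun l => fun q : Fin M → ℂ => δ l (q (eq (some (Sum.inl l))))).prod := by
      funext q
      have h := map_list_prod (Pi.evalMonoidHom (fun _ : Fin M → ℂ => SL r) q)
        (List.ofFn fun l => fun q : Fin M → ℂ => δ l (q (eq (some (Sum.inl l)))))
      rw [List.map_ofFn] at h
      exact h.symm
    rw [e]
    refine list_prod_mem fun w hw => ?_
    obtain ⟨l, rfl⟩ := List.mem_ofFn.1 hw
    exact entGroup_comp (hδ l) (contDiff_apply ℂ ℂ _)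
  have hA : ∀ i, (fun q => A q i) ∈ entGroup (C1 (Fin M → ℂ)) := fun i => by
    refine (entGroup _).mul_mem ((entGroup _).mul_mem
      (entGroup_comp (hγ i) (contDiff_const.sub (contDiff_apply ℂ ℂ _))) ?_)
      (expm_mem (fun q => Y q i) fun a b => show ContDiff ℂ 1 _ from contDiff_apply ℂ ℂ _)
    by_cases hi : i = 0
    · simp only [hi, if_true]; exact hB
    · simp only [hi, if_false]; exact const_mem _ 1
  have hB1 : ∀ q, (∀ l, q (eq (some (Sum.inl l))) = 0) → B q = 1 := fun q hq =>
    List.prod_eq_one fun x hx => by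
      obtain ⟨l, rfl⟩ := List.mem_ofFn.1 hx
      simp [hq, hδ0]
  refine ⟨⟨M, fun q => sliceT (A q) z₀, fun x => ?_, fun q => (relT_sliceT _ _).trans hz1,
    fun q => hzC, fun F hF q => slice_vanish hF hz hz1 hzC _, ?_, ?_, ?_⟩⟩
  · rcases x with ⟨i, b⟩ | x
    · cases b
      · exact hA i
      · exact const_mem _ 1
    · exact const_mem _ (z₀ x)
  · show sliceT (A 0) z₀ = sliceT K z₀
    congr 1
    funext i
    have : Y 0 i = 0 := by ext a b; rfl
    simp [A, this, expm_zero, hγ1, hB1]
  · intro l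
    let q : Fin M → ℂ := fun n => match eq.symm n with
      | none => 1
      | some (Sum.inl m) => if m = l then 1 else 0
      | some (Sum.inr _) => 0
    refine ⟨q, A q, rfl, fun j hj => ?_, ?_⟩
    · have : Y q j = 0 := by ext a b; simp [Y, q]
      simp [A, this, expm_zero, hj, show q (eq none) = 1 by simp [q], hγ0]
    · have : Y q 0 = 0 := by ext a b; simp [Y, q]
      have hBq : B q = N l := by
        rw [show B q = _ from prod_ofFn_single l _ fun m hm => by simp [q, hm, hδ0]]
        simp [q, hδ1]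
      simp [A, this, expm_zero, hBq, show q (eq none) = 1 by simp [q], hγ0]
  · intro a ha
    let v : Fin M → ℂ := fun n => match eq.symm n with
      | none => 0
      | some (Sum.inl _) => 0
      | some (Sum.inr (i, p, q)) => a i p q
    refine ⟨v, fun x => ?_⟩
    rcases x with ⟨i, b⟩ | x
    · cases b
      · have hjet : HasJet (fun z : ℂ => A (z • v) i) ⟨K i, a i⟩ := by
          have hY : ∀ z : ℂ, Y (z • v) i = z • a i := fun z => by
            ext p q; simp [Y, v]
          have hn : ∀ z : ℂ, (z • v) (eq none) = 0 := fun z => by simp [v]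
          have hb : ∀ z : ℂ, B (z • v) = 1 := fun z => hB1 _ fun l => by simp [v]
          have e : (fun z : ℂ => A (z • v) i) = (fun _ => K i) * fun z => expm (z • a i) := by
            funext z; simp [A, hY, hn, hγ1, hb]
          rw [e]
          have := (hasJet_const (K i)).mul (hasJet_expm (a i))
          rw [tl_of_trace _ (ha i)] at this
          convert this using 1
          exact Jet.ext (mul_one _).symm (by simp)
        exact fd_eq_of_hasJet (hA i) hjet
      · exact fd_eq_of_hasJet (const_mem _ 1) (hasJet_const (1 : SL r))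
    · exact fd_eq_of_hasJet (const_mem _ (z₀ x)) (hasJet_const (z₀ x))

/-- The tangent vector of a twist flow. -/
noncomputable def twistVec (e : Move (g + 1) k s) (K : Fin (g + 1) → SL r)
    (z₀ : Rest k s → SL r) (sv : Fin r → ℂ) : Idx (g + 1) k s → Mat r := fun x =>
  (e.b (Jet r) (twistT ⟨1, tl (flowGen (e.f (SL r) (sliceT K z₀) aIdx).1 sv)⟩
    (fun x => ⟨e.f (SL r) (sliceT K z₀) x, 0⟩)) x).v

lemma exists_step (P : Fam g r O C K z₀ N) (e : Move (g + 1) k s)
    (he : ∃ l, ∀ A : Fin (g + 1) → SL r, (∀ j, j ≠ 0 → A j = 1) → A 0 = N l →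
      ∀ α β : Fin r → ℕ, ¬ Par α β → hInd α β (e.f (SL r) (sliceT A z₀) aIdx).1 ≠ 0) :
    ∃ P' : Fam g r O C K z₀ N, LinearMap.range P.tan ≤ LinearMap.range P'.tan ∧
      ∀ sv, twistVec e K z₀ sv ∈ LinearMap.range P'.tan := by
  let M := P.n + r
  let π₁ : (Fin M → ℂ) → Fin P.n → ℂ := fun q i => q (Fin.castAdd r i)
  let π₂ : (Fin M → ℂ) → Fin r → ℂ := fun q i => q (Fin.natAdd P.n i)
  let z : (Fin M → ℂ) → Idx (g + 1) k s → SL r := fun q => e.f (SL r) (P.Ψ (π₁ q))
  let Φ : (Fin M → ℂ) → Idx (g + 1) k s → SL r := fun q =>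
    e.b (SL r) (twistT (expm (flowGen (z q aIdx).1 (π₂ q))) (z q))
  have hπ₁ : ContDiff ℂ 1 π₁ := contDiff_pi.2 fun i => contDiff_apply ℂ ℂ _
  have hz : ∀ x, (fun q => z q x) ∈ entGroup (C1 (Fin M → ℂ)) := fun x =>
    e.fam_f _ (fun q => P.Ψ (π₁ q)) (fun x => entGroup_comp (P.smooth x) hπ₁) x
  have hΦ : ∀ x, (fun q => Φ q x) ∈ entGroup (C1 (Fin M → ℂ)) := fun x =>
    e.fam_b _ (fun q => twistT (expm (flowGen (z q aIdx).1 (π₂ q))) (z q))
      (twistT_mem _ z hz (expm_mem _ fun a b => by
        have e1 : (fun q => flowGen (z q aIdx).1 (π₂ q) a b) =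
            ∑ k : Fin r, (fun q => π₂ q k) * fun q => ((z q aIdx).1 ^ k.1) a b := by
          funext q
          simp [flowGen, Matrix.sum_apply, Finset.sum_apply]
        rw [e1]
        exact (C1 _).sum_mem fun k _ => (C1 _).mul_mem
          (show ContDiff ℂ 1 _ from contDiff_apply ℂ ℂ _) ((matMem_val (hz _)).pow k.1 a b))) x
  have hzero : ∀ q, π₂ q = 0 → Φ q = P.Ψ (π₁ q) := fun q hq => by
    simp only [Φ, hq, flowGen, Pi.zero_apply, zero_smul, Finset.sum_const_zero, expm_zero,
      twistT_one]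
    exact e.left _
  obtain ⟨l, hl⟩ := he
  obtain ⟨q₀, A, hA, hA1, hA2⟩ := P.good l
  let Φ' : Fam g r O C K z₀ N :=
    { n := M
      Ψ := Φ
      smooth := hΦ
      cls := fun q => (((P.cls _).move_f e).twistT _).move_b e
      rel_eq := fun q => by
        rw [e.rel_b, relT_twistT]
        · exact (e.rel_f _).trans (P.rel_eq _)
        · show _ * _ = _ * _
          exact Subtype.ext (commute_expm (commute_flowGen _ _)).eq
      van := fun F hF q => by
        let ℓ : ℂ → Fin P.n → ℂ := fun t => q₀ + t • (π₁ q - q₀)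
        have hℓ : ContDiff ℂ 1 ℓ := contDiff_const.add (contDiff_id.smul contDiff_const)
        let zl : ℂ → Idx (g + 1) k s → SL r := fun t => e.f (SL r) (P.Ψ (ℓ t))
        have hzl : ∀ x, (fun t => zl t x) ∈ entGroup (C1 ℂ) := fun x =>
          e.fam_f _ (fun t => P.Ψ (ℓ t)) (fun x => entGroup_comp (P.smooth x) hℓ) x
        let f : ℂ → ℂ := fun t =>
          F (e.b (SL r) (twistT (expm (flowGen (zl t aIdx).1 (π₂ q))) (zl t)))
        have hf : Continuous f := by
          refine (show ContDiff ℂ 1 f from polyFun_comp (C1 ℂ) _ (fun x => e.fam_b _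
            (fun t => twistT (expm (flowGen (zl t aIdx).1 (π₂ q))) (zl t))
            (twistT_mem _ zl hzl (expm_mem _ fun a b => ?_)) x) hF.1).continuous
          have e1 : (fun t => flowGen (zl t aIdx).1 (π₂ q) a b) =
              ∑ k : Fin r, π₂ q k • fun t => ((zl t aIdx).1 ^ k.1) a b := by
            funext t
            simp [flowGen, Matrix.sum_apply, Finset.sum_apply]
          rw [e1]
          exact (C1 ℂ).sum_mem fun k _ => (C1 ℂ).smul_mem ((matMem_val (hzl _)).pow k.1 a b) _
        let good : {αβ : (Fin r → ℕ) × (Fin r → ℕ) // ¬ Par αβ.1 αβ.2} → Set ℂ := fun αβ =>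
          {t | hInd αβ.1.1 αβ.1.2 (zl t aIdx).1 ≠ 0}
        have hgood : ∀ αβ, IsOpen (good αβ) ∧ Dense (good αβ) := fun αβ => by
          refine dense_ne_zero ?_ ?_
          · have hw : ContDiff ℂ 1 fun t => fun a b => (zl t aIdx).1 a b :=
              contDiff_pi.2 fun a => contDiff_pi.2 fun b => hzl _ a b
            have h1 : ContDiff ℂ 1 fun y : Fin r → Fin r → ℂ =>
                hInd αβ.1.1 αβ.1.2 (Matrix.of y) := contDiff_hInd _ _
            exact (h1.comp hw).differentiable (by norm_num)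
          · have : zl 0 aIdx = e.f (SL r) (sliceT A z₀) aIdx := by
              simp only [zl, ℓ, zero_smul, add_zero, hA]
            rw [this]
            exact hl A hA1 hA2 _ _ αβ.2
        have hd : Dense (⋂ αβ, good αβ) :=
          dense_iInter_of_isOpen (fun αβ => (hgood αβ).1) fun αβ => (hgood αβ).2
        have hvan : Set.EqOn f 0 (⋂ αβ, good αβ) := fun t ht => by
          refine van_torus e _ (fun n => P.van _ (van_intFlow e n hF) _) hF (fun α β h => ?_) _
          exact Set.mem_iInter.1 ht ⟨(α, β), h⟩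
        have h1 := congrFun (hf.ext_on hd continuous_zero hvan) 1
        simpa [f, zl, ℓ] using h1
      base := by rw [hzero 0 (funext fun _ => rfl)]; exact P.base
      good := fun l' => by
        obtain ⟨q', A', hA', h1, h2⟩ := P.good l'
        refine ⟨Fin.append q' 0, A', ?_, h1, h2⟩
        rw [hzero _ (funext fun i => by simp [π₂]), ← hA']
        congr 1
        funext i
        simp [π₁]
      slice_tan := fun a ha => by
        obtain ⟨v, hv⟩ := P.slice_tan a ha
        refine ⟨Fin.append v 0, fun x => ?_⟩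
        rw [← hv x]
        refine fd_eq_of_hasJet (p := ⟨P.Ψ 0 x, fd (fun q => P.Ψ q x) v⟩) (hΦ x) ?_
        have h := hasJet_line (P.smooth x) v
        convert h using 2 with z
        rw [hzero _ (funext fun i => by simp [π₂])]
        congr 2
        funext i
        simp [π₁] }
  refine ⟨Φ', ?_, fun sv => ?_⟩
  · rintro _ ⟨v, rfl⟩
    refine ⟨Fin.append v (0 : Fin r → ℂ), funext fun x => ?_⟩
    show fd (fun q => Φ q x) _ = fd (fun q => P.Ψ q x) v
    refine fd_eq_of_hasJet (p := ⟨P.Ψ 0 x, fd (fun q => P.Ψ q x) v⟩) (hΦ x) ?_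
    have h := hasJet_line (P.smooth x) v
    convert h using 2 with z
    rw [hzero _ (funext fun i => by simp [π₂])]
    congr 2
    funext i
    simp [π₁]
  · refine ⟨Fin.append (0 : Fin P.n → ℂ) sv, funext fun x => ?_⟩
    show fd (fun q => Φ q x) _ = _
    have hs : ∀ t : ℂ, flowGen (e.f (SL r) (sliceT K z₀) aIdx).1 (t • sv) =
        t • flowGen (e.f (SL r) (sliceT K z₀) aIdx).1 sv := fun t => by
      simp [flowGen, Finset.smul_sum, smul_smul]
    set y0 := e.f (SL r) (sliceT K z₀)
    let yJ : Idx (g + 1) k s → ((ℂ → SL r) × Jet r) := fun x =>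
      (fun t => twistT (expm (t • flowGen (y0 aIdx).1 sv)) y0 x,
        twistT (⟨1, tl (flowGen (y0 aIdx).1 sv)⟩ : Jet r) (fun x => ⟨y0 x, 0⟩) x)
    have hy : ∀ x, yJ x ∈ jetGroup r := fun x => by
      show HasJet _ _
      by_cases hx : x = bIdx
      · subst hx
        simp only [yJ, twistT, Function.update_self]
        exact (hasJet_const (y0 bIdx)).mul (hasJet_expm _)
      · simp only [yJ, twistT, Function.update_of_ne hx]
        exact hasJet_const (y0 x)
    have hj := e.b_mem (jetGroup r) yJ hy x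
    have h2 : (e.b _ yJ x).2 = e.b (Jet r)
        (twistT ⟨1, tl (flowGen (y0 aIdx).1 sv)⟩ fun x => ⟨y0 x, 0⟩) x :=
      congrFun (e.natural_b (MonoidHom.snd (ℂ → SL r) (Jet r)) yJ) x
    have h1 : (e.b _ yJ x).1 = fun t : ℂ => Φ (t • Fin.append (0 : Fin P.n → ℂ) sv) x := by
      funext t
      have := congrFun (e.natural_b ((Pi.evalMonoidHom (fun _ : ℂ => SL r) t).comp
        (MonoidHom.fst (ℂ → SL r) (Jet r))) yJ) x
      rw [show (e.b _ yJ x).1 t = _ from this]
      have hp1 : π₁ (t • Fin.append (0 : Fin P.n → ℂ) sv) = 0 := by funext i; simp [π₁]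
      have hp2 : π₂ (t • Fin.append (0 : Fin P.n → ℂ) sv) = t • sv := by funext i; simp [π₂]
      simp only [Φ, z, hp1, hp2, P.base]
      refine congrArg (fun y => e.b (SL r) y x) (funext fun x' => ?_)
      show twistT (expm (t • _)) y0 x' = _
      rw [← hs t]
    have hj' : HasJet (e.b _ yJ x).1 (e.b _ yJ x).2 := hj
    rw [h1, h2] at hj'
    exact fd_eq_of_hasJet (hΦ x) hj'

/-- A family with the largest possible tangent space. -/
theorem exists_max (hz : IsInt O z₀) (hz1 : relR z₀ = 1)
    (hzC : ∀ j, ∃ Q : SL r, z₀ (Sum.inr j) = Q * C j * Q⁻¹) :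
    ∃ P : Fam g r O C K z₀ N, ∀ e : Move (g + 1) k s,
      (∃ l, ∀ A : Fin (g + 1) → SL r, (∀ j, j ≠ 0 → A j = 1) → A 0 = N l →
        ∀ α β : Fin r → ℕ, ¬ Par α β → hInd α β (e.f (SL r) (sliceT A z₀) aIdx).1 ≠ 0) →
      ∀ sv, twistVec e K z₀ sv ∈ LinearMap.range P.tan := by
  have hbd : ∀ P : Fam g r O C K z₀ N, Module.finrank ℂ (LinearMap.range P.tan) ≤
      Module.finrank ℂ (Idx (g + 1) k s → Mat r) := fun P => Submodule.finrank_le _
  classical
  obtain ⟨P0⟩ := exists_fam (K := K) (N := N) hz hz1 hzC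
  let p : ℕ → Prop := fun n => ∃ P : Fam g r O C K z₀ N,
    Module.finrank ℂ (LinearMap.range P.tan) = n
  have hp := Nat.findGreatest_spec (P := p) (hbd P0) ⟨P0, rfl⟩
  obtain ⟨P, hP⟩ := hp
  refine ⟨P, fun e he sv => ?_⟩
  obtain ⟨P', hle, hs⟩ := exists_step P e he
  have heq : LinearMap.range P.tan = LinearMap.range P'.tan := by
    refine Submodule.eq_of_le_of_finrank_le hle ?_
    rw [hP]
    exact Nat.le_findGreatest (hbd P') ⟨P', rfl⟩
  rw [heq]
  exact hs sv

end Vale.Agent.P002.Surface
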