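import Mathlib

/-!
Generation of `SL_r(ℂ)` by elementary matrices, by cyclically adjacent ones, and torus elements.
-/

open Matrix

namespace Vale.Agent.P002.Surface

/-- The special linear group over the complex numbers. -/
abbrev SL (r : ℕ) := Matrix.SpecialLinearGroup (Fin r) ℂ

variable {r : ℕ}

/-- The elementary matrix `1 + t e_{ij}` (and `1` if `i = j`). -/
noncomputable def el (i j : Fin r) (t : ℂ) : SL r :=
  if h : i ≠ j then Matrix.SpecialLinearGroup.transvection h t else 1

lemma el_val {i j : Fin r} (h : i ≠ j) (t : ℂ) :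
    (el i j t).1 = (1 : Matrix (Fin r) (Fin r) ℂ) + single i j t := by
  simp [el, h, Matrix.SpecialLinearGroup.transvection_coe]

lemma el_val' {i j : Fin r} (h : i ≠ j) (t : ℂ) : (el i j t).1 = Matrix.transvection i j t := by
  rw [el_val h]; rfl

lemma el_zero (i j : Fin r) : el i j 0 = 1 := by
  by_cases h : i ≠ j
  · refine Subtype.ext ?_
    rw [el_val h]
    simp
  · simp [el, h]

lemma el_add {i j : Fin r} (h : i ≠ j) (s t : ℂ) : el i j s * el i j t = el i j (s + t) := by
  refine Subtype.ext ?_
  show (el i j s).1 * (el i j t).1 = _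
  rw [el_val' h, el_val' h, el_val' h, Matrix.transvection_mul_transvection_same (i := i) (j := j) h]

lemma el_inv {i j : Fin r} (h : i ≠ j) (t : ℂ) : (el i j t)⁻¹ = el i j (-t) :=
  inv_eq_of_mul_eq_one_right (by rw [el_add h, add_neg_cancel, el_zero])

lemma el_pow {i j : Fin r} (h : i ≠ j) (t : ℂ) (n : ℕ) : el i j t ^ n = el i j (n * t) := by
  induction n with
  | zero => simp [el_zero]
  | succ n ih => rw [pow_succ, ih, el_add h]; push_cast; ring_nf

open scoped commutatorElement in
lemma el_commutator {i j k : Fin r} (hij : i ≠ j) (hjk : j ≠ k) (hik : i ≠ k) (a b : ℂ) :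
    ⁅el i j a, el j k b⁆ = el i k (a * b) := by
  rw [commutatorElement_def, el_inv hij, el_inv hjk]
  refine Subtype.ext ?_
  show (el i j a).1 * (el j k b).1 * (el i j (-a)).1 * (el j k (-b)).1 = _
  rw [el_val hij, el_val hjk, el_val hij, el_val hjk, el_val hik]
  simp [add_mul, mul_add, hij.symm, hjk.symm, hik.symm]
  ext p q
  simp [Matrix.single]
  split_ifs <;> ring

/-- The monomial element attached to `(i, j)`. -/
noncomputable def wel (i j : Fin r) (a : ℂ) : SL r := el i j a * el j i (-a⁻¹) * el i j a

lemma wel_val {i j : Fin r} (h : i ≠ j) {a : ℂ} (ha : a ≠ 0) :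
    (wel i j a).1 = Matrix.of fun p q => if p = i then (if q = j then a else 0)
      else if p = j then (if q = i then -a⁻¹ else 0) else if p = q then 1 else 0 := by
  show (el i j a).1 * (el j i (-a⁻¹)).1 * (el i j a).1 = _
  rw [el_val' h, el_val' h.symm]
  have hT : ∀ p q, (Matrix.transvection i j a) p q =
      if p = q then 1 else if p = i ∧ q = j then a else 0 := by
    intro p q
    simp only [Matrix.transvection, Matrix.add_apply, Matrix.one_apply, Matrix.single, Matrix.of_apply]
    split_ifs <;> grind
  ext p q
  rw [Matrix.of_apply]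
  by_cases hq : q = j
  · subst hq
    rw [Matrix.mul_transvection_apply_same, Matrix.mul_transvection_apply_of_ne _ _ _ _ h.symm,
      Matrix.mul_transvection_apply_same, hT, hT]
    split_ifs <;> grind
  · rw [Matrix.mul_transvection_apply_of_ne _ _ _ _ hq]
    by_cases hq2 : q = i
    · subst hq2
      rw [Matrix.mul_transvection_apply_same, hT, hT]
      split_ifs <;> grind
    · rw [Matrix.mul_transvection_apply_of_ne _ _ _ _ hq2, hT]
      split_ifs <;> grind

/-- The torus element with `a` at `i` and `a⁻¹` at `j`. -/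
noncomputable def tor (i j : Fin r) (a : ℂ) : SL r := wel i j a * wel i j (-1)

lemma tor_val {i j : Fin r} (h : i ≠ j) {a : ℂ} (ha : a ≠ 0) :
    (tor i j a).1 = Matrix.diagonal fun k => if k = i then a else if k = j then a⁻¹ else 1 := by
  show (wel i j a).1 * (wel i j (-1)).1 = _
  rw [wel_val h ha, wel_val h (by norm_num)]
  ext p q
  rw [Matrix.mul_apply, Matrix.diagonal_apply]
  by_cases hp : p = i
  · rw [Finset.sum_eq_single j (fun k _ hk => by simp [hp, hk]) (fun hj => absurd (Finset.mem_univ j) hj)]
    simp [hp, h.symm]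
    split_ifs <;> grind
  by_cases hp2 : p = j
  · rw [Finset.sum_eq_single i (fun k _ hk => by simp [hp2, h.symm, hk])
      (fun hj => absurd (Finset.mem_univ i) hj)]
    simp [hp2, h.symm]
    split_ifs <;> grind
  · rw [Finset.sum_eq_single p (fun k _ hk => by simp [hp, hp2, Ne.symm hk])
      (fun hj => absurd (Finset.mem_univ p) hj)]
    simp [hp, hp2]

/-- The diagonal matrices of determinant one lie in any submonoid containing the elementary
matrices. -/
lemma diag_mem (G : Submonoid (SL r)) (hG : ∀ i j t, i ≠ j → el i j t ∈ G) (M : SL r)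
    (d : Fin r → ℂ) (hd : M.1 = Matrix.diagonal d) : M ∈ G := by
  have hT : ∀ i j a, i ≠ j → tor i j a ∈ G := fun i j a h =>
    G.mul_mem (G.mul_mem (G.mul_mem (hG _ _ _ h) (hG _ _ _ h.symm)) (hG _ _ _ h))
      (G.mul_mem (G.mul_mem (hG _ _ _ h) (hG _ _ _ h.symm)) (hG _ _ _ h))
  have hdet : ∏ k, d k = 1 := by rw [← Matrix.det_diagonal, ← hd, M.2]
  have hne : ∀ k, d k ≠ 0 := fun k h0 =>
    one_ne_zero (hdet ▸ (Finset.prod_eq_zero (Finset.mem_univ k) h0))
  -- push all entries outside a shrinking set to one
  suffices H : ∀ (s : Finset (Fin r)) (M : SL r) (d : Fin r → ℂ), M.1 = Matrix.diagonal d →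
      (∀ k, d k ≠ 0) → (∏ k, d k = 1) → (∀ k ∉ s, d k = 1) → M ∈ G from
    H Finset.univ M d hd hne hdet (fun k hk => absurd (Finset.mem_univ k) hk)
  intro s
  induction s using Finset.induction with
  | empty =>
    intro M d hd _ _ h1
    have : M = 1 := Subtype.ext (by
      rw [hd, show d = fun _ => 1 from funext fun k => h1 k (Finset.notMem_empty k)]
      exact Matrix.diagonal_one)
    rw [this]; exact G.one_mem
  | @insert i s hi ih =>
    intro M d hd hne hdet h1
    rcases s.eq_empty_or_nonempty with hs | ⟨j, hj⟩
    · subst hs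
      refine ih M d hd hne hdet fun k _ => ?_
      by_cases hk : k = i
      · subst hk
        rw [← hdet]
        exact (Finset.prod_eq_single k (fun l _ hl => h1 l (by simp [hl]))
          (fun h => absurd (Finset.mem_univ _) h)).symm
      · exact h1 k (by simp [hk])
    · have hij : i ≠ j := fun h => hi (h ▸ hj)
      let d' : Fin r → ℂ := fun k => if k = i then 1 else if k = j then d j * d i else d k
      have e : M = tor i j (d i) * ((tor i j (d i))⁻¹ * M) := by group
      rw [e]
      refine G.mul_mem (hT _ _ _ hij) (ih _ d' ?_ ?_ ?_ ?_)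
      · have h2 : (Matrix.diagonal fun k => if k = i then d i else if k = j then (d i)⁻¹ else 1) *
            Matrix.diagonal d' = Matrix.diagonal d := by
          rw [Matrix.diagonal_mul_diagonal]
          congr 1
          funext k
          by_cases hki : k = i
          · simp [d', hki]
          · by_cases hkj : k = j
            · subst hkj
              simp only [d', hki, if_false, if_true]
              field_simp [hne i]
            · simp [d', hki, hkj]
        show ((tor i j (d i))⁻¹).1 * M.1 = _
        rw [hd, ← h2, ← tor_val hij (hne i), ← Matrix.mul_assoc]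
        show ((tor i j (d i))⁻¹ * tor i j (d i)).1 * _ = _
        rw [inv_mul_cancel]
        exact one_mul _
      · intro k
        simp only [d']
        split_ifs
        · exact one_ne_zero
        · exact mul_ne_zero (hne j) (hne i)
        · exact hne k
      · rw [← hdet, ← Finset.mul_prod_erase _ _ (Finset.mem_univ i),
          ← Finset.mul_prod_erase _ _ (Finset.mem_univ i)]
        have hj' : j ∈ Finset.univ.erase i := Finset.mem_erase.2 ⟨hij.symm, Finset.mem_univ _⟩
        rw [← Finset.mul_prod_erase _ _ hj', ← Finset.mul_prod_erase _ _ hj']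
        simp only [d', hij.symm, if_false, if_true, one_mul]
        rw [Finset.prod_congr rfl fun k hk => ?_]
        · ring
        · simp only [Finset.mem_erase] at hk
          simp [hk.1, hk.2.1]
      · intro k hk
        simp only [d']
        split_ifs with a b
        · rfl
        · exact absurd (b ▸ hj) hk
        · exact h1 k (by simp [a, hk])

/-- `SL_r` is generated by the elementary matrices, as a monoid. -/
theorem el_generate (G : Submonoid (SL r)) (hG : ∀ i j t, i ≠ j → el i j t ∈ G) : G = ⊤ := by
  rw [eq_top_iff]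
  intro M _
  obtain ⟨L, L', D, h⟩ := Matrix.Pivot.exists_list_transvec_mul_diagonal_mul_list_transvec M.1
  have hlist : ∀ L : List (TransvectionStruct (Fin r) ℂ),
      ∃ g ∈ G, g.1 = (L.map TransvectionStruct.toMatrix).prod := by
    intro L
    induction L with
    | nil => exact ⟨1, G.one_mem, rfl⟩
    | cons t L ih =>
      obtain ⟨g, hg, he⟩ := ih
      refine ⟨el t.i t.j t.c * g, G.mul_mem (hG _ _ _ t.hij) hg, ?_⟩
      show (el t.i t.j t.c).1 * g.1 = _
      rw [el_val' t.hij, he, List.map_cons, List.prod_cons]
      rfl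
  obtain ⟨g, hg, hge⟩ := hlist L
  obtain ⟨g', hg', hge'⟩ := hlist L'
  have hdet : (Matrix.diagonal D).det = 1 := by
    have := congrArg Matrix.det h
    rwa [M.2, Matrix.det_mul, Matrix.det_mul, ← hge, ← hge', g.2, g'.2, one_mul, mul_one,
      eq_comm] at this
  have e : M = g * ⟨Matrix.diagonal D, hdet⟩ * g' := Subtype.ext (by
    show M.1 = g.1 * Matrix.diagonal D * g'.1
    rw [hge, hge']; exact h)
  rw [e]
  exact G.mul_mem (G.mul_mem hg (diag_mem G hG _ D rfl)) hg'

/-- The cyclic successor. -/
def nxt (i : Fin r) : Fin r := ⟨(i.1 + 1) % r, Nat.mod_lt _ (i.pos)⟩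

/-- Cyclically adjacent elementary matrices generate `SL_r` as a group. -/
theorem adj_generate (H : Subgroup (SL r)) (hH : ∀ i t, el i (nxt i) t ∈ H) : H = ⊤ := by
  have key : ∀ d : ℕ, ∀ i : Fin r, d < r → 0 < d → ∀ t,
      el i ⟨(i.1 + d) % r, Nat.mod_lt _ i.pos⟩ t ∈ H := by
    intro d
    induction d with
    | zero => intro i _ h; exact absurd h (lt_irrefl 0)
    | succ d ih =>
      intro i hd _ t
      rcases Nat.eq_zero_or_pos d with h0 | hpos
      · subst h0; exact hH i t
      · set j : Fin r := ⟨(i.1 + d) % r, Nat.mod_lt _ i.pos⟩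
        set k : Fin r := ⟨(i.1 + (d + 1)) % r, Nat.mod_lt _ i.pos⟩
        have hk : nxt j = k := Fin.ext (by simp [nxt, j, k, Nat.add_assoc])
        have hne : ∀ e, 0 < e → e < r → (i.1 + e) % r ≠ i.1 := by
          intro e he her h
          rcases lt_or_ge (i.1 + e) r with h' | h'
          · rw [Nat.mod_eq_of_lt h'] at h; omega
          · rw [Nat.mod_eq_sub_mod h', Nat.mod_eq_of_lt (by omega)] at h; omega
        have hij : i ≠ j := fun h => hne d hpos (by omega) (congrArg Fin.val h).symm
        have hik : i ≠ k := fun h => hne (d + 1) (by omega) hd (congrArg Fin.val h).symm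
        have hjk : j ≠ k := by
          intro h
          have := congrArg Fin.val h
          simp only [j, k] at this
          have h2 : (i.1 + d) % r < r := Nat.mod_lt _ i.pos
          rw [← Nat.add_assoc, Nat.add_mod (i.1 + d) 1, Nat.one_mod_eq_one.2 (by omega)] at this
          rcases lt_or_ge ((i.1 + d) % r + 1) r with h' | h'
          · rw [Nat.mod_eq_of_lt h'] at this; omega
          · rw [show (i.1 + d) % r + 1 = r by omega, Nat.mod_self] at this; omega
        have := el_commutator hij hjk hik t 1
        rw [mul_one] at this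
        rw [← this, commutatorElement_def, el_inv hij, el_inv hjk]
        exact H.mul_mem (H.mul_mem (H.mul_mem (ih i (by omega) hpos t) (hk ▸ hH j 1))
          (ih i (by omega) hpos _)) (hk ▸ hH j (-1))
  have h := el_generate H.toSubmonoid fun i j t hij => ?_
  · rw [eq_top_iff]
    intro x _
    exact (h ▸ Submonoid.mem_top x : x ∈ H.toSubmonoid)
  · rcases lt_or_gt_of_ne (fun h => hij (Fin.ext h) : i.1 ≠ j.1) with hlt | hgt
    · have := key (j.1 - i.1) i (by omega) (by omega) t
      have e : (⟨(i.1 + (j.1 - i.1)) % r, Nat.mod_lt _ i.pos⟩ : Fin r) = j := Fin.ext (by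
        show (i.1 + (j.1 - i.1)) % r = j.1
        rw [Nat.mod_eq_of_lt] <;> omega)
      rwa [e] at this
    · have := key (r - (i.1 - j.1)) i (by omega) (by omega) t
      have e : (⟨(i.1 + (r - (i.1 - j.1))) % r, Nat.mod_lt _ i.pos⟩ : Fin r) = j := Fin.ext (by
        show (i.1 + (r - (i.1 - j.1))) % r = j.1
        rw [show i.1 + (r - (i.1 - j.1)) = j.1 + r by omega, Nat.add_mod_right,
          Nat.mod_eq_of_lt j.2])
      rwa [e] at this

end Vale.Agent.P002.Surface
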