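import Vale.Agent.P002.Surface.Moves

/-!
Punctured surfaces: the handles carrying the slice, further handles, and meridians.
-/

open Matrix Finset
open scoped commutatorElement

namespace Vale.Agent.P002.Surface

variable {g k s r : ℕ}

/-- The generators away from the slice: further handles and meridians. -/
abbrev Rest (k s : ℕ) := Gens k ⊕ Fin s

/-- All generators. -/
abbrev Idx (g k s : ℕ) := Gens g ⊕ Rest k s

/-- The product contributed by the generators away from the slice. -/
def relR {G : Type} [Group G] (z : Rest k s → G) : G :=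
  rel (z ∘ Sum.inl) * (List.ofFn fun j => z (Sum.inr j)).prod

/-- The relation of a punctured surface. -/
def relT {G : Type} [Group G] (y : Idx g k s → G) : G :=
  rel (y ∘ Sum.inl) * relR (y ∘ Sum.inr)

lemma map_relR {G H : Type} [Group G] [Group H] (φ : G →* H) (z : Rest k s → G) :
    φ (relR z) = relR (φ ∘ z) := by
  rw [relR, relR, map_mul, map_rel, map_list_prod, List.map_ofFn]
  rfl

lemma map_relT {G H : Type} [Group G] [Group H] (φ : G →* H) (y : Idx g k s → G) :
    φ (relT y) = relT (φ ∘ y) := by
  rw [relT, relT, map_mul, map_rel, map_relR]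
  rfl

/-- The slice with given values away from it. -/
def sliceT {G : Type} [Group G] (A : Fin g → G) (z : Rest k s → G) : Idx g k s → G :=
  Sum.elim (slice A) z

lemma map_sliceT {G H : Type} [Group G] [Group H] (φ : G →* H) (A : Fin g → G)
    (z : Rest k s → G) : φ ∘ sliceT A z = sliceT (φ ∘ A) (φ ∘ z) := by
  rw [sliceT, Sum.comp_elim, map_slice]
  rfl

lemma relT_sliceT {G : Type} [Group G] (A : Fin g → G) (z : Rest k s → G) :
    relT (sliceT A z) = relR z := by
  rw [relT, sliceT, Sum.elim_comp_inl, Sum.elim_comp_inr, rel_slice, one_mul]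

/-- The product of the entries before `j`. -/
def pre {G : Type} [Group G] : {n : ℕ} → Fin n → (Fin n → G) → G
  | 0, j, _ => j.elim0
  | _ + 1, j, f => Fin.cases 1 (fun i => f 0 * pre i fun l => f l.succ) j

lemma pre_congr {G : Type} [Group G] : ∀ {n : ℕ} (j : Fin n) {f f' : Fin n → G},
    (∀ l, l ≠ j → f l = f' l) → pre j f = pre j f'
  | 0, j, _, _, _ => j.elim0
  | n + 1, j, f, f', h => by
    induction j using Fin.cases with
    | zero => simp [pre]
    | succ i =>
      simp only [pre, Fin.cases_succ]
      rw [h 0 (Fin.succ_ne_zero i).symm,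
        pre_congr i (f := fun l => f l.succ) (f' := fun l => f' l.succ)
          fun l hl => h _ fun e => hl (Fin.succ_injective _ e)]

lemma map_pre {G H : Type} [Group G] [Group H] (φ : G →* H) : ∀ {n : ℕ} (j : Fin n)
    (f : Fin n → G), φ (pre j f) = pre j (φ ∘ f)
  | 0, j, _ => j.elim0
  | n + 1, j, f => by
    induction j using Fin.cases with
    | zero => simp [pre]
    | succ i =>
      simp only [pre, Fin.cases_succ, map_mul, map_pre φ i]
      rfl

lemma prod_congr_pre {G : Type} [Group G] : ∀ {n : ℕ} (j : Fin n) {f f' : Fin n → G} (U U' : G),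
    (∀ l, l ≠ j → f l = f' l) → U * (pre j f * f j) = U' * (pre j f' * f' j) →
    U * (List.ofFn f).prod = U' * (List.ofFn f').prod
  | 0, j, _, _, _, _, _, _ => j.elim0
  | n + 1, j, f, f', U, U', h, he => by
    rw [List.ofFn_succ, List.ofFn_succ, List.prod_cons, List.prod_cons, ← mul_assoc, ← mul_assoc]
    induction j using Fin.cases with
    | zero =>
      simp only [pre, Fin.cases_zero, one_mul] at he
      rw [he]
      exact congrArg (fun L => U' * f' 0 * List.prod L)
        (congrArg List.ofFn (funext fun l => h _ (Fin.succ_ne_zero l)))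
    | succ i =>
      simp only [pre, Fin.cases_succ] at he
      refine prod_congr_pre i (U * f 0) (U' * f' 0)
        (fun l hl => h _ fun e => hl (Fin.succ_injective _ e)) ?_
      simpa [mul_assoc] using he

/-- The product of the commutators of the slice handles after the first. -/
def tail {G : Type} [Group G] (y : Gens (g + 1) → G) : G :=
  (List.ofFn fun i : Fin g => ⁅y (i.succ, false), y (i.succ, true)⁆).prod

lemma rel_eq_tail {G : Type} [Group G] (y : Gens (g + 1) → G) :
    rel y = ⁅y (0, false), y (0, true)⁆ * tail y := by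
  rw [rel, List.ofFn_succ, List.prod_cons]
  rfl

lemma map_tail {G H : Type} [Group G] [Group H] (φ : G →* H) (y : Gens (g + 1) → G) :
    φ (tail y) = tail (φ ∘ y) := by
  rw [tail, map_list_prod, List.map_ofFn, tail]
  congr 2
  funext i
  simp [map_commutatorElement]

lemma tail_congr {G : Type} [Group G] {y y' : Gens (g + 1) → G}
    (h : ∀ i c, i ≠ 0 → y (i, c) = y' (i, c)) : tail y = tail y' := by
  unfold tail
  congr 2
  funext i
  rw [h _ _ (Fin.succ_ne_zero i), h _ _ (Fin.succ_ne_zero i)]

lemma tail_slice {G : Type} [Group G] (A : Fin (g + 1) → G) : tail (slice A) = 1 :=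
  List.prod_eq_one fun x hx => by
    obtain ⟨i, rfl⟩ := List.mem_ofFn.1 hx
    simp [commutatorElement_def]

/-- A natural bijection of tuples preserving the relation and the classes of the meridians. -/
structure Move (g k s : ℕ) where
  /-- The map. -/
  f : (G : Type) → [Group G] → (Idx g k s → G) → Idx g k s → G
  /-- The inverse map. -/
  b : (G : Type) → [Group G] → (Idx g k s → G) → Idx g k s → G
  natural : ∀ {G H : Type} [Group G] [Group H] (φ : G →* H) (y : Idx g k s → G),
    φ ∘ f G y = f H (φ ∘ y)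
  natural_b : ∀ {G H : Type} [Group G] [Group H] (φ : G →* H) (y : Idx g k s → G),
    φ ∘ b G y = b H (φ ∘ y)
  left : ∀ {G : Type} [Group G] (y : Idx g k s → G), b G (f G y) = y
  right : ∀ {G : Type} [Group G] (y : Idx g k s → G), f G (b G y) = y
  rel_f : ∀ {G : Type} [Group G] (y : Idx g k s → G), relT (f G y) = relT y
  cls_f : ∀ {G : Type} [Group G] (y : Idx g k s → G) (j : Fin s),
    ∃ Q : G, f G y (Sum.inr (Sum.inr j)) = Q * y (Sum.inr (Sum.inr j)) * Q⁻¹

namespace Move

lemma rel_b (e : Move g k s) {G : Type} [Group G] (y : Idx g k s → G) :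
    relT (e.b G y) = relT y := by
  conv_rhs => rw [← e.right y]
  rw [e.rel_f]

lemma cls_b (e : Move g k s) {G : Type} [Group G] (y : Idx g k s → G) (j : Fin s) :
    ∃ Q : G, e.b G y (Sum.inr (Sum.inr j)) = Q * y (Sum.inr (Sum.inr j)) * Q⁻¹ := by
  obtain ⟨Q, hQ⟩ := e.cls_f (e.b G y) j
  rw [e.right] at hQ
  exact ⟨Q⁻¹, by rw [hQ]; group⟩

/-- First `e`, then `e'`. -/
def trans (e e' : Move g k s) : Move g k s where
  f G _ y := e'.f G (e.f G y)
  b G _ y := e.b G (e'.b G y)
  natural φ y := by rw [e'.natural, e.natural]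
  natural_b φ y := by rw [e.natural_b, e'.natural_b]
  left y := by rw [e'.left, e.left]
  right y := by rw [e.right, e'.right]
  rel_f y := by rw [e'.rel_f, e.rel_f]
  cls_f {G} _ y j := by
    obtain ⟨Q, hQ⟩ := e.cls_f y j
    obtain ⟨Q', hQ'⟩ := e'.cls_f (e.f G y) j
    exact ⟨Q' * Q, by rw [hQ', hQ]; group⟩

lemma f_mem (e : Move g k s) {G : Type} [Group G] (H : Subgroup G) (y : Idx g k s → G)
    (hy : ∀ x, y x ∈ H) (x : Idx g k s) : e.f G y x ∈ H := by
  have h := congrFun (e.natural H.subtype fun x => ⟨y x, hy x⟩) x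
  exact h ▸ ((e.f H fun x => ⟨y x, hy x⟩) x).2

lemma b_mem (e : Move g k s) {G : Type} [Group G] (H : Subgroup G) (y : Idx g k s → G)
    (hy : ∀ x, y x ∈ H) (x : Idx g k s) : e.b G y x ∈ H := by
  have h := congrFun (e.natural_b H.subtype fun x => ⟨y x, hy x⟩) x
  exact h ▸ ((e.b H fun x => ⟨y x, hy x⟩) x).2

end Move

/-- An automorphism of the slice handles, acting on all generators. -/
def Aut.lift (e : Aut g) : Move g k s where
  f G _ y := Sum.elim (e.f G (y ∘ Sum.inl)) (y ∘ Sum.inr)
  b G _ y := Sum.elim (e.b G (y ∘ Sum.inl)) (y ∘ Sum.inr)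
  natural φ y := by rw [Sum.comp_elim, e.natural]; rfl
  natural_b φ y := by rw [Sum.comp_elim, e.natural_b]; rfl
  left y := by rw [Sum.elim_comp_inl, Sum.elim_comp_inr, e.left]; exact Sum.elim_comp_inl_inr y
  right y := by rw [Sum.elim_comp_inl, Sum.elim_comp_inr, e.right]; exact Sum.elim_comp_inl_inr y
  rel_f y := by rw [relT, Sum.elim_comp_inl, Sum.elim_comp_inr, e.rel_f]; rfl
  cls_f y j := ⟨1, by simp⟩

end Vale.Agent.P002.Surface
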