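import Vale.Agent.P002.Surface.Exp

/-!
Matrices with multiplicatively independent eigenvalues.
-/

open Matrix Finset

namespace Vale.Agent.P002.Surface

variable {r : ℕ}

/-- The exponents differ by a constant. -/
def Par (α β : Fin r → ℕ) : Prop := ∀ i j, α i + β j = α j + β i

/-- The only multiplicative relation is the one given by the product. -/
def Indep (d : Fin r → ℂ) : Prop :=
  ∀ α β : Fin r → ℕ, ∏ i, d i ^ α i = ∏ i, d i ^ β i → Par α β

lemma Par.prod_eq {α β : Fin r → ℕ} (h : Par α β) {d : Fin r → ℂ} (hd : ∏ i, d i = 1) :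
    ∏ i, d i ^ α i = ∏ i, d i ^ β i := by
  rcases isEmpty_or_nonempty (Fin r) with _ | ⟨⟨j⟩⟩
  · simp
  · have key : ∀ γ : Fin r → ℕ, ∀ c : ℕ, ∏ i, d i ^ (γ i + c) = ∏ i, d i ^ γ i := fun γ c => by
      simp [pow_add, Finset.prod_mul_distrib, Finset.prod_pow, hd]
    calc ∏ i, d i ^ α i = ∏ i, d i ^ (α i + β j) := (key α _).symm
      _ = ∏ i, d i ^ (β i + α j) := Finset.prod_congr rfl fun i _ => by rw [h i j, add_comm]
      _ = ∏ i, d i ^ β i := key β _

lemma Indep.injective {d : Fin r → ℂ} (h : Indep d) : Function.Injective d := by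
  intro i j hij
  by_contra hne
  have := h (Pi.single i 1) (Pi.single j 1) (by
    rw [Finset.prod_eq_single i (fun k _ hk => by simp [hk]) (by simp),
      Finset.prod_eq_single j (fun k _ hk => by simp [hk]) (by simp)]
    simp [hij]) i j
  simp [hne, Ne.symm hne] at this

lemma exists_indep : ∃ c : Fin r → ℂ, ∑ i, c i = 0 ∧ Indep fun i => Complex.exp (c i) := by
  rcases Nat.eq_zero_or_pos r with h0 | hpos
  · subst h0
    exact ⟨0, by simp, fun α β _ i => i.elim0⟩
  obtain ⟨m, rfl⟩ : ∃ m, r = m + 1 := ⟨r - 1, by omega⟩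
  let p : Fin m → ℕ := fun i => Nat.nth Nat.Prime i
  have hp : ∀ i, (p i).Prime := fun i => Nat.nth_mem_of_infinite Nat.infinite_setOfPred_prime _
  have hinj : Function.Injective p := fun i j h =>
    Fin.ext (Nat.nth_injective Nat.infinite_setOfPred_prime h)
  let c : Fin (m + 1) → ℂ := Fin.snoc (fun i : Fin m => Complex.log (p i))
    (-∑ i : Fin m, Complex.log (p i))
  have hcc : ∀ i : Fin m, Complex.exp (c i.castSucc) = (p i : ℂ) := fun i => by
    simp only [c, Fin.snoc_castSucc]
    rw [Complex.exp_log (Nat.cast_ne_zero.2 (hp i).ne_zero)]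
  refine ⟨c, by simp [c, Fin.sum_univ_castSucc], fun α β h => ?_⟩
  set l := Fin.last m
  have hl : Complex.exp (c l) = (∏ i, (p i : ℂ))⁻¹ := by
    simp only [c, l, Fin.snoc_last, Complex.exp_neg, Complex.exp_sum]
    congr 1
    exact Finset.prod_congr rfl fun i _ => Complex.exp_log (Nat.cast_ne_zero.2 (hp i).ne_zero)
  have hP : (∏ i, (p i : ℂ)) ≠ 0 := Finset.prod_ne_zero_iff.2 fun i _ =>
    Nat.cast_ne_zero.2 (hp i).ne_zero
  simp only [Fin.prod_univ_castSucc, hcc] at h
  change (∏ i : Fin m, (p i : ℂ) ^ α i.castSucc) * Complex.exp (c l) ^ α l =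
    (∏ i : Fin m, (p i : ℂ) ^ β i.castSucc) * Complex.exp (c l) ^ β l at h
  rw [hl, inv_pow, inv_pow] at h
  field_simp at h
  rw [← Finset.prod_pow, ← Finset.prod_pow, ← Finset.prod_mul_distrib,
    ← Finset.prod_mul_distrib] at h
  simp only [← pow_add] at h
  have hN : ∏ i, p i ^ (α i.castSucc + β l) = ∏ i, p i ^ (β i.castSucc + α l) := by
    apply Nat.cast_injective (R := ℂ)
    push_cast
    rw [h]
    exact Finset.prod_congr rfl fun i _ => by rw [add_comm]
  have hk : ∀ k : Fin m, α k.castSucc + β l = β k.castSucc + α l := fun k => by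
    have := congrArg (fun n => n.factorization (p k)) hN
    rwa [Nat.factorization_prod_apply (fun i _ => pow_ne_zero _ (hp i).ne_zero),
      Nat.factorization_prod_apply (fun i _ => pow_ne_zero _ (hp i).ne_zero),
      Finset.sum_eq_single k (fun i _ hi => by
        simp [(hp i).factorization, Finsupp.single_eq_of_ne (fun e => hi (hinj e.symm))])
        (by simp),
      Finset.sum_eq_single k (fun i _ hi => by
        simp [(hp i).factorization, Finsupp.single_eq_of_ne (fun e => hi (hinj e.symm))])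
        (by simp),
      (hp k).factorization_pow, (hp k).factorization_pow, Finsupp.single_eq_same,
      Finsupp.single_eq_same] at this
  have all : ∀ i, α i + β l = β i + α l := Fin.lastCases (add_comm _ _) hk
  intro i j
  have := all i
  have := all j
  omega

/-- The symmetrised relation polynomial. -/
noncomputable def relSym (α β : Fin r → ℕ) : MvPolynomial (Fin r) ℂ :=
  ∏ σ : Equiv.Perm (Fin r),
    (∏ i, MvPolynomial.X (σ i) ^ α i - ∏ i, MvPolynomial.X (σ i) ^ β i)

lemma relSym_symmetric (α β : Fin r → ℕ) : (relSym α β).IsSymmetric := by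
  intro τ
  simp only [relSym, map_prod, map_sub, map_pow, MvPolynomial.rename_X]
  exact Equiv.prod_comp (Equiv.mulLeft τ) (fun σ : Equiv.Perm (Fin r) =>
    ∏ i, (MvPolynomial.X (σ i) : MvPolynomial (Fin r) ℂ) ^ α i - ∏ i, MvPolynomial.X (σ i) ^ β i)

lemma exists_esymm (α β : Fin r → ℕ) : ∃ P : MvPolynomial (Fin r) ℂ,
    MvPolynomial.aeval (fun i : Fin r => MvPolynomial.esymm (Fin r) ℂ (i + 1)) P = relSym α β := by
  obtain ⟨P, hP⟩ := MvPolynomial.esymmAlgHom_surjective (σ := Fin r) (R := ℂ) (n := r) (by simp)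
    ⟨relSym α β, relSym_symmetric α β⟩
  exact ⟨P, by rw [← MvPolynomial.esymmAlgHom_apply, hP]⟩

/-- A polynomial in the entries vanishing when the eigenvalues satisfy the relation `(α, β)`. -/
noncomputable def hInd (α β : Fin r → ℕ) (w : Mat r) : ℂ :=
  MvPolynomial.aeval (fun k : Fin r => (-1 : ℂ) ^ (k.1 + 1) * w.charpoly.coeff (r - (k.1 + 1)))
    (exists_esymm α β).choose

lemma hInd_eq (α β : Fin r → ℕ) (w : Mat r) (d : Fin r → ℂ)
    (hd : w.charpoly = ∏ i, (Polynomial.X - Polynomial.C (d i))) :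
    hInd α β w = ∏ σ : Equiv.Perm (Fin r), (∏ i, d (σ i) ^ α i - ∏ i, d (σ i) ^ β i) := by
  have h := congrArg (MvPolynomial.aeval d) (exists_esymm α β).choose_spec
  rw [MvPolynomial.comp_aeval_apply] at h
  simp only [relSym, map_prod, map_sub, map_pow, MvPolynomial.aeval_X] at h
  rw [← h, hInd]
  congr 2
  funext k
  rw [MvPolynomial.aeval_esymm_eq_multiset_esymm, hd, Finset.prod_eq_multiset_prod,
    show (Finset.univ.val.map fun i => Polynomial.X - Polynomial.C (d i)) =
      (Finset.univ.val.map d).map (fun t => Polynomial.X - Polynomial.C t) from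
      (Multiset.map_map (fun t => Polynomial.X - Polynomial.C t) d _).symm,
    Multiset.prod_X_sub_C_coeff _ (by simp)]
  have e : Multiset.card (Finset.univ.val.map d) - (r - (k.1 + 1)) = k.1 + 1 := by
    simp; omega
  rw [e, ← mul_assoc, ← mul_pow, neg_one_mul, neg_neg, one_pow, one_mul]

lemma hInd_diag_ne_zero {d : Fin r → ℂ} (h : Indep d) {α β : Fin r → ℕ} (hαβ : ¬ Par α β) :
    hInd α β (Matrix.diagonal d) ≠ 0 := by
  rw [hInd_eq α β _ d (Matrix.charpoly_diagonal d), Finset.prod_ne_zero_iff]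
  intro σ _ h0
  apply hαβ
  have := h (α ∘ σ.symm) (β ∘ σ.symm) (by
    rw [← Equiv.prod_comp σ, ← Equiv.prod_comp σ (fun i => d i ^ (β ∘ σ.symm) i)]
    simpa [sub_eq_zero] using h0)
  intro i j
  simpa using this (σ i) (σ j)

lemma aeval_mem {A : Type*} {ι : Type} (S : Subalgebra ℂ (A → ℂ)) (P : MvPolynomial ι ℂ)
    (f : ι → A → ℂ) (hf : ∀ x, f x ∈ S) : (fun y => MvPolynomial.aeval (fun x => f x y) P) ∈ S := by
  induction P using MvPolynomial.induction_on with
  | C a =>
    simp only [MvPolynomial.aeval_C]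
    exact S.algebraMap_mem a
  | add p q hp hq =>
    simp only [map_add]
    exact S.add_mem hp hq
  | mul_X p x hp =>
    simp only [map_mul, MvPolynomial.aeval_X]
    exact S.mul_mem hp (hf x)

/-- The entries of a matrix variable. -/
def entry (x : Fin r × Fin r) : (Fin r → Fin r → ℂ) → ℂ := fun y => y x.1 x.2

lemma charpoly_coeff_mem (k : ℕ) :
    (fun y : Fin r → Fin r → ℂ => (Matrix.of y).charpoly.coeff k) ∈ C1 (Fin r → Fin r → ℂ) := by
  have e : (fun y : Fin r → Fin r → ℂ => (Matrix.of y).charpoly.coeff k) =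
      fun y => MvPolynomial.aeval (fun x => entry x y)
        ((Matrix.charpoly.univ ℂ (Fin r)).coeff k) := by
    funext y
    exact (Matrix.charpoly.univ_coeff_eval₂Hom (n := Fin r) (RingHom.id ℂ)
      (fun x => entry x y) k).symm
  rw [e]
  exact aeval_mem _ _ entry fun x => (show ContDiff ℂ 1 (entry x) from contDiff_apply_apply ℂ ℂ x.1 x.2)

lemma contDiff_hInd (α β : Fin r → ℕ) :
    (fun y : Fin r → Fin r → ℂ => hInd α β (Matrix.of y)) ∈ C1 (Fin r → Fin r → ℂ) := by
  simp only [hInd]
  generalize (exists_esymm α β).choose = P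
  let f : Fin r → (Fin r → Fin r → ℂ) → ℂ := fun k y =>
    (-1 : ℂ) ^ (k.1 + 1) * (Matrix.of y).charpoly.coeff (r - (k.1 + 1))
  exact aeval_mem _ P f fun k =>
    (C1 _).mul_mem ((C1 _).algebraMap_mem _) (charpoly_coeff_mem _)

lemma exists_diag {w : Mat r} (h : ∀ α β : Fin r → ℕ, ¬ Par α β → hInd α β w ≠ 0) :
    ∃ (V : (Mat r)ˣ) (d : Fin r → ℂ), w = V.1 * Matrix.diagonal d * (V⁻¹).1 ∧ Indep d := by
  have hs := IsAlgClosed.splits w.charpoly
  have hcard : w.charpoly.roots.toList.length = r := by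
    rw [Multiset.length_toList, ← hs.natDegree_eq_card_roots, Matrix.charpoly_natDegree_eq_dim,
      Fintype.card_fin]
  let d : Fin r → ℂ := fun i => w.charpoly.roots.toList.get (i.cast hcard.symm)
  have hd : w.charpoly = ∏ i, (Polynomial.X - Polynomial.C (d i)) := by
    conv_lhs => rw [hs.eq_prod_roots_of_monic w.charpoly_monic, ← Multiset.coe_toList w.charpoly.roots]
    rw [Multiset.map_coe, Multiset.prod_coe, ← Fin.prod_univ_fun_getElem]
    exact (Equiv.prod_comp (finCongr hcard.symm) _).symm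
  have hI : Indep d := by
    intro α β he
    by_contra hn
    refine h α β hn ?_
    rw [hInd_eq α β w d hd]
    exact Finset.prod_eq_zero (Finset.mem_univ 1) (by simp [he])
  have hev : ∀ i, ∃ v : Fin r → ℂ, v ≠ 0 ∧ w *ᵥ v = d i • v := by
    intro i
    have h0 : (Matrix.scalar (Fin r) (d i) - w).det = 0 := by
      rw [← Matrix.eval_charpoly, hd, Polynomial.eval_prod]
      exact Finset.prod_eq_zero (Finset.mem_univ i) (by simp)
    obtain ⟨v, hv, hv0⟩ := Matrix.exists_mulVec_eq_zero_iff.2 h0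
    refine ⟨v, hv, ?_⟩
    rw [Matrix.sub_mulVec, sub_eq_zero] at hv0
    rw [← hv0]
    simp
  choose v hv0 hv using hev
  have hli : LinearIndependent ℂ v :=
    Module.End.eigenvectors_linearIndependent' (Matrix.toLin' w) d hI.injective v fun i =>
      ⟨Module.End.mem_eigenspace_iff.2 (by simpa using hv i), hv0 i⟩
  let V : Mat r := Matrix.of fun i j => v j i
  have hV : IsUnit V := Matrix.linearIndependent_cols_iff_isUnit.1 hli
  refine ⟨hV.unit, d, ?_, hI⟩
  have e : w * V = V * Matrix.diagonal d := by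
    ext i j
    rw [Matrix.mul_diagonal]
    have := congrFun (hv j) i
    simp only [Matrix.mulVec, dotProduct, Pi.smul_apply, smul_eq_mul] at this
    rw [Matrix.mul_apply]
    simpa [V, mul_comm] using this
  calc w = w * (hV.unit.1 * (hV.unit⁻¹).1) := by rw [Units.mul_inv, mul_one]
    _ = _ := by rw [IsUnit.unit_spec, ← Matrix.mul_assoc, e]

/-- A polynomial vanishing at all powers of an independent diagonal vanishes on the torus. -/
lemma torus_vanish {d : Fin r → ℂ} (hI : Indep d) (p : MvPolynomial (Fin r) ℂ)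
    (h : ∀ n : ℕ, MvPolynomial.eval (fun i => d i ^ n) p = 0) {t : Fin r → ℂ}
    (ht : ∏ i, t i = 1) : MvPolynomial.eval t p = 0 := by
  let f : (Fin r →₀ ℕ) → ℂ := fun α => ∏ i, d i ^ α i
  let S := p.support.image f
  let c : ℂ → ℂ := fun μ => ∑ α ∈ p.support.filter (fun α => f α = μ), p.coeff α
  have hmap : ∀ α ∈ p.support, f α ∈ S := fun α hα => Finset.mem_image_of_mem _ hα
  have hlin : LinearIndependent ℂ (fun μ : ℂ => (powersHom ℂ μ : Multiplicative ℕ → ℂ)) :=
    (linearIndependent_monoidHom (Multiplicative ℕ) ℂ).comp (powersHom ℂ) (powersHom ℂ).injective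
  have hsum : ∀ n : ℕ, ∑ μ ∈ S, c μ * μ ^ n = 0 := by
    intro n
    rw [← h n, MvPolynomial.eval_eq',
      ← Finset.sum_fiberwise_of_maps_to hmap]
    refine Finset.sum_congr rfl fun μ _ => ?_
    rw [Finset.sum_mul]
    refine Finset.sum_congr rfl fun α hα => ?_
    rw [← (Finset.mem_filter.1 hα).2, ← Finset.prod_pow]
    simp only [pow_right_comm]
  have key : ∀ μ ∈ S, c μ = 0 := by
    refine linearIndependent_iff'.1 hlin S c ?_
    funext n
    rw [Finset.sum_apply]
    simpa only [Pi.smul_apply, smul_eq_mul, powersHom_apply, Pi.zero_apply] using hsum n.toAdd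
  rw [MvPolynomial.eval_eq', ← Finset.sum_fiberwise_of_maps_to hmap]
  refine Finset.sum_eq_zero fun μ hμ => ?_
  obtain ⟨β, hβ, hβμ⟩ := Finset.mem_image.1 hμ
  calc ∑ α ∈ p.support.filter (fun α => f α = μ), p.coeff α * ∏ i, t i ^ α i
      = ∑ α ∈ p.support.filter (fun α => f α = μ), p.coeff α * ∏ i, t i ^ β i :=
        Finset.sum_congr rfl fun α hα => by
          rw [(hI α β ((Finset.mem_filter.1 hα).2.trans hβμ.symm)).prod_eq ht]
    _ = 0 := by rw [← Finset.sum_mul]; exact mul_eq_zero_of_left (key μ hμ) _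

end Vale.Agent.P002.Surface
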