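import Vale.Agent.P002.Surface.Poly

/-!
First order jets of curves in `SL_r(ℂ)`.
-/

open Matrix

namespace Vale.Agent.P002.Surface

variable {r : ℕ}

/-- Square matrices. -/
abbrev Mat (r : ℕ) := Matrix (Fin r) (Fin r) ℂ

/-- Conjugation `v ↦ M⁻¹ v M`. -/
noncomputable def ad (M : SL r) (v : Mat r) : Mat r := (M⁻¹).1 * v * M.1

lemma val_mul (M N : SL r) : (M * N).1 = M.1 * N.1 := rfl

lemma val_inv_mul (M : SL r) : (M⁻¹).1 * M.1 = 1 := by
  rw [← val_mul, inv_mul_cancel]; rfl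

lemma val_mul_inv (M : SL r) : M.1 * (M⁻¹).1 = 1 := by
  rw [← val_mul, mul_inv_cancel]; rfl

@[simp] lemma ad_one (v : Mat r) : ad 1 v = v := by
  rw [ad, inv_one]
  show (1 : Mat r) * v * 1 = v
  simp

lemma ad_mul (M N : SL r) (v : Mat r) : ad (M * N) v = ad N (ad M v) := by
  simp [ad, _root_.mul_inv_rev, Matrix.mul_assoc]

@[simp] lemma ad_add (M : SL r) (v w : Mat r) : ad M (v + w) = ad M v + ad M w := by
  simp [ad, mul_add, add_mul]

@[simp] lemma ad_neg (M : SL r) (v : Mat r) : ad M (-v) = -ad M v := by simp [ad]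

@[simp] lemma ad_sub (M : SL r) (v w : Mat r) : ad M (v - w) = ad M v - ad M w := by
  simp [ad, mul_sub, sub_mul]

@[simp] lemma ad_zero (M : SL r) : ad M (0 : Mat r) = 0 := by simp [ad]

@[simp] lemma ad_smul (M : SL r) (c : ℂ) (v : Mat r) : ad M (c • v) = c • ad M v := by simp [ad]

@[simp] lemma trace_ad (M : SL r) (v : Mat r) : (ad M v).trace = v.trace := by
  rw [ad, Matrix.trace_mul_cycle, val_mul_inv, one_mul]

lemma mul_ad (M : SL r) (v : Mat r) : M.1 * ad M v = v * M.1 := by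
  rw [ad, ← Matrix.mul_assoc, ← Matrix.mul_assoc, val_mul_inv, one_mul]

/-- A point of `SL_r` together with a left-translated tangent vector. -/
@[ext] structure Jet (r : ℕ) where
  /-- The point. -/
  M : SL r
  /-- The tangent vector at the identity. -/
  v : Mat r

namespace Jet

noncomputable instance : Group (Jet r) where
  mul p q := ⟨p.M * q.M, ad q.M p.v + q.v⟩
  one := ⟨1, 0⟩
  inv p := ⟨p.M⁻¹, -ad p.M⁻¹ p.v⟩
  mul_assoc p q s := by
    refine Jet.ext (mul_assoc _ _ _) ?_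
    show ad s.M (ad q.M p.v + q.v) + s.v = ad (q.M * s.M) p.v + (ad s.M q.v + s.v)
    rw [ad_add, ad_mul, add_assoc]
  one_mul p := Jet.ext (one_mul _) (by show ad p.M 0 + p.v = p.v; simp)
  mul_one p := Jet.ext (mul_one _) (by show ad 1 p.v + 0 = p.v; simp)
  inv_mul_cancel p := Jet.ext (inv_mul_cancel _) (by
    show ad p.M (-ad p.M⁻¹ p.v) + p.v = 0
    rw [ad_neg, ← ad_mul, inv_mul_cancel, ad_one, neg_add_cancel])

@[simp] lemma mul_M (p q : Jet r) : (p * q).M = p.M * q.M := rfl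
@[simp] lemma mul_v (p q : Jet r) : (p * q).v = ad q.M p.v + q.v := rfl
@[simp] lemma one_M : (1 : Jet r).M = 1 := rfl
@[simp] lemma one_v : (1 : Jet r).v = 0 := rfl
@[simp] lemma inv_M (p : Jet r) : p⁻¹.M = p.M⁻¹ := rfl
@[simp] lemma inv_v (p : Jet r) : p⁻¹.v = -ad p.M⁻¹ p.v := rfl

/-- The base point. -/
noncomputable def proj : Jet r →* SL r where
  toFun := Jet.M
  map_one' := rfl
  map_mul' _ _ := rfl

/-- The zero jet at a point. -/
noncomputable def zero : SL r →* Jet r where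
  toFun M := ⟨M, 0⟩
  map_one' := rfl
  map_mul' M N := Jet.ext rfl (by simp)

@[simp] lemma proj_apply (p : Jet r) : proj p = p.M := rfl
@[simp] lemma zero_apply (M : SL r) : zero M = ⟨M, 0⟩ := rfl

/-- Jets with traceless tangent vector. -/
noncomputable def traceless (r : ℕ) : Subgroup (Jet r) where
  carrier := {p | p.v.trace = 0}
  one_mem' := by simp
  mul_mem' := fun {p q} hp hq => by
    simp only [Set.mem_ofPred_eq] at *
    simp [hp, hq]
  inv_mem' := fun {p} hp => by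
    simp only [Set.mem_ofPred_eq] at *
    simp [hp]

lemma one_pow' (v : Mat r) (n : ℕ) : (⟨1, v⟩ : Jet r) ^ n = ⟨1, (n : ℂ) • v⟩ := by
  induction n with
  | zero => exact Jet.ext rfl (by simp)
  | succ n ih => rw [pow_succ, ih]; exact Jet.ext (by simp) (by simp [add_smul])

end Jet

/-- Functions of one variable differentiable at zero. -/
def Diff0 : Subalgebra ℂ (ℂ → ℂ) where
  carrier := {f | DifferentiableAt ℂ f 0}
  mul_mem' := fun hf hg => hf.mul hg
  add_mem' := fun hf hg => hf.add hg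
  algebraMap_mem' := fun c => differentiableAt_const c

/-- `f` has jet `p` at zero. -/
def HasJet (f : ℂ → SL r) (p : Jet r) : Prop :=
  f 0 = p.M ∧ ∀ i j, HasDerivAt (ent f i j) ((p.M.1 * p.v) i j) 0

lemma hasJet_const (M : SL r) : HasJet (fun _ => M) ⟨M, 0⟩ :=
  ⟨rfl, fun i j => by rw [mul_zero]; exact hasDerivAt_const 0 (M.1 i j)⟩

lemma HasJet.mul {f g : ℂ → SL r} {p q : Jet r} (hf : HasJet f p) (hg : HasJet g q) :
    HasJet (f * g) (p * q) := by
  refine ⟨by simp [hf.1, hg.1], fun i j => ?_⟩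
  have e : ent (f * g) i j = fun z => ∑ k, ent f i k z * ent g k j z := by
    funext z; exact Matrix.mul_apply
  have h : HasDerivAt (fun z => ∑ k, ent f i k z * ent g k j z)
      (∑ k, ((p.M.1 * p.v) i k * q.M.1 k j + p.M.1 i k * (q.M.1 * q.v) k j)) 0 := by
    refine HasDerivAt.fun_sum fun k _ => ?_
    have := (hf.2 i k).mul (hg.2 k j)
    simp only [ent, hf.1, hg.1] at this
    exact this
  rw [e]
  convert h using 1
  have e2 : (p * q).M.1 * (p * q).v = p.M.1 * p.v * q.M.1 + p.M.1 * (q.M.1 * q.v) := by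
    rw [Jet.mul_M, Jet.mul_v, val_mul, mul_add, Matrix.mul_assoc, Matrix.mul_assoc,
      Matrix.mul_assoc, mul_ad]
  rw [e2, Matrix.add_apply, Finset.sum_add_distrib, Matrix.mul_apply, Matrix.mul_apply]

lemma HasJet.unique {f : ℂ → SL r} {p q : Jet r} (hp : HasJet f p) (hq : HasJet f q) : p = q := by
  have hM : p.M = q.M := hp.1.symm.trans hq.1
  refine Jet.ext hM ?_
  have h : p.M.1 * p.v = p.M.1 * q.v := by
    ext i j
    rw [(hp.2 i j).unique (hq.2 i j), hM]
  calc p.v = (p.M⁻¹).1 * (p.M.1 * p.v) := by rw [← Matrix.mul_assoc, val_inv_mul, one_mul]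
    _ = (p.M⁻¹).1 * (p.M.1 * q.v) := by rw [h]
    _ = q.v := by rw [← Matrix.mul_assoc, val_inv_mul, one_mul]

lemma HasJet.inv {f : ℂ → SL r} {p : Jet r} (hf : HasJet f p) : HasJet f⁻¹ p⁻¹ := by
  have hd : f⁻¹ ∈ entGroup Diff0 :=
    (entGroup Diff0).inv_mem (fun i j => (hf.2 i j).differentiableAt)
  let d : Mat r := Matrix.of fun i j => deriv (ent f⁻¹ i j) 0
  have hq : HasJet f⁻¹ ⟨f⁻¹ 0, ((f⁻¹ 0)⁻¹).1 * d⟩ := by
    refine ⟨rfl, fun i j => ?_⟩
    show HasDerivAt _ (((f⁻¹ 0).1 * (((f⁻¹ 0)⁻¹).1 * d)) i j) 0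
    rw [← Matrix.mul_assoc, val_mul_inv, one_mul]
    exact (hd i j).hasDerivAt
  have h2 := hf.mul hq
  rw [mul_inv_cancel] at h2
  have h3 := h2.unique (hasJet_const (1 : SL r))
  have h4 : p⁻¹ = ⟨f⁻¹ 0, ((f⁻¹ 0)⁻¹).1 * d⟩ := inv_eq_of_mul_eq_one_right (h3.trans rfl)
  rw [h4]
  exact hq

/-- Pairs of a curve and its jet. -/
def jetGroup (r : ℕ) : Subgroup ((ℂ → SL r) × Jet r) where
  carrier := {q | HasJet q.1 q.2}
  one_mem' := hasJet_const 1
  mul_mem' := fun ha hb => ha.mul hb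
  inv_mem' := fun ha => ha.inv

/-- Continuously differentiable functions. -/
def C1 (E : Type*) [NormedAddCommGroup E] [NormedSpace ℂ E] : Subalgebra ℂ (E → ℂ) where
  carrier := {f | ContDiff ℂ 1 f}
  mul_mem' := fun {f g} hf hg => by
    simp only [Set.mem_ofPred_eq] at *
    exact hf.mul hg
  add_mem' := fun {f g} hf hg => by
    simp only [Set.mem_ofPred_eq] at *
    exact hf.add hg
  algebraMap_mem' := fun c => show ContDiff ℂ 1 (fun _ : E => c) from contDiff_const

variable {E : Type*} [NormedAddCommGroup E] [NormedSpace ℂ E]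

/-- The left-translated derivative at zero. -/
noncomputable def fd (Φ : E → SL r) : E →ₗ[ℂ] Mat r where
  toFun e := ((Φ 0)⁻¹).1 * Matrix.of fun i j => fderiv ℂ (ent Φ i j) 0 e
  map_add' a b := by rw [← mul_add]; congr 1; ext i j; simp
  map_smul' c a := by rw [RingHom.id_apply, ← Matrix.mul_smul]; congr 1; ext i j; simp

lemma hasJet_line {Φ : E → SL r} (hΦ : Φ ∈ entGroup (C1 E)) (e : E) :
    HasJet (fun z : ℂ => Φ (z • e)) ⟨Φ 0, fd Φ e⟩ := by
  refine ⟨by simp, fun i j => ?_⟩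
  show HasDerivAt _ (((Φ 0).1 * (((Φ 0)⁻¹).1 * Matrix.of fun i j => fderiv ℂ (ent Φ i j) 0 e)) i j) 0
  rw [← Matrix.mul_assoc, val_mul_inv, one_mul]
  have h1 : HasDerivAt (fun z : ℂ => z • e) e 0 := by
    simpa using (hasDerivAt_id (0 : ℂ)).smul_const e
  have h2 : HasFDerivAt (ent Φ i j) (fderiv ℂ (ent Φ i j) 0) ((0 : ℂ) • e) := by
    rw [zero_smul]
    exact ((show ContDiff ℂ 1 (ent Φ i j) from hΦ i j).differentiable (by norm_num) 0).hasFDerivAt
  exact h2.comp_hasDerivAt 0 h1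

lemma fd_eq_of_hasJet {Φ : E → SL r} (hΦ : Φ ∈ entGroup (C1 E)) {e : E} {p : Jet r}
    (h : HasJet (fun z : ℂ => Φ (z • e)) p) : fd Φ e = p.v :=
  congrArg Jet.v ((hasJet_line hΦ e).unique h)

lemma contDiff_det :
    ContDiff ℂ 1 (fun y : Fin r → Fin r → ℂ => (Matrix.of y).det) := by
  exact det_mem (C1 (Fin r → Fin r → ℂ)) (fun i j y => y i j) fun i j =>
    show ContDiff ℂ 1 _ from contDiff_apply_apply ℂ ℂ i j

/-- The derivative of the determinant. -/
lemma fderiv_det (M : Mat r) (δ : Mat r) :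
    fderiv ℂ (fun y : Fin r → Fin r → ℂ => (Matrix.of y).det) (fun i j => M i j)
      (fun i j => (M * δ) i j) = M.det * δ.trace := by
  set D := fun y : Fin r → Fin r → ℂ => (Matrix.of y).det
  have hl : HasDerivAt (fun z : ℂ => (fun i j => M i j) + z • fun i j => (M * δ) i j)
      (fun i j => (M * δ) i j) 0 := by
    simpa using ((hasDerivAt_id (0 : ℂ)).smul_const (fun i j => (M * δ) i j)).const_add
      (fun i j => M i j)
  have h1 : HasDerivAt (D ∘ fun z : ℂ => (fun i j => M i j) + z • fun i j => (M * δ) i j)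
      (fderiv ℂ D (fun i j => M i j) (fun i j => (M * δ) i j)) 0 :=
    (contDiff_det.differentiable (by norm_num) _).hasFDerivAt.comp_hasDerivAt_of_eq 0 hl
      (by simp)
  have e : (D ∘ fun z : ℂ => (fun i j => M i j) + z • fun i j => (M * δ) i j) = fun z =>
      M.det * (1 + δ.trace * z +
        (det (1 + (Polynomial.X : Polynomial ℂ) • δ.map Polynomial.C)).divX.divX.eval z * z ^ 2) := by
    funext z
    rw [← Matrix.det_one_add_smul, ← Matrix.det_mul, mul_add, mul_one, Matrix.mul_smul]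
    rfl
  rw [e] at h1
  refine h1.unique ?_
  set P := (det (1 + (Polynomial.X : Polynomial ℂ) • δ.map Polynomial.C)).divX.divX
  have h2 : HasDerivAt (fun z : ℂ => 1 + δ.trace * z + P.eval z * z ^ 2) δ.trace 0 := by
    have h3 := (((hasDerivAt_id (0 : ℂ)).const_mul δ.trace).const_add 1).fun_add
      ((P.hasDerivAt 0).fun_mul ((hasDerivAt_id (0 : ℂ)).fun_pow 2))
    simp only [id_eq] at h3
    exact h3.congr_deriv (by simp)
  exact h2.const_mul M.det

end Vale.Agent.P002.Surface
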