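import Vale.Agent.P002.Surface.Tangent

/-!
A neighbourhood in the representation variety with prescribed classes covered by a largest family,
made of irreducible representations.
-/

open Matrix Finset Filter Topology
open scoped commutatorElement

namespace Vale.Agent.P002.Surface

variable {g k s r : ℕ}

/-- Square matrices as a normed space. -/
abbrev Coord (r : ℕ) := Fin r → Fin r → ℂ

/-- The coordinate space. -/
abbrev Amb (g k s r : ℕ) := Idx g k s → Coord r

/-- The coordinates of a tuple. -/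
def crd (y : Idx g k s → SL r) : Amb g k s r := fun x i j => (y x).1 i j

lemma relT_mem {G : Type} [Group G] (H : Subgroup G) (y : Idx g k s → G) (hy : ∀ x, y x ∈ H) :
    relT y ∈ H := by
  have h := map_relT H.subtype fun x => (⟨y x, hy x⟩ : H)
  exact h ▸ (relT fun x => (⟨y x, hy x⟩ : H)).2

lemma MatMem.adjugate {E : Type} {S : Subalgebra ℂ (E → ℂ)} {W : E → Mat r} (hW : MatMem S W) :
    MatMem S fun e => (W e).adjugate := by
  intro i j
  have e : (fun e => (W e).adjugate i j) = fun e => (Matrix.of fun p q =>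
      (if p = j then algebraMap ℂ (E → ℂ) ((Pi.single i 1 : Fin r → ℂ) q)
        else fun x => W x p q) e).det := by
    funext x
    rw [Matrix.adjugate_apply]
    congr 1
    ext p q
    rw [Matrix.updateRow_apply]
    by_cases hp : p = j <;> simp [hp, Pi.algebraMap_apply]
  rw [e]
  refine det_mem S _ fun p q => ?_
  by_cases hp : p = j
  · simp only [hp, if_true]; exact S.algebraMap_mem _
  · simp only [hp, if_false]; exact hW p q

lemma MatMem.listProd {E : Type} {S : Subalgebra ℂ (E → ℂ)} : ∀ L : List (E → Mat r),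
    (∀ W ∈ L, MatMem S W) → MatMem S fun e => (L.map fun W => W e).prod
  | [], _ => by simpa using MatMem.const S (1 : Mat r)
  | W :: L, h => by
    simpa using (h W (by simp)).mul (MatMem.listProd L fun V hV => h V (by simp [hV]))

/-- The product of commutators, as a polynomial map. -/
noncomputable def relG {m : ℕ} (y : Gens m → Coord r) : Mat r :=
  ((List.ofFn fun i (y : Gens m → Coord r) => Matrix.of (y (i, false)) * Matrix.of (y (i, true)) *
    (Matrix.of (y (i, false))).adjugate * (Matrix.of (y (i, true))).adjugate).map fun W => W y).prod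

lemma matMem_relG {m : ℕ} {E : Type} [NormedAddCommGroup E] [NormedSpace ℂ E]
    (φ : E → Gens m → Coord r) (hφ : ∀ x a b, (fun e => φ e x a b) ∈ C1 E) :
    MatMem (C1 E) fun e => relG (φ e) := by
  let F : List (E → Mat r) := List.ofFn fun i (e : E) => Matrix.of (φ e (i, false)) *
    Matrix.of (φ e (i, true)) * (Matrix.of (φ e (i, false))).adjugate *
      (Matrix.of (φ e (i, true))).adjugate
  have e1 : (fun e => relG (φ e)) = fun e => (F.map fun W => W e).prod := by
    funext e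
    rw [relG, List.map_ofFn, List.map_ofFn]
    rfl
  rw [e1]
  refine MatMem.listProd _ fun W hW => ?_
  obtain ⟨i, rfl⟩ := List.mem_ofFn.1 hW
  have h : ∀ b, MatMem (C1 E) fun e => Matrix.of (φ e (i, b)) := fun b p q => hφ (i, b) p q
  exact (((h false).mul (h true)).mul (h false).adjugate).mul (h true).adjugate

lemma relG_val {m : ℕ} (y : Gens m → SL r) : relG (fun x a b => (y x).1 a b) = (rel y).1 := by
  let ψ : SL r →* Mat r := ⟨⟨fun M => M.1, rfl⟩, fun _ _ => rfl⟩
  show _ = ψ (rel y)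
  rw [rel, relG, map_list_prod, List.map_ofFn, List.map_ofFn]
  congr 2

/-- The relation, as a polynomial map on coordinates. -/
noncomputable def relM (y : Amb g k s r) : Mat r :=
  relG (y ∘ Sum.inl) * (relG ((y ∘ Sum.inr) ∘ Sum.inl) *
    ((List.ofFn fun j (y : Amb g k s r) => Matrix.of (y (Sum.inr (Sum.inr j)))).map
      fun W => W y).prod)

lemma matMem_relM : MatMem (C1 (Amb g k s r)) (relM (g := g) (k := k) (s := s) (r := r)) := by
  have hc : ∀ x a b, (fun y : Amb g k s r => y x a b) ∈ C1 (Amb g k s r) := fun x a b =>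
    show ContDiff ℂ 1 _ from (contDiff_apply_apply ℂ ℂ a b).comp (contDiff_apply ℂ _ x)
  refine (matMem_relG _ fun x a b => hc _ a b).mul
    ((matMem_relG _ fun x a b => hc _ a b).mul (MatMem.listProd _ fun W hW => ?_))
  obtain ⟨j, rfl⟩ := List.mem_ofFn.1 hW
  exact fun a b => hc _ a b

lemma relM_crd (y : Idx g k s → SL r) : relM (crd y) = (relT y).1 := by
  let ψ : SL r →* Mat r := ⟨⟨fun M => M.1, rfl⟩, fun _ _ => rfl⟩
  show _ = ψ (relT y)
  rw [relT, relR, map_mul, map_mul, map_list_prod, List.map_ofFn, relM, List.map_ofFn]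
  show relG (fun x a b => ((y ∘ Sum.inl) x).1 a b) *
    (relG (fun x a b => (((y ∘ Sum.inr) ∘ Sum.inl) x).1 a b) * _) = _
  rw [relG_val, relG_val]
  rfl

/-- Matrices as coordinates. -/
def flat (M : Mat r) : Coord r := fun a b => M a b

/-- The product of coordinates. -/
noncomputable def mulL : Coord r →ₗ[ℂ] Coord r →ₗ[ℂ] Coord r :=
  LinearMap.mk₂ ℂ (fun c x => flat (Matrix.of c * Matrix.of x))
    (fun c c' x => by
      funext a b
      simp [flat, Matrix.mul_apply, Finset.sum_add_distrib, add_mul])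
    (fun t c x => by
      funext a b
      simp [flat, Matrix.mul_apply, Finset.mul_sum, mul_assoc])
    (fun c x x' => by
      funext a b
      simp [flat, Matrix.mul_apply, Finset.sum_add_distrib, mul_add])
    (fun t c x => by
      funext a b
      simp [flat, Matrix.mul_apply, Finset.mul_sum, mul_left_comm])

/-- The equation `c x = x C₀` for `x`. -/
noncomputable def intertw (C₀ : Mat r) (c : Coord r) : Coord r →ₗ[ℂ] Coord r :=
  mulL c - mulL.flip (flat C₀)

lemma intertw_apply (C₀ : Mat r) (c x : Coord r) :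
    Matrix.of (intertw C₀ c x) = Matrix.of c * Matrix.of x - Matrix.of x * C₀ := rfl

lemma norm_mulL_le (d x : Coord r) : ‖mulL d x‖ ≤ r * ‖d‖ * ‖x‖ := by
  refine (pi_norm_le_iff_of_nonneg (by positivity)).2 fun a =>
    (pi_norm_le_iff_of_nonneg (by positivity)).2 fun b => ?_
  show ‖∑ l, d a l * x l b‖ ≤ _
  refine (norm_sum_le _ _).trans ?_
  calc ∑ l : Fin r, ‖d a l * x l b‖ ≤ ∑ _l : Fin r, ‖d‖ * ‖x‖ := by
        refine Finset.sum_le_sum fun l _ => ?_
        rw [norm_mul]
        exact mul_le_mul ((norm_le_pi_norm (d a) l).trans (norm_le_pi_norm d a))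
          ((norm_le_pi_norm (x l) b).trans (norm_le_pi_norm x l)) (norm_nonneg _) (norm_nonneg _)
    _ = _ := by simp [mul_assoc]

/-- A conjugate close to `C₀` is conjugate to it by an element close to one in a fixed slice. -/
theorem exists_small (C₀ : SL r) (W : Submodule ℂ (Coord r))
    (hW : IsCompl (LinearMap.ker (intertw C₀.1 (flat C₀.1))) W) {ε : ℝ} (hε : 0 < ε) :
    ∀ᶠ c in 𝓝 (flat C₀.1), ∀ Q : SL r, c = flat (Q * C₀ * Q⁻¹).1 →
      ∃ w ∈ W, ‖w‖ < ε ∧ Matrix.of c * (1 - Matrix.of w) = (1 - Matrix.of w) * C₀.1 := by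
  classical
  let Lf : Coord r → (W →ₗ[ℂ] Coord r) := fun c => (intertw C₀.1 c).comp W.subtype
  have hinj : LinearMap.ker (Lf (flat C₀.1)) = ⊥ := by
    rw [LinearMap.ker_eq_bot']
    intro w hw
    exact Subtype.ext ((Submodule.disjoint_def.1 hW.disjoint) w.1 hw w.2)
  obtain ⟨K, hK, hanti⟩ := LinearMap.exists_antilipschitzWith _ hinj
  have hK' : (0 : ℝ) < K := by exact_mod_cast hK
  have e1 : ∀ᶠ c in 𝓝 (flat C₀.1), (r : ℝ) * ‖c - flat C₀.1‖ < 1 / (2 * K) := by
    have hc : Continuous fun c => (r : ℝ) * ‖c - flat C₀.1‖ := by fun_prop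
    have := hc.tendsto (flat C₀.1)
    simp only [sub_self, norm_zero, mul_zero] at this
    exact this.eventually (eventually_lt_nhds (show (0 : ℝ) < 1 / (2 * K) by positivity))
  have e2 : ∀ᶠ c in 𝓝 (flat C₀.1),
      2 * (K : ℝ) * ‖intertw C₀.1 c (flat 1)‖ < ε := by
    have hcont : Continuous fun c => 2 * (K : ℝ) * ‖intertw C₀.1 c (flat 1)‖ :=
      continuous_const.mul
        ((mulL.flip (flat 1)).continuous_of_finiteDimensional.sub
          (continuous_const (y := mulL.flip (flat C₀.1) (flat 1)))).norm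
    have := hcont.tendsto (flat C₀.1)
    rw [show intertw C₀.1 (flat C₀.1) (flat 1) = 0 by
      show Matrix.of (intertw C₀.1 (flat C₀.1) (flat 1)) = Matrix.of (0 : Coord r)
      rw [intertw_apply, show (Matrix.of (flat (1 : Mat r)) : Mat r) = 1 from rfl, mul_one, one_mul]
      exact sub_self _, norm_zero, mul_zero] at this
    exact this.eventually (eventually_lt_nhds hε)
  filter_upwards [e1, e2] with c h1 h2 Q hQ
  have hbd : ∀ w : W, ‖w‖ ≤ 2 * K * ‖Lf c w‖ := fun w => by
    have a1 : ‖w‖ ≤ K * ‖Lf (flat C₀.1) w‖ := by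
      simpa [dist_eq_norm] using hanti.le_mul_dist w 0
    have a2 : ‖Lf (flat C₀.1) w‖ ≤ ‖Lf c w‖ + 1 / (2 * K) * ‖w‖ :=
      calc ‖Lf (flat C₀.1) w‖ = ‖Lf c w - mulL (c - flat C₀.1) w.1‖ := by
            congr 1
            simp [Lf, intertw]
        _ ≤ ‖Lf c w‖ + ‖mulL (c - flat C₀.1) w.1‖ := norm_sub_le _ _
        _ ≤ _ := by
          gcongr
          exact (norm_mulL_le _ _).trans (mul_le_mul_of_nonneg_right h1.le (norm_nonneg _))
    have a3 := a1.trans (mul_le_mul_of_nonneg_left a2 hK'.le)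
    rw [mul_add, show (K : ℝ) * (1 / (2 * K) * ‖w‖) = ‖w‖ / 2 by field_simp] at a3
    linarith
  have hWinj : LinearMap.ker ((intertw C₀.1 c).comp W.subtype) = ⊥ :=
    LinearMap.ker_eq_bot'.2 fun w hw => norm_le_zero_iff.1 ((hbd w).trans
      (le_of_eq (by rw [show Lf c w = 0 from hw]; simp)))
  let eQ : Coord r ≃ₗ[ℂ] Coord r :=
    { toFun := fun x => flat (Q.1 * Matrix.of x)
      map_add' := fun x x' => by funext a b; simp [flat, Matrix.mul_apply, mul_add, Finset.sum_add_distrib]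
      map_smul' := fun t x => by
        funext a b; simp [flat, Matrix.mul_apply, Finset.mul_sum, mul_left_comm]
      invFun := fun x => flat ((Q⁻¹).1 * Matrix.of x)
      left_inv := fun x => by
        show flat ((Q⁻¹).1 * (Q.1 * Matrix.of x)) = x
        rw [← Matrix.mul_assoc, val_inv_mul, one_mul]; rfl
      right_inv := fun x => by
        show flat (Q.1 * ((Q⁻¹).1 * Matrix.of x)) = x
        rw [← Matrix.mul_assoc, val_mul_inv, one_mul]; rfl }
  have hcomm : ∀ x : Coord r, intertw C₀.1 c (eQ x) = eQ (intertw C₀.1 (flat C₀.1) x) := fun x => by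
    subst hQ
    show flat ((Q.1 * C₀.1 * (Q⁻¹).1) * (Q.1 * Matrix.of x) - Q.1 * Matrix.of x * C₀.1) =
      flat (Q.1 * (C₀.1 * Matrix.of x - Matrix.of x * C₀.1))
    rw [Matrix.mul_assoc (Q.1 * C₀.1), ← Matrix.mul_assoc (Q⁻¹).1, val_inv_mul, one_mul, mul_sub,
      Matrix.mul_assoc, Matrix.mul_assoc]
  have hrk : Module.finrank ℂ (LinearMap.ker (intertw C₀.1 c)) =
      Module.finrank ℂ (LinearMap.ker (intertw C₀.1 (flat C₀.1))) := by
    rw [← LinearEquiv.finrank_map_eq eQ (LinearMap.ker (intertw C₀.1 (flat C₀.1)))]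
    refine congrArg (fun X : Submodule ℂ (Coord r) => Module.finrank ℂ X) ?_
    ext y
    obtain ⟨x, rfl⟩ := eQ.surjective y
    rw [LinearMap.mem_ker, hcomm, LinearEquiv.map_eq_zero_iff, Submodule.mem_map_equiv,
      LinearEquiv.symm_apply_apply, LinearMap.mem_ker]
  have hrange : W.map (intertw C₀.1 c) = LinearMap.range (intertw C₀.1 c) := by
    refine Submodule.eq_of_le_of_finrank_le LinearMap.map_le_range ?_
    have a1 := LinearMap.finrank_range_add_finrank_ker (intertw C₀.1 c)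
    have a2 := Submodule.finrank_add_eq_of_isCompl hW
    have a3 : Module.finrank ℂ (W.map (intertw C₀.1 c)) = Module.finrank ℂ W := by
      rw [← LinearMap.finrank_range_of_inj (LinearMap.ker_eq_bot.1 hWinj), LinearMap.range_comp,
        Submodule.range_subtype]
    omega
  have h1mem : intertw C₀.1 c (flat 1) ∈ W.map (intertw C₀.1 c) :=
    hrange ▸ LinearMap.mem_range_self _ _
  obtain ⟨w, hwW, hw⟩ := h1mem
  refine ⟨w, hwW, ?_, ?_⟩
  · calc ‖w‖ ≤ 2 * K * ‖Lf c ⟨w, hwW⟩‖ := hbd ⟨w, hwW⟩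
      _ < ε := by
        rw [show Lf c ⟨w, hwW⟩ = intertw C₀.1 c (flat 1) from hw]
        exact h2
  · have hw' := congrArg Matrix.of hw
    rw [intertw_apply, intertw_apply, show (Matrix.of (flat (1 : Mat r)) : Mat r) = 1 from rfl,
      mul_one, one_mul] at hw'
    rw [mul_sub, sub_mul, mul_one, one_mul, sub_eq_sub_iff_sub_eq_sub]
    exact hw'.symm

theorem irreducible_nhd (hr : 2 ≤ r) (K : Fin g → SL r) (i1 i2 : Fin g)
    (h1 : K i1 = el ⟨0, by omega⟩ (nxt ⟨0, by omega⟩) 1) (h2 : K i2 = cyc r)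
    (z₀ : Rest k s → SL r) :
    ∃ U : Set (Amb g k s r), IsOpen U ∧ crd (sliceT K z₀) ∈ U ∧
      ∀ y : Idx g k s → SL r, crd y ∈ U → ∀ W : Submodule ℂ (Fin r → ℂ),
        (∀ w : FreeGroup (Idx g k s), ∀ v ∈ W, (FreeGroup.lift y w).1 *ᵥ v ∈ W) → W = ⊥ ∨ W = ⊤ := by
  classical
  obtain ⟨b, hb, hspan, hli⟩ := exists_linearIndependent ℂ
    (Set.range fun w : FreeGroup (Fin g) => (fun a b => (FreeGroup.lift K w).1 a b :
      Fin r → Fin r → ℂ))
  rw [span_words hr K i1 i2 h1 h2] at hspan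
  have hfin : Finite b := hli.finite
  choose w hw using fun t : b => hb t.2
  let emb : FreeGroup (Fin g) →* FreeGroup (Idx g k s) := FreeGroup.map fun i => Sum.inl (i, false)
  let O : Set (Idx g k s → SL r) := {y | LinearIndependent ℂ fun t : b =>
    (fun a c => (FreeGroup.lift y (emb (w t))).1 a c : Fin r → Fin r → ℂ)}
  have hO : IsOpen O := by
    refine (isOpen_setOfPred_linearIndependent (𝕜 := ℂ) (E := Fin r → Fin r → ℂ) (ι := b)).preimage (continuous_pi fun t =>
      continuous_pi fun a => continuous_pi fun c => ?_)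
    have hm := lift_mem (entGroup (PolyFun (Idx g k s) r)) (fun x (y : Idx g k s → SL r) => y x)
      proj_mem (emb (w t)) a c
    have hcont : ∀ F ∈ PolyFun (Idx g k s) r, Continuous F := by
      intro F hF
      induction hF using Algebra.adjoin_induction with
      | mem G hG =>
        obtain ⟨⟨x, p, q⟩, rfl⟩ := hG
        have hval : Continuous fun M : SL r => (M.1 : Fin r → Fin r → ℂ) := continuous_induced_dom
        exact ((continuous_apply q).comp ((continuous_apply p).comp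
          (hval.comp (continuous_apply x))))
      | algebraMap c => exact continuous_const
      | add G G' _ _ h h' => exact h.add h'
      | mul G G' _ _ h h' => exact h.mul h'
    exact hcont _ hm
  have hind : Topology.IsInducing (crd (g := g) (k := k) (s := s) (r := r)) :=
    Topology.IsInducing.piMap fun _ : Idx g k s =>
      (⟨rfl⟩ : Topology.IsInducing fun M : SL r => (M.1 : Fin r → Fin r → ℂ))
  obtain ⟨U, hU, hUO⟩ := hind.isOpen_iff.1 hO
  have hx : sliceT K z₀ ∈ O := by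
    have e : (fun t : b => (fun a c => (FreeGroup.lift (sliceT K z₀) (emb (w t))).1 a c :
        Fin r → Fin r → ℂ)) = fun t : b => (t : Fin r → Fin r → ℂ) := by
      funext t
      have : (FreeGroup.lift (sliceT K z₀)).comp emb = FreeGroup.lift K :=
        FreeGroup.ext_hom _ _ fun i => by simp [emb, sliceT]
      rw [← hw t]
      funext a c
      exact congrArg (fun M : SL r => M.1 a c) (DFunLike.congr_fun this (w t))
    show LinearIndependent ℂ _
    rw [e]
    exact hli
  refine ⟨U, hU, by rw [← hUO] at hx; exact hx, fun y hy W hW => ?_⟩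
  have hyO : y ∈ O := by rw [← hUO]; exact hy
  have hcard : Module.finrank ℂ (Fin r → Fin r → ℂ) = Nat.card b := by
    have : Fintype b := Fintype.ofFinite _
    let B := Module.Basis.mk hli (by rw [Subtype.range_coe, hspan])
    rw [Module.finrank_eq_card_basis B, Nat.card_eq_fintype_card]
  let Stab : Submodule ℂ (Fin r → Fin r → ℂ) :=
    { carrier := {M | ∀ v ∈ W, Matrix.of M *ᵥ v ∈ W}
      add_mem' := fun {A B} hA hB v hv => by
        show Matrix.of (A + B) *ᵥ v ∈ W
        rw [show (Matrix.of (A + B) : Mat r) = Matrix.of A + Matrix.of B from rfl, Matrix.add_mulVec]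
        exact W.add_mem (hA v hv) (hB v hv)
      zero_mem' := fun v _ => by
        show Matrix.of 0 *ᵥ v ∈ W
        rw [show (Matrix.of 0 : Mat r) = 0 from rfl, Matrix.zero_mulVec]
        exact W.zero_mem
      smul_mem' := fun c A hA v hv => by
        show Matrix.of (c • A) *ᵥ v ∈ W
        rw [show (Matrix.of (c • A) : Mat r) = c • Matrix.of A from rfl, Matrix.smul_mulVec]
        exact W.smul_mem c (hA v hv) }
  have hStab : Stab = ⊤ := by
    have : Fintype b := Fintype.ofFinite _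
    refine eq_top_iff.2 ?_
    rw [← (show LinearIndependent ℂ _ from hyO).span_eq_top_of_card_eq_finrank'
      (by rw [hcard, Nat.card_eq_fintype_card])]
    rw [Submodule.span_le]
    rintro _ ⟨t, rfl⟩
    exact hW (emb (w t))
  rcases eq_or_ne W ⊥ with h | h
  · exact Or.inl h
  · right
    obtain ⟨v, hv, hv0⟩ := Submodule.exists_mem_ne_zero_of_ne_bot h
    obtain ⟨a, ha⟩ := Function.ne_iff.1 hv0
    rw [eq_top_iff]
    intro u _
    have := (hStab ▸ Submodule.mem_top (x := (fun p q => if q = a then u p / v a else 0 :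
      Fin r → Fin r → ℂ)) : _ ∈ Stab) v hv
    convert this
    funext p
    simp [Matrix.mulVec, dotProduct, ite_mul]
    field_simp [show v a ≠ 0 from ha]

lemma eq_zero_of_near {n : ℕ} {f : (Fin n → ℂ) → ℂ} (hf : Differentiable ℂ f) {p : Fin n → ℂ}
    (h : f =ᶠ[𝓝 p] 0) : f = 0 := by
  funext q
  let φ : ℂ → Fin n → ℂ := fun t => p + t • (q - p)
  have hφ : Differentiable ℂ φ := (differentiable_const p).add (differentiable_id.smul_const _)
  have hev : (f ∘ φ) =ᶠ[𝓝 0] 0 := by
    have h1 : Tendsto φ (𝓝 0) (𝓝 p) := by simpa [φ] using hφ.continuous.tendsto 0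
    exact h1.eventually h
  have h2 := congrFun ((Complex.analyticOnNhd_univ_iff_differentiable.2
    (hf.comp hφ)).eq_of_eventuallyEq analyticOnNhd_const hev) 1
  have e : φ 1 = q := by simp [φ]
  rw [← e]
  exact h2

lemma eq_zero_or_of_mul {n : ℕ} {f h : (Fin n → ℂ) → ℂ} (hf : Differentiable ℂ f)
    (hh : Differentiable ℂ h) {p : Fin n → ℂ} (hfh : f * h =ᶠ[𝓝 p] 0) : f = 0 ∨ h = 0 := by
  have h0 := eq_zero_of_near (hf.mul hh) hfh
  by_cases h1 : ∃ q, f q ≠ 0
  · obtain ⟨q, hq⟩ := h1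
    refine Or.inr (eq_zero_of_near hh (p := q) ?_)
    filter_upwards [(hf.continuous.continuousAt (x := q)).eventually_ne hq] with x hx
    exact (mul_eq_zero.1 (congrFun h0 x)).resolve_left hx
  · push Not at h1
    exact Or.inl (funext h1)

theorem vanishing_nhd (hg : 2 ≤ g) (hr : 2 ≤ r) {O : Subring ℂ} {C : Fin s → SL r}
    {K : Fin (g + 1) → SL r} (hK0 : K 0 = 1)
    (hK1 : K ⟨1, by omega⟩ = el ⟨0, by omega⟩ (nxt ⟨0, by omega⟩) 1)
    (hK2 : K ⟨2, by omega⟩ = cyc r) {z₀ : Rest k s → SL r} (hz : IsInt O z₀)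
    (hz1 : relR z₀ = 1) (hzC : ∀ j, ∃ Q : SL r, z₀ (Sum.inr j) = Q * C j * Q⁻¹)
    {Ui : Set (Amb (g + 1) k s r)} (hUi : IsOpen Ui) (hxi : crd (sliceT K z₀) ∈ Ui) :
    ∃ U : Set (Amb (g + 1) k s r), IsOpen U ∧ crd (sliceT K z₀) ∈ U ∧ U ⊆ Ui ∧
      (∀ y : Idx (g + 1) k s → SL r, relT y = 1 → InClass C y → crd y ∈ U →
        ∀ F, Van O C F → F y = 0) ∧
      ∀ F ∈ PolyFun (Idx (g + 1) k s) r, ∀ G ∈ PolyFun (Idx (g + 1) k s) r,
        (∀ y, relT y = 1 → InClass C y → crd y ∈ U → F y * G y = 0) →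
        (∀ y, relT y = 1 → InClass C y → crd y ∈ U → F y = 0) ∨
          ∀ y, relT y = 1 → InClass C y → crd y ∈ U → G y = 0 := by
  classical
  obtain ⟨c, hc0, hcI⟩ := exists_indep (r := r)
  set D₀ : SL r := expm (Matrix.diagonal c)
  have hD : ∀ α β : Fin r → ℕ, ¬ Par α β → hInd α β D₀.1 ≠ 0 := fun α β h => by
    rw [expm_diagonal c hc0]
    exact hInd_diag_ne_zero hcI h
  let eL := Fintype.equivFin (Option (Fin s ⊕ Fin k × Bool))
  let N := fun l => seeds D₀ z₀ (eL.symm l)
  obtain ⟨P, hP⟩ := exists_max (g := g) (K := K) (N := N) hz hz1 hzC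
  set y0 := sliceT K z₀
  set x0 := crd y0
  let C₀ : Fin s → SL r := fun j => z₀ (Sum.inr j)
  choose W hW using fun j => Submodule.exists_isCompl
    (LinearMap.ker (intertw (C₀ j).1 (flat (C₀ j).1)))
  let E := Amb (g + 1) k s r × ((j : Fin s) → W j)
  let mulK : (Idx (g + 1) k s → Mat r) →ₗ[ℂ] Amb (g + 1) k s r :=
    { toFun := fun δ x a b => ((y0 x).1 * δ x) a b
      map_add' := fun δ δ' => by funext x a b; simp [mul_add]
      map_smul' := fun c a => by funext x a b; simp }
  let T' : Submodule ℂ (Amb (g + 1) k s r) := (LinearMap.range P.tan).map mulK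
  obtain ⟨π₀, hπ₀⟩ := LinearMap.exists_extend (LinearMap.id : T' →ₗ[ℂ] T')
  let π : Amb (g + 1) k s r →L[ℂ] T' := LinearMap.toContinuousLinearMap π₀
  have hπ : ∀ t : T', π t.1 = t := fun t => LinearMap.congr_fun hπ₀ t
  let R : E → Coord r := fun p => flat (relM p.1)
  let D : E → Idx (g + 1) k s → ℂ := fun p x => (Matrix.of (p.1 x)).det
  let S : E → Fin s → Coord r := fun p j => flat
    (Matrix.of (p.1 (cIdx j)) * (1 - Matrix.of (p.2 j).1) - (1 - Matrix.of (p.2 j).1) * (C₀ j).1)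
  let π' : E →L[ℂ] T' := π.comp (ContinuousLinearMap.fst ℂ _ _)
  let H : E → Coord r × (Idx (g + 1) k s → ℂ) × (Fin s → Coord r) × T' := fun p =>
    (R p, D p, S p, π' p)
  have hR : ContDiff ℂ 1 R := contDiff_pi.2 fun a => contDiff_pi.2 fun b =>
    (show ContDiff ℂ 1 _ from matMem_relM a b).comp contDiff_fst
  have hDc : ContDiff ℂ 1 D := contDiff_pi.2 fun x => contDiff_det.comp
    ((contDiff_apply ℂ _ x).comp contDiff_fst)
  have hS : ContDiff ℂ 1 S := by
    let Lw : (j : Fin s) → E →L[ℂ] Coord r := fun j => (W j).subtypeL.comp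
      ((ContinuousLinearMap.proj (R := ℂ) (φ := fun j => W j) j).comp (ContinuousLinearMap.snd ℂ _ _))
    refine contDiff_pi.2 fun j => contDiff_pi.2 fun a => contDiff_pi.2 fun b => ?_
    have hc1 : MatMem (C1 E) fun p => Matrix.of (p.1 (cIdx j)) := fun a b =>
      show ContDiff ℂ 1 _ from (contDiff_apply_apply ℂ ℂ a b).comp
        ((contDiff_apply ℂ (Coord r) (cIdx j)).comp contDiff_fst)
    have hw1 : MatMem (C1 E) fun p => 1 - Matrix.of (p.2 j).1 := fun a b =>
      show ContDiff ℂ 1 fun p : E => (1 : Mat r) a b - (p.2 j).1 a b from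
        contDiff_const.sub ((contDiff_apply_apply ℂ ℂ a b).comp (Lw j).contDiff)
    exact ((C1 E).sub_mem (hc1.mul hw1 a b) (hw1.mul (MatMem.const _ (C₀ j).1) a b) :)
  have hH : ContDiff ℂ 1 H := hR.prodMk (hDc.prodMk (hS.prodMk π'.contDiff))
  set p0 : E := (x0, 0)
  set dH := fderiv ℂ H p0
  have hstrict : HasStrictFDerivAt H dH p0 := hH.contDiffAt.hasStrictFDerivAt one_ne_zero
  have hdH : ∀ v, dH v = (fderiv ℂ R p0 v, fderiv ℂ D p0 v, fderiv ℂ S p0 v, π' v) := fun v => by
    have h := ((hR.differentiable (by norm_num) p0).hasFDerivAt.prodMk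
      ((hDc.differentiable (by norm_num) p0).hasFDerivAt.prodMk
        ((hS.differentiable (by norm_num) p0).hasFDerivAt.prodMk π'.hasFDerivAt))).fderiv
    rw [show dH = _ from h]
    rfl
  have hker : LinearMap.ker dH.toLinearMap = ⊥ := by
    rw [LinearMap.ker_eq_bot']
    rintro ⟨v, ω⟩ hv
    rw [ContinuousLinearMap.coe_coe, hdH, Prod.mk_eq_zero, Prod.mk_eq_zero, Prod.mk_eq_zero] at hv
    obtain ⟨hvR, hvD, hvS, hvπ⟩ := hv
    let δ : Idx (g + 1) k s → Mat r := fun x => ((y0 x)⁻¹).1 * Matrix.of (v x)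
    have hδ : mulK δ = v := by
      funext x a b
      show ((y0 x).1 * (((y0 x)⁻¹).1 * Matrix.of (v x))) a b = _
      rw [← Matrix.mul_assoc, val_mul_inv, one_mul]
      rfl
    have htr : ∀ x, (δ x).trace = 0 := fun x => by
      let L : E →L[ℂ] Coord r :=
        (ContinuousLinearMap.proj (R := ℂ) (φ := fun _ : Idx (g + 1) k s => Coord r) x).comp
          (ContinuousLinearMap.fst ℂ _ _)
      have h1 : HasFDerivAt (fun p : E => (Matrix.of (p.1 x)).det)
          ((fderiv ℂ (fun z : Coord r => (Matrix.of z).det) (x0 x)).comp L) p0 :=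
        ((contDiff_det.differentiable (by norm_num) _).hasFDerivAt).comp p0 L.hasFDerivAt
      have h2 : fderiv ℂ D p0 (v, ω) x =
          fderiv ℂ (fun p : E => (Matrix.of (p.1 x)).det) p0 (v, ω) := by
        have := (hasFDerivAt_pi'.1 (hDc.differentiable (by norm_num) p0).hasFDerivAt x).fderiv
        rw [this]
        rfl
      rw [hvD, h1.fderiv, Pi.zero_apply] at h2
      have e : v x = fun a b => ((y0 x).1 * δ x) a b := by
        conv_lhs => rw [← hδ]
        rfl
      change 0 = fderiv ℂ (fun z : Coord r => (Matrix.of z).det) (x0 x) (v x) at h2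
      rw [e] at h2
      rw [show x0 x = fun a b => (y0 x).1 a b from rfl, fderiv_det, (y0 x).2, one_mul] at h2
      exact h2.symm
    let cv : ℂ → Idx (g + 1) k s → SL r := fun z x => y0 x * expm (z • δ x)
    let yJ : Idx (g + 1) k s → (ℂ → SL r) × Jet r := fun x => (fun z => cv z x, ⟨y0 x, δ x⟩)
    have hyJ : ∀ x, yJ x ∈ jetGroup r := fun x => by
      have := (hasJet_const (y0 x)).mul (hasJet_expm (δ x))
      rw [tl_of_trace _ (htr x)] at this
      have e : (⟨y0 x, 0⟩ : Jet r) * ⟨1, δ x⟩ = ⟨y0 x, δ x⟩ :=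
        Jet.ext (mul_one _) (by simp)
      rw [e] at this
      exact this
    have hrel' : HasJet (fun z => relT (cv z)) (relT fun x => (⟨y0 x, δ x⟩ : Jet r)) := by
      have e1 : (relT yJ).1 = fun z => relT (cv z) := by
        funext z
        exact map_relT ((Pi.evalMonoidHom (fun _ : ℂ => SL r) z).comp
          (MonoidHom.fst (ℂ → SL r) (Jet r))) yJ
      have e2 : (relT yJ).2 = relT fun x => (⟨y0 x, δ x⟩ : Jet r) :=
        map_relT (MonoidHom.snd (ℂ → SL r) (Jet r)) yJ
      have h : HasJet (relT yJ).1 (relT yJ).2 := relT_mem _ _ hyJ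
      rwa [e1, e2] at h
    have hc : HasDerivAt (fun z : ℂ => ((crd (cv z), z • ω) : E)) (v, ω) 0 := by
      refine HasDerivAt.prodMk ?_ (by simpa using (hasDerivAt_id (0 : ℂ)).smul_const ω)
      refine hasDerivAt_pi.2 fun x => hasDerivAt_pi.2 fun a => hasDerivAt_pi.2 fun b => ?_
      have := (show HasJet (yJ x).1 (yJ x).2 from hyJ x).2 a b
      rw [← hδ]
      exact this
    have hc0 : ((crd (cv 0), (0 : ℂ) • ω) : E) = p0 := by
      refine Prod.ext ?_ (zero_smul _ _)
      funext x a b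
      simp [cv, crd, p0, x0, expm_zero]
    have hR' : HasDerivAt (R ∘ fun z => ((crd (cv z), z • ω) : E)) (0 : Coord r) 0 := by
      rw [← hvR]
      exact (hR.differentiable (by norm_num) p0).hasFDerivAt.comp_hasDerivAt_of_eq 0 hc hc0.symm
    have hrel : (relT fun x => (⟨y0 x, δ x⟩ : Jet r)).v = 0 := by
      set p := relT fun x => (⟨y0 x, δ x⟩ : Jet r)
      have hM : p.M = 1 := by
        rw [← Jet.proj_apply, map_relT]
        exact (relT_sliceT K z₀).trans hz1
      ext a b
      have h1 := hrel'.2 a b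
      have h2 := hasDerivAt_pi.1 (hasDerivAt_pi.1 hR' a) b
      have e : (fun z => (R ∘ fun z => ((crd (cv z), z • ω) : E)) z a b) =
          ent (fun z => relT (cv z)) a b := by
        funext z
        simp only [R, Function.comp_apply, relM_crd]
        rfl
      rw [e] at h2
      have h3 := h1.unique h2
      rw [hM, show ((1 : SL r).1 : Mat r) = 1 from rfl, one_mul] at h3
      exact h3
    have hS' : HasDerivAt (S ∘ fun z => ((crd (cv z), z • ω) : E)) (0 : Fin s → Coord r) 0 := by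
      rw [← hvS]
      exact (hS.differentiable (by norm_num) p0).hasFDerivAt.comp_hasDerivAt_of_eq 0 hc hc0.symm
    have hcls : ∀ j, (C₀ j).1 * δ (cIdx j) - (C₀ j).1 * Matrix.of (ω j).1 +
        Matrix.of (ω j).1 * (C₀ j).1 = 0 := fun j => by
      ext a b
      have h2 := hasDerivAt_pi.1 (hasDerivAt_pi.1 (hasDerivAt_pi.1 hS' j) a) b
      have e : (fun z => (S ∘ fun z => ((crd (cv z), z • ω) : E)) z j a b) = fun z : ℂ =>
          ∑ l, ((cv z (cIdx j)).1 a l * ((1 : Mat r) l b - z * (ω j).1 l b) -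
            ((1 : Mat r) a l - z * (ω j).1 a l) * (C₀ j).1 l b) := by
        funext z
        rw [Finset.sum_sub_distrib]
        rfl
      rw [e] at h2
      have hid : ∀ t : ℂ, HasDerivAt (fun z : ℂ => z * t) t 0 := fun t => by
        simpa using (hasDerivAt_id (0 : ℂ)).mul_const t
      have hcj : ∀ l, HasDerivAt (fun z => (cv z (cIdx j)).1 a l)
          (((C₀ j).1 * δ (cIdx j)) a l) 0 := fun l =>
        (show HasJet (yJ (cIdx j)).1 (yJ (cIdx j)).2 from hyJ _).2 a l
      have h1 := HasDerivAt.fun_sum (u := (Finset.univ : Finset (Fin r))) fun l _ =>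
        ((hcj l).fun_mul ((hid ((ω j).1 l b)).const_sub ((1 : Mat r) l b))).fun_sub
          (((hid ((ω j).1 a l)).const_sub ((1 : Mat r) a l)).mul_const ((C₀ j).1 l b))
      have h3 := h2.unique h1
      have e0 : ∀ l, (cv 0 (cIdx j)).1 a l = (C₀ j).1 a l := fun l => by
        simp [cv, expm_zero, y0, sliceT, C₀]
      simp only [zero_mul, sub_zero, e0, Finset.sum_add_distrib,
        mul_neg, Finset.sum_neg_distrib, neg_mul, sub_neg_eq_add, Pi.zero_apply] at h3
      rw [Matrix.add_apply, Matrix.sub_apply, Matrix.zero_apply]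
      refine Eq.trans ?_ h3.symm
      simp [Matrix.mul_apply, Matrix.of_apply, Matrix.one_apply]
      ring
    have hX : ∀ j, δ (cIdx j) =
        ad (C₀ j) (-Matrix.of (ω j).1) - (-Matrix.of (ω j).1) := fun j => by
      have h := congrArg (fun M => ((C₀ j)⁻¹).1 * M) (hcls j)
      simp only [mul_add, mul_sub, ← Matrix.mul_assoc, val_inv_mul, one_mul, mul_zero] at h
      rw [ad_neg, ad, ← sub_eq_zero, ← h]
      abel
    have hmem : v ∈ T' :=
      ⟨δ, tangent_mem hg hr hK0 hK1 hK2 hz1 P D₀ hD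
        (fun o => ⟨eL o, by simp [N]⟩) hP δ htr (fun j => ⟨_, hX j⟩) hrel, hδ⟩
    have h0 : v = 0 := by
      have := hπ ⟨v, hmem⟩
      rw [show π v = 0 from hvπ] at this
      exact (congrArg Subtype.val this).symm
    subst h0
    have hδ0 : ∀ x, δ x = 0 := fun x => by
      show _ * Matrix.of (0 : Coord r) = 0
      exact mul_zero _
    refine Prod.ext rfl (funext fun j => Subtype.ext ?_)
    refine (Submodule.disjoint_def.1 (hW j).disjoint) _ ?_ (ω j).2
    have h := hcls j
    rw [hδ0, mul_zero, zero_sub, neg_add_eq_zero] at h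
    rw [LinearMap.mem_ker]
    show flat ((C₀ j).1 * Matrix.of (ω j).1 - Matrix.of (ω j).1 * (C₀ j).1) = 0
    rw [h, sub_self]
    rfl
  obtain ⟨G₀, hG₀⟩ := LinearMap.exists_leftInverse_of_injective _ hker
  let G : Coord r × (Idx (g + 1) k s → ℂ) × (Fin s → Coord r) × T' →L[ℂ] E :=
    LinearMap.toContinuousLinearMap G₀
  have hGH : HasStrictFDerivAt (G ∘ H)
      ((ContinuousLinearEquiv.refl ℂ E) : E →L[ℂ] E) p0 := by
    have := G.hasStrictFDerivAt.comp p0 hstrict
    have e : G.comp dH = ((ContinuousLinearEquiv.refl ℂ E) : E →L[ℂ] E) :=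
      ContinuousLinearMap.ext fun v => LinearMap.congr_fun hG₀ v
    rwa [e] at this
  let Nb := (hGH.toOpenPartialHomeomorph (G ∘ H)).source
  have hNb : Nb ∈ 𝓝 p0 := (hGH.toOpenPartialHomeomorph (G ∘ H)).open_source.mem_nhds
    hGH.mem_toOpenPartialHomeomorph_source
  have hinj : Set.InjOn (G ∘ H) Nb := (hGH.toOpenPartialHomeomorph (G ∘ H)).injOn
  obtain ⟨U0, hU0, V0, hV0, hUV⟩ := mem_nhds_prod_iff.1 hNb
  obtain ⟨ε, hε, hball⟩ := Metric.mem_nhds_iff.1 hV0
  have hsmall : ∀ᶠ y in 𝓝 x0, ∀ j, ∀ Q : SL r, y (cIdx j) = flat (Q * C₀ j * Q⁻¹).1 →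
      ∃ w ∈ W j, ‖w‖ < ε ∧
        Matrix.of (y (cIdx j)) * (1 - Matrix.of w) = (1 - Matrix.of w) * (C₀ j).1 := by
    refine Filter.eventually_all.2 fun j => ?_
    exact ((continuous_apply (cIdx j)).tendsto x0).eventually
      (exists_small (C₀ j) (W j) (hW j) hε)
  let U1 : Set (Amb (g + 1) k s r) := U0 ∩ {y | ∀ j, ∀ Q : SL r,
    y (cIdx j) = flat (Q * C₀ j * Q⁻¹).1 → ∃ w ∈ W j, ‖w‖ < ε ∧
      Matrix.of (y (cIdx j)) * (1 - Matrix.of w) = (1 - Matrix.of w) * (C₀ j).1}
  have hU1 : U1 ∈ 𝓝 x0 := Filter.inter_mem hU0 hsmall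
  have hlift : ∀ y : Idx (g + 1) k s → SL r, InClass C y → crd y ∈ U1 →
      ∃ ω : (j : Fin s) → W j, ((crd y, ω) : E) ∈ Nb ∧ S (crd y, ω) = 0 := fun y hyC hy => by
    have hQ : ∀ j, ∃ Q : SL r, crd y (cIdx j) = flat (Q * C₀ j * Q⁻¹).1 := fun j => by
      obtain ⟨Q, hQ⟩ := hyC j
      obtain ⟨Q', hQ'⟩ := hzC j
      refine ⟨Q * Q'⁻¹, ?_⟩
      have e : (Q * Q'⁻¹) * C₀ j * (Q * Q'⁻¹)⁻¹ = Q * C j * Q⁻¹ := by
        simp only [C₀, hQ']
        group
      show flat (y (cIdx j)).1 = _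
      rw [e]
      exact congrArg (fun M : SL r => flat M.1) hQ
    choose w hwW hwε hw using fun j => hy.2 j _ (hQ j).choose_spec
    refine ⟨fun j => ⟨w j, hwW j⟩, hUV ⟨hy.1, hball ?_⟩, ?_⟩
    · rw [mem_ball_zero_iff, pi_norm_lt_iff hε]
      exact hwε
    · funext j
      show flat _ = 0
      rw [sub_eq_zero.2 (hw j)]
      rfl
  let Ψc : (Fin P.n → ℂ) → Amb (g + 1) k s r := fun q => crd (P.Ψ q)
  have hΨc : ContDiff ℂ 1 Ψc :=
    contDiff_pi.2 fun x => contDiff_pi.2 fun a => contDiff_pi.2 fun b => P.smooth x a b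
  have hΨ0 : Ψc 0 = x0 := by simp [Ψc, P.base, x0, y0]
  have hLstrict : HasStrictFDerivAt (fun q => π (Ψc q)) (π.comp (fderiv ℂ Ψc 0)) 0 :=
    π.hasStrictFDerivAt.comp 0 (hΨc.contDiffAt.hasStrictFDerivAt one_ne_zero)
  have hdΨ : ∀ v, fderiv ℂ Ψc 0 v = mulK (P.tan v) := fun v => by
    have hl : HasDerivAt (fun z : ℂ => z • v) v 0 := by
      simpa using (hasDerivAt_id (0 : ℂ)).smul_const v
    have h1 := (hΨc.differentiable (by norm_num) 0).hasFDerivAt.comp_hasDerivAt_of_eq 0 hl
      (by simp)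
    have h2 : HasDerivAt (Ψc ∘ fun z : ℂ => z • v) (mulK (P.tan v)) 0 := by
      refine hasDerivAt_pi.2 fun x => hasDerivAt_pi.2 fun a => hasDerivAt_pi.2 fun b => ?_
      have := (hasJet_line (P.smooth x) v).2 a b
      rw [show P.Ψ 0 x = y0 x from congrFun P.base x] at this
      exact this
    exact h1.unique h2
  have hsurj : (π.comp (fderiv ℂ Ψc 0)).range = ⊤ := by
    rw [eq_top_iff]
    rintro ⟨t, ⟨δ, ⟨v, rfl⟩, rfl⟩⟩ _
    exact ⟨v, by show π (fderiv ℂ Ψc 0 v) = _; rw [hdΨ]; exact hπ ⟨_, _⟩⟩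
  have hmap := hLstrict.map_nhds_eq_of_surj hsurj
  have hpre : Ψc ⁻¹' U1 ∈ 𝓝 (0 : Fin P.n → ℂ) :=
    hΨc.continuous.continuousAt.preimage_mem_nhds (by rw [hΨ0]; exact hU1)
  have himg : (fun q => π (Ψc q)) '' (Ψc ⁻¹' U1) ∈ 𝓝 (π x0) := by
    have := Filter.image_mem_map (m := fun q => π (Ψc q)) hpre
    rwa [hmap, hΨ0] at this
  obtain ⟨U, hUsub, hUopen, hUx⟩ := mem_nhds_iff.1
    (Filter.inter_mem hU1 (π.continuous.continuousAt.preimage_mem_nhds himg))
  have himage : ∀ y : Idx (g + 1) k s → SL r, relT y = 1 → InClass C y → crd y ∈ U ∩ Ui →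
      ∃ q, y = P.Ψ q := fun y hy hyC hyU => by
    obtain ⟨hyN, q, hqN, hq⟩ := hUsub hyU.1
    obtain ⟨ω, hω, hωS⟩ := hlift y hyC hyN
    obtain ⟨ω', hω', hωS'⟩ := hlift (P.Ψ q) (P.cls q) hqN
    have hHeq : H (Ψc q, ω') = H (crd y, ω) := by
      refine Prod.ext ?_ (Prod.ext ?_ (Prod.ext (hωS'.trans hωS.symm) hq))
      · funext a b
        simp only [H, R, Ψc, relM_crd, P.rel_eq q, hy]
      · funext x
        show (Matrix.of (crd (P.Ψ q) x)).det = (Matrix.of (crd y x)).det
        exact ((P.Ψ q x).2.trans (y x).2.symm : _)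
    have heq : Ψc q = crd y := congrArg Prod.fst (hinj hω' hω (congrArg G hHeq))
    have hy' : y = P.Ψ q := funext fun x => Subtype.ext (by
      ext a b
      exact (congrFun (congrFun (congrFun heq x) a) b).symm)
    exact ⟨q, hy'⟩
  refine ⟨U ∩ Ui, hUopen.inter hUi, ⟨hUx, hxi⟩, Set.inter_subset_right, fun y hy hyC hyU F hF => ?_, fun F hF G hG hFG => ?_⟩
  · obtain ⟨q, rfl⟩ := himage y hy hyC hyU
    exact P.van F hF q
  · have hdiff : ∀ F ∈ PolyFun (Idx (g + 1) k s) r, Differentiable ℂ fun q => F (P.Ψ q) :=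
      fun F hF => (show ContDiff ℂ 1 _ from polyFun_comp (C1 _) P.Ψ P.smooth hF).differentiable
        one_ne_zero
    have hev : (fun q => F (P.Ψ q)) * (fun q => G (P.Ψ q)) =ᶠ[𝓝 0] 0 := by
      filter_upwards [hΨc.continuous.continuousAt.preimage_mem_nhds
        (by rw [hΨ0]; exact (hUopen.inter hUi).mem_nhds ⟨hUx, hxi⟩)] with q hq
      exact hFG _ (P.rel_eq q) (P.cls q) hq
    rcases eq_zero_or_of_mul (hdiff F hF) (hdiff G hG) hev with h | h
    · refine Or.inl fun y hy hyC hyU => ?_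
      obtain ⟨q, rfl⟩ := himage y hy hyC hyU
      exact congrFun h q
    · refine Or.inr fun y hy hyC hyU => ?_
      obtain ⟨q, rfl⟩ := himage y hy hyC hyU
      exact congrFun h q

end Vale.Agent.P002.Surface
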