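import Vale.Agent.P002.Surface.Gen

/-!
Families of elements of `SL_r` whose entries lie in an algebra of functions.
-/

open Matrix

namespace Vale.Agent.P002.Surface

variable {r : ℕ} {E : Type*}

/-- The entries of a family of group elements. -/
def ent (f : E → SL r) (i j : Fin r) : E → ℂ := fun x => (f x).1 i j

lemma det_mem (S : Subalgebra ℂ (E → ℂ)) (F : Fin r → Fin r → E → ℂ) (hF : ∀ i j, F i j ∈ S) :
    (fun x => (Matrix.of fun i j => F i j x).det) ∈ S := by
  have e : (fun x => (Matrix.of fun i j => F i j x).det) =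
      ∑ σ : Equiv.Perm (Fin r), algebraMap ℂ (E → ℂ) ((Equiv.Perm.sign σ : ℤ) : ℂ) *
        ∏ i, F (σ i) i := by
    funext x
    rw [Matrix.det_apply', Finset.sum_apply]
    refine Finset.sum_congr rfl fun σ _ => ?_
    simp [Finset.prod_apply]
  rw [e]
  exact sum_mem fun σ _ => mul_mem (S.algebraMap_mem _) (prod_mem fun i _ => hF _ _)

/-- Families with entries in `S` form a group. -/
def entGroup (S : Subalgebra ℂ (E → ℂ)) : Subgroup (E → SL r) where
  carrier := {f | ∀ i j, ent f i j ∈ S}
  one_mem' := fun i j => by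
    have e : ent (1 : E → SL r) i j = algebraMap ℂ (E → ℂ) ((1 : Matrix (Fin r) (Fin r) ℂ) i j) := rfl
    rw [e]
    exact S.algebraMap_mem _
  mul_mem' := fun {f g} hf hg i j => by
    have e : ent (f * g) i j = ∑ k, ent f i k * ent g k j := by
      funext x
      rw [Finset.sum_apply]
      exact Matrix.mul_apply
    rw [e]
    exact sum_mem fun k _ => mul_mem (hf _ _) (hg _ _)
  inv_mem' := fun {f} hf i j => by
    have e : ent f⁻¹ i j = fun x => (Matrix.of fun p q =>
        (if p = j then algebraMap ℂ (E → ℂ) ((Pi.single i 1 : Fin r → ℂ) q)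
          else ent f p q) x).det := by
      funext x
      show ((f x)⁻¹).1 i j = _
      rw [Matrix.SpecialLinearGroup.coe_inv, Matrix.adjugate_apply]
      congr 1
      ext p q
      rw [Matrix.updateRow_apply]
      by_cases hp : p = j <;> simp [hp, ent, Pi.algebraMap_apply]
    rw [e]
    refine det_mem S _ fun p q => ?_
    by_cases hp : p = j
    · simp only [hp, if_true]; exact S.algebraMap_mem _
    · simp only [hp, if_false]; exact hf p q

lemma const_mem (S : Subalgebra ℂ (E → ℂ)) (M : SL r) : (fun _ => M) ∈ entGroup S :=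
  fun i j => S.algebraMap_mem (M.1 i j)

/-- Word values of families in a subgroup stay in it. -/
lemma lift_mem {X : Type*} (H : Subgroup (E → SL r)) (f : X → E → SL r) (hf : ∀ x, f x ∈ H)
    (w : FreeGroup X) : (fun e => FreeGroup.lift (fun x => f x e) w) ∈ H := by
  have h1 : FreeGroup.lift f w ∈ H :=
    FreeGroup.range_lift_le (by rintro _ ⟨x, rfl⟩; exact hf x) ⟨w, rfl⟩
  have h2 : FreeGroup.lift f w = fun e => FreeGroup.lift (fun x => f x e) w := by
    funext e
    exact DFunLike.congr_fun (FreeGroup.ext_hom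
      ((Pi.evalMonoidHom (fun _ : E => SL r) e).comp (FreeGroup.lift f))
      (FreeGroup.lift fun x => f x e) fun x => by simp) w
  exact h2 ▸ h1

/-- The polynomial functions on tuples of group elements. -/
def PolyFun (X : Type*) (r : ℕ) : Subalgebra ℂ ((X → SL r) → ℂ) :=
  Algebra.adjoin ℂ (Set.range fun p : X × Fin r × Fin r => fun y => (y p.1).1 p.2.1 p.2.2)

lemma proj_mem {X : Type*} (x : X) : (fun y : X → SL r => y x) ∈ entGroup (PolyFun X r) :=
  fun i j => Algebra.subset_adjoin ⟨(x, i, j), rfl⟩

/-- Polynomial functions pull back along families with entries in `S`. -/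
lemma polyFun_comp {X : Type*} (S : Subalgebra ℂ (E → ℂ)) (Φ : E → X → SL r)
    (hΦ : ∀ x, (fun e => Φ e x) ∈ entGroup S) {F : (X → SL r) → ℂ} (hF : F ∈ PolyFun X r) :
    (fun e => F (Φ e)) ∈ S := by
  induction hF using Algebra.adjoin_induction with
  | mem G hG =>
    obtain ⟨⟨x, i, j⟩, rfl⟩ := hG
    exact hΦ x i j
  | algebraMap c => exact S.algebraMap_mem c
  | add G G' _ _ h h' => exact S.add_mem h h'
  | mul G G' _ _ h h' => exact S.mul_mem h h'

/-- A polynomial function of one variable vanishing at the natural numbers is zero. -/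
lemma eq_zero_of_nat {f : ℂ → ℂ} (hf : f ∈ Algebra.adjoin ℂ {(id : ℂ → ℂ)})
    (h : ∀ n : ℕ, f n = 0) : f = 0 := by
  rw [Algebra.adjoin_singleton_eq_range_aeval] at hf
  obtain ⟨p, rfl⟩ := hf
  have he : ∀ t, (Polynomial.aeval (id : ℂ → ℂ) p) t = p.eval t := fun t => by
    induction p using Polynomial.induction_on' with
    | add a b _ _ => simp
    | monomial n a => simp
  have hp : p = 0 := by
    refine Polynomial.eq_zero_of_infinite_isRoot p (Set.Infinite.mono ?_
      (Set.infinite_range_of_injective (Nat.cast_injective (R := ℂ))))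
    rintro _ ⟨n, rfl⟩
    show p.eval (n : ℂ) = 0
    rw [← he]
    exact h n
  simp [hp]

lemma polyLine_id : (id : ℂ → ℂ) ∈ Algebra.adjoin ℂ {(id : ℂ → ℂ)} :=
  Algebra.subset_adjoin rfl

lemma el_mem (S : Subalgebra ℂ (E → ℂ)) (i j : Fin r) {f : E → ℂ} (hf : f ∈ S) :
    (fun x => el i j (f x)) ∈ entGroup S := by
  intro p q
  by_cases h : i ≠ j
  · have e : ent (fun x => el i j (f x)) p q = algebraMap ℂ (E → ℂ) ((1 : Matrix _ _ ℂ) p q) +
        algebraMap ℂ (E → ℂ) ((single i j (1 : ℂ)) p q) * f := by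
      funext x
      simp only [ent, Pi.add_apply, Pi.mul_apply, Pi.algebraMap_apply, el_val h]
      simp [Matrix.single]
    rw [e]
    exact add_mem (S.algebraMap_mem _) (mul_mem (S.algebraMap_mem _) hf)
  · have e : (fun x : E => el i j (f x)) = fun _ => 1 := by funext x; simp [el, h]
    rw [e]
    exact const_mem S 1 p q

/-- The elements with entries in a subring. -/
def intGroup (O : Subring ℂ) (r : ℕ) : Subgroup (SL r) :=
  (Matrix.SpecialLinearGroup.map (n := Fin r) O.subtype).range

lemma mem_intGroup {O : Subring ℂ} {M : SL r} : M ∈ intGroup O r ↔ ∀ i j, M.1 i j ∈ O := by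
  constructor
  · rintro ⟨z, rfl⟩ i j
    exact (z.1 i j).2
  · intro h
    have hdet : (Matrix.of fun i j => (⟨M.1 i j, h i j⟩ : O)).det = 1 := Subtype.ext (by
      have := RingHom.map_det O.subtype (Matrix.of fun i j => (⟨M.1 i j, h i j⟩ : O))
      rw [show (O.subtype.mapMatrix (Matrix.of fun i j => (⟨M.1 i j, h i j⟩ : O))) = M.1 from rfl,
        M.2] at this
      exact this)
    exact ⟨⟨_, hdet⟩, Subtype.ext rfl⟩

/-- Tuples with entries in a subring. -/
def IsInt {X : Type*} (O : Subring ℂ) (y : X → SL r) : Prop := ∀ x, y x ∈ intGroup O r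

end Vale.Agent.P002.Surface
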