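import Vale.Agent.P002.Surface.Cocycle

/-!
The twist directions span the tangent space transverse to the slice.
-/

open Matrix Finset

namespace Vale.Agent.P002.Surface

variable {r g : ℕ}

/-- The exponential path through the powers of `(el 1, c)`. -/
noncomputable def jetPath (z o : Fin r) (c : Mat r) (t : ℂ) : Jet r :=
  ⟨el z o t, t • c + (t * (t - 1) / 2) • (c * single z o 1 - single z o 1 * c) -
    (t * (t - 1) * (2 * t - 1) / 6) • (single z o 1 * c * single z o 1)⟩

lemma jetPath_nat {z o : Fin r} (h : z ≠ o) (c : Mat r) (n : ℕ) :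
    jetPath z o c n = (⟨el z o 1, c⟩ : Jet r) ^ n := by
  induction n with
  | zero => exact Jet.ext (by simp [jetPath, el_zero]) (by simp [jetPath])
  | succ n ih =>
    rw [pow_succ, ← ih]
    refine Jet.ext ?_ ?_
    · simp [jetPath, el_add h]
    · set e : Mat r := single z o 1
      have hee : e * e = 0 := Matrix.single_mul_single_of_ne (1 : ℂ) _ _ _ h.symm (1 : ℂ)
      have ha : ∀ X : Mat r, ad (el z o 1) X = X + (X * e - e * X) - e * X * e := by
        intro X
        rw [ad, el_inv h, el_val h, el_val h]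
        have : (single z o (-1 : ℂ) : Mat r) = -e := by
          ext a b; by_cases h' : z = a ∧ o = b <;> simp [e, Matrix.single, h']
        rw [this]
        noncomm_ring
      have h1 : (c * e - e * c) * e - e * (c * e - e * c) = (-2 : ℂ) • (e * c * e) := by
        simp only [sub_mul, mul_sub, Matrix.mul_assoc, hee, mul_zero]
        rw [← Matrix.mul_assoc e e c, hee, zero_mul, neg_smul, two_smul]
        abel
      have h2 : e * (c * e - e * c) * e = 0 := by
        simp only [sub_mul, mul_sub, Matrix.mul_assoc, hee, mul_zero]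
        rw [← Matrix.mul_assoc e e (c * e), hee, zero_mul, sub_zero]
      have h3 : e * c * e * e = 0 := by rw [Matrix.mul_assoc _ e e, hee, mul_zero]
      have h4 : e * (e * c * e) = 0 := by rw [Matrix.mul_assoc e c e, ← Matrix.mul_assoc e e, hee, zero_mul]
      simp only [jetPath, Jet.mul_v]
      rw [ad_sub, ad_add, ad_smul, ad_smul, ad_smul, ha, ha (c * e - e * c), ha (e * c * e), h1,
        h2, h3, h4]
      simp only [zero_mul, sub_zero, add_zero]
      push_cast
      module

lemma matMem_jetPath (z o : Fin r) (c : Mat r) :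
    (fun t => (jetPath z o c t).M) ∈ entGroup (Algebra.adjoin ℂ {(id : ℂ → ℂ)}) ∧
      MatMem (Algebra.adjoin ℂ {(id : ℂ → ℂ)}) fun t => (jetPath z o c t).v := by
  refine ⟨el_mem _ _ _ polyLine_id, fun i j => ?_⟩
  set S := Algebra.adjoin ℂ {(id : ℂ → ℂ)}
  have hid : (fun t : ℂ => t) ∈ S := polyLine_id
  let D : Mat r := c * single z o 1 - single z o 1 * c
  let F : Mat r := single z o 1 * c * single z o 1
  have e : (fun t => (jetPath z o c t).v i j) = (fun t => t) * algebraMap ℂ (ℂ → ℂ) (c i j) +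
      (fun t => t) * ((fun t => t) - 1) * algebraMap ℂ (ℂ → ℂ) (D i j / 2) -
      (fun t => t) * ((fun t => t) - 1) * ((2 : ℂ) • (fun t : ℂ => t) - 1) *
        algebraMap ℂ (ℂ → ℂ) (F i j / 6) := by
    funext t
    show (t • c + (t * (t - 1) / 2) • D - (t * (t - 1) * (2 * t - 1) / 6) • F) i j = _
    generalize D = D
    generalize F = F
    simp only [Matrix.add_apply, Matrix.sub_apply, Matrix.smul_apply, smul_eq_mul, Pi.add_apply,
      Pi.sub_apply, Pi.mul_apply, Pi.smul_apply, Pi.algebraMap_apply, Pi.one_apply,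
      Algebra.algebraMap_self, RingHom.id_apply]
    ring
  rw [e]
  exact S.sub_mem (S.add_mem (S.mul_mem hid (S.algebraMap_mem _))
    (S.mul_mem (S.mul_mem hid (S.sub_mem hid S.one_mem)) (S.algebraMap_mem _)))
    (S.mul_mem (S.mul_mem (S.mul_mem hid (S.sub_mem hid S.one_mem))
      (S.sub_mem (S.smul_mem hid _) S.one_mem)) (S.algebraMap_mem _))

/-- A matrix orthogonal to `SL_r` is zero. -/
lemma eq_zero_of_trace (v : Mat r) (h : ∀ M : SL r, (v * M.1).trace = 0) : v = 0 := by
  have h1 := h 1
  rw [show ((1 : SL r).1 : Mat r) = 1 from rfl, mul_one] at h1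
  have hoff : ∀ i j, i ≠ j → v i j = 0 := fun i j hij => by
    have h2 := h (el j i 1)
    rw [el_val (Ne.symm hij), mul_add, mul_one, Matrix.trace_add, h1, zero_add,
      Matrix.trace_mul_single] at h2
    simpa using h2
  ext i j
  by_cases hij : i = j
  · subst hij
    have hdd : ∀ k, k ≠ i → v k k = v i i := fun k hki => by
      have h2 := h (el k i 1 * el i k 1)
      rw [val_mul, el_val hki, el_val hki.symm] at h2
      simp [mul_add, add_mul, Matrix.trace_add, Matrix.trace_mul_single, h1,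
        hoff _ _ hki, hoff _ _ hki.symm] at h2
      have h3 := h (el i k 1 * el k i 1)
      rw [val_mul, el_val hki, el_val hki.symm] at h3
      simp [mul_add, add_mul, Matrix.trace_add, Matrix.trace_mul_single, h1,
        hoff _ _ hki, hoff _ _ hki.symm] at h3
      rw [h2, h3]
    have hr : (r : ℂ) ≠ 0 := Nat.cast_ne_zero.2 (by have := i.pos; omega)
    have : (r : ℂ) * v i i = 0 := by
      rw [← h1, Matrix.trace]
      rw [Finset.sum_congr rfl fun k _ => show Matrix.diag v k = v i i from
        if hk : k = i then by rw [hk]; rfl else hdd k hk]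
      simp
    exact (mul_eq_zero.1 this).resolve_left hr
  · exact hoff i j hij

theorem spanning (hg : 3 ≤ g) (hr : 2 ≤ r) (A : Fin g → SL r) (c : Fin g → Mat r)
    (hA0 : A ⟨0, by omega⟩ = 1) (hA1 : A ⟨1, by omega⟩ = el ⟨0, by omega⟩ (nxt ⟨0, by omega⟩) 1)
    (hA2 : A ⟨2, by omega⟩ = cyc r)
    (h : ∀ u ∈ others (⟨0, by omega⟩ : Fin g), ∀ k < r,
      let p := (⟨A ⟨0, by omega⟩, c ⟨0, by omega⟩⟩ : Jet r) *
        FreeGroup.lift (fun i => (⟨A i, c i⟩ : Jet r)) u
      (p.v * p.M.1 ^ k).trace = 0) :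
    ∃ X : Mat r, ∀ i, c i = cob X (A i) := by
  set i0 : Fin g := ⟨0, by omega⟩
  set i1 : Fin g := ⟨1, by omega⟩
  set i2 : Fin g := ⟨2, by omega⟩
  set z : Fin r := ⟨0, by omega⟩
  set o : Fin r := nxt z
  have hzo : z ≠ o := (nxt_ne hr z).symm
  set q : Fin g → Jet r := fun i => ⟨A i, c i⟩
  set G0 : Subgroup (Jet r) := (others i0).map (FreeGroup.lift q)
  have hq : ∀ j, j ≠ i0 → q j ∈ G0 := fun j hj =>
    ⟨FreeGroup.of j, Subgroup.subset_closure ⟨j, hj, rfl⟩, by simp⟩
  let Cond : Jet r → Prop := fun p =>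
    ∀ k < r, ((ad p.M (c i0) + p.v) * p.M.1 ^ k).trace = 0
  have hG0 : ∀ p ∈ G0, Cond p := by
    rintro _ ⟨u, hu, rfl⟩ k hk
    have := h u hu k hk
    simpa [q, hA0] using this
  set G : Submonoid (Jet r) :=
    Submonoid.closure ((G0 : Set (Jet r)) ∪ Set.range (jetPath z o (c i1)))
  have hGC : ∀ p ∈ G, ∀ a ∈ G0, Cond (a * p) := by
    intro p hp
    induction hp using Submonoid.closure_induction_left with
    | one => intro a ha; rw [mul_one]; exact hG0 a ha
    | mul_left x hx y _ ih =>
      intro a ha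
      rcases hx with hx | ⟨t, rfl⟩
      · rw [← mul_assoc]; exact ih _ (G0.mul_mem ha hx)
      · intro k hk
        set S := Algebra.adjoin ℂ {(id : ℂ → ℂ)}
        let w : ℂ → Jet r := fun s => a * (jetPath z o (c i1) s * y)
        have hwM : (fun s => (w s).M) ∈ entGroup S :=
          (entGroup S).mul_mem (const_mem S a.M)
            ((entGroup S).mul_mem (matMem_jetPath z o (c i1)).1 (const_mem S y.M))
        have hwv : MatMem S fun s => (w s).v :=
          (matMem_ad ((entGroup S).mul_mem (matMem_jetPath z o (c i1)).1 (const_mem S y.M))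
            (MatMem.const S a.v)).add ((matMem_ad (const_mem S y.M) (matMem_jetPath z o (c i1)).2).add
              (MatMem.const S y.v))
        have hS : (fun s => ((ad (w s).M (c i0) + (w s).v) * (w s).M.1 ^ k).trace) ∈ S :=
          (((matMem_ad hwM (MatMem.const S _)).add hwv).mul ((matMem_val hwM).pow k)).trace
        have h0 := eq_zero_of_nat hS fun n => by
          have hn : jetPath z o (c i1) n ∈ G0 := by
            rw [jetPath_nat hzo]
            have e : (⟨el z o 1, c i1⟩ : Jet r) = q i1 := Jet.ext hA1.symm rfl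
            rw [e]
            exact G0.pow_mem (hq i1 (by simp [i1, i0, Fin.ext_iff])) n
          have := ih _ (G0.mul_mem ha hn) k hk
          rw [mul_assoc] at this
          exact this
        exact congrFun h0 t
  have hC : ∀ p ∈ G, Cond p := fun p hp => by simpa using hGC p hp 1 G0.one_mem
  -- surjectivity
  have hsurj : ∀ M : SL r, ∃ p ∈ G, p.M = M := by
    let H : Subgroup (SL r) :=
      { carrier := {M | (∃ p ∈ G, p.M = M) ∧ ∃ p ∈ G, p.M = M⁻¹}
        one_mem' := ⟨⟨1, G.one_mem, rfl⟩, ⟨1, G.one_mem, by simp⟩⟩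
        mul_mem' := by
          rintro _ _ ⟨⟨p, hp, rfl⟩, p', hp', hpe⟩ ⟨⟨s, hs, rfl⟩, s', hs', hse⟩
          exact ⟨⟨p * s, G.mul_mem hp hs, rfl⟩, ⟨s' * p', G.mul_mem hs' hp', by simp [hse, hpe]⟩⟩
        inv_mem' := by
          rintro _ ⟨h1, h2⟩
          exact ⟨h2, by simpa using h1⟩ }
    have he : ∀ t, el z o t ∈ H := fun t =>
      ⟨⟨_, Submonoid.subset_closure (Or.inr ⟨t, rfl⟩), rfl⟩,
        ⟨_, Submonoid.subset_closure (Or.inr ⟨-t, rfl⟩), (el_inv hzo t).symm⟩⟩
    have hc : cyc r ∈ H := by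
      have h2 := hq i2 (by simp [i2, i0, Fin.ext_iff])
      exact ⟨⟨_, Submonoid.subset_closure (Or.inl h2), hA2⟩,
        ⟨_, Submonoid.subset_closure (Or.inl (G0.inv_mem h2)), by simp [q, hA2]⟩⟩
    have htop : H = ⊤ := adj_generate H (el_nxt_induction hr he fun p ih t => by
      rw [cyc_conj hr]
      exact H.mul_mem (H.mul_mem (H.inv_mem hc) (ih _)) hc)
    intro M
    exact (htop ▸ Subgroup.mem_top M : M ∈ H).1
  have hker : ∀ v : Mat r, (⟨1, v⟩ : Jet r) ∈ G → v = 0 := by
    intro v hv
    refine eq_zero_of_trace v fun M => ?_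
    obtain ⟨p, hp, rfl⟩ := hsurj M
    have h0 := hC p hp 1 (by omega)
    have h1 := hC (p * ⟨1, v⟩) (G.mul_mem hp hv) 1 (by omega)
    simp only [Jet.mul_M, Jet.mul_v, mul_one, ad_one, pow_one, add_mul, Matrix.trace_add] at h0 h1
    linear_combination h1 - h0
  have huniq : ∀ p ∈ G, ∀ p' ∈ G, p.M = p'.M → p = p' := by
    intro p hp p' hp' e
    obtain ⟨s, hs, hse⟩ := hsurj p.M⁻¹
    have h1 : p * s = 1 := by
      refine Jet.ext (by simp [hse]) (hker _ ?_)
      convert G.mul_mem hp hs
      exact (show (p * s).M = 1 by simp [hse]).symm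
    have h2 : p' * s = 1 := by
      refine Jet.ext (by simp [hse, e]) (hker _ ?_)
      convert G.mul_mem hp' hs
      exact (show (p' * s).M = 1 by simp [hse, e]).symm
    exact mul_right_cancel (h1.trans h2.symm)
  choose P hPG hPM using hsurj
  let σ : SL r → Mat r := fun M => (P M).v
  have hσ : ∀ p ∈ G, σ p.M = p.v := fun p hp => congrArg Jet.v (huniq _ (hPG _) p hp (hPM _))
  have hmul : ∀ M N, σ (M * N) = ad N (σ M) + σ N := fun M N => by
    have := hσ _ (G.mul_mem (hPG M) (hPG N))
    simpa [hPM, σ] using this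
  have hcond : ∀ M, ∀ k < r, ((c i0 + σ M) * M.1 ^ k).trace = 0 := fun M k hk => by
    have h1 := hC (P M) (hPG M) k hk
    rw [hPM, add_mul, Matrix.trace_add] at h1
    have h2 := trace_cob (c i0) M k
    rw [cob, sub_mul, Matrix.trace_sub] at h2
    rw [add_mul, Matrix.trace_add]
    linear_combination h1 - h2
  have hp : MatMem (Algebra.adjoin ℂ {(id : ℂ → ℂ)}) fun t => σ (el z o t) := by
    have e : (fun t => σ (el z o t)) = fun t => (jetPath z o (c i1) t).v := funext fun t =>
      hσ (jetPath z o (c i1) t) (Submonoid.subset_closure (Or.inr ⟨t, rfl⟩))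
    rw [e]
    exact (matMem_jetPath z o (c i1)).2
  obtain ⟨hc0, X, hX⟩ := classify hr σ hmul (c i0) hcond hp
  refine ⟨X, fun i => ?_⟩
  by_cases hi : i = i0
  · subst hi
    rw [hc0, hA0, cob, ad_one, sub_self]
  · rw [← hX]
    exact (hσ (q i) (Submonoid.subset_closure (Or.inl (hq i hi)))).symm

end Vale.Agent.P002.Surface
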