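import Vale.Agent.P002.Surface.Flow

/-!
The tangent space of a largest family is the tangent space of the representation variety.
-/

open Matrix Finset
open scoped commutatorElement

namespace Vale.Agent.P002.Surface

variable {g k s r L : ℕ}

lemma HasJet.trace_eq {f : ℂ → SL r} {p : Jet r} (h : HasJet f p) : p.v.trace = 0 := by
  have h1 : HasDerivAt (fun z => fun i j => (f z).1 i j) (fun i j => (p.M.1 * p.v) i j) 0 :=
    hasDerivAt_pi.2 fun i => hasDerivAt_pi.2 fun j => h.2 i j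
  have h2 := ((contDiff_det (r := r)).differentiable (by norm_num)
    (fun i j => p.M.1 i j)).hasFDerivAt.comp_hasDerivAt_of_eq 0 h1 (by simp [h.1])
  rw [fderiv_det, p.M.2, one_mul] at h2
  have h3 : ((fun y : Fin r → Fin r → ℂ => (Matrix.of y).det) ∘ fun z => fun i j => (f z).1 i j) =
      fun _ => 1 := funext fun z => (f z).2
  rw [h3] at h2
  exact h2.unique (hasDerivAt_const 0 1)

lemma Fam.trace_tan {O : Subring ℂ} {C : Fin s → SL r} {K : Fin (g + 1) → SL r}
    {z₀ : Rest k s → SL r} {N : Fin L → SL r} (P : Fam g r O C K z₀ N) (v : Fin P.n → ℂ)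
    (x : Idx (g + 1) k s) : (P.tan v x).trace = 0 :=
  (hasJet_line (P.smooth x) v).trace_eq

/-- The base point. -/
noncomputable def baseK (g : ℕ) (hr : 2 ≤ r) : Fin g → SL r := fun i =>
  if i.1 = 1 then el ⟨0, by omega⟩ (nxt ⟨0, by omega⟩) 1 else if i.1 = 2 then cyc r else 1

lemma trace_mul_ad (M : SL r) (X b : Mat r) :
    (ad M X * b).trace = (X * ad M⁻¹ b).trace := by
  rw [ad, ad, inv_inv, Matrix.mul_assoc, Matrix.mul_assoc, Matrix.trace_mul_comm]
  simp only [Matrix.mul_assoc]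

lemma pi_dual (φ : (Fin g → Mat r) →ₗ[ℂ] ℂ) : ∃ c : Fin g → Mat r,
    ∀ b, φ b = ∑ i, (c i * b i).trace := by
  refine ⟨fun i => Matrix.of fun a b => φ (Pi.single i (single b a 1)), fun b => ?_⟩
  have hb : b = ∑ i, ∑ x, ∑ y, b i x y • Pi.single i (single x y 1) := by
    funext j
    rw [Finset.sum_apply, Finset.sum_eq_single j
      (fun i _ hi => by simp [Finset.sum_apply, hi.symm]) (by simp)]
    conv_lhs => rw [Matrix.matrix_eq_sum_single (b j)]
    simp [Finset.sum_apply, Matrix.smul_single]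
  conv_lhs => rw [hb]
  simp only [map_sum, map_smul, smul_eq_mul, Matrix.trace, Matrix.diag, Matrix.mul_apply,
    Matrix.of_apply]
  refine Finset.sum_congr rfl fun i _ => ?_
  rw [Finset.sum_comm]
  exact Finset.sum_congr rfl fun a _ => Finset.sum_congr rfl fun c _ => mul_comm _ _

/-- The twist vector on the slice handles alone. -/
noncomputable def twistVec1 (i0 : Fin g) (e : Aut g) (K : Fin g → SL r) (sv : Fin r → ℂ) :
    Gens g → Mat r := fun x =>
  (e.b (Jet r) (twist i0 ⟨1, tl (flowGen (e.f (SL r) (slice K) (i0, false)).1 sv)⟩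
    (fun x => ⟨e.f (SL r) (slice K) x, 0⟩)) x).v

theorem tangent_first (hg : 3 ≤ g) (hr : 2 ≤ r) {K : Fin g → SL r}
    (hK0 : K ⟨0, by omega⟩ = 1)
    (hK1 : K ⟨1, by omega⟩ = el ⟨0, by omega⟩ (nxt ⟨0, by omega⟩) 1)
    (hK2 : K ⟨2, by omega⟩ = cyc r) (T : Submodule ℂ (Gens g → Mat r))
    (hslice : ∀ a : Fin g → Mat r, (∀ i, (a i).trace = 0) →
      (fun x : Gens g => if x.2 then 0 else a x.1) ∈ T)
    (htrT : ∀ t ∈ T, ∀ x, (t x).trace = 0)
    (hP : ∀ (e : Aut g) (u : FreeGroup (Fin g)), u ∈ others (⟨0, by omega⟩ : Fin g) →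
      Acts ⟨0, by omega⟩ e u → ∀ s, twistVec1 ⟨0, by omega⟩ e K s ∈ T)
    (δ : Gens g → Mat r) (htr : ∀ x, (δ x).trace = 0)
    (hK : ∑ i, (ad (K i)⁻¹ (δ (i, true)) - δ (i, true)) = 0) : δ ∈ T := by
  let i0 : Fin g := ⟨0, by omega⟩
  let ι : (Fin g → Mat r) →ₗ[ℂ] Gens g → Mat r :=
    { toFun := fun b x => if x.2 then b x.1 else 0
      map_add' := fun a b => by funext x; dsimp; split_ifs <;> simp
      map_smul' := fun c a => by funext x; dsimp; split_ifs <;> simp }
  have hι : ∀ t : Gens g → Mat r,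
      t - (fun x : Gens g => if x.2 then 0 else t (x.1, false)) = ι fun i => t (i, true) := by
    intro t
    funext ⟨i, b⟩
    cases b <;> simp [ι]
  let Sb : Submodule ℂ (Fin g → Mat r) := T.comap ι
  have hSb : ∀ t ∈ T, (fun i => t (i, true)) ∈ Sb := fun t ht => by
    show ι _ ∈ T
    rw [← hι]
    exact T.sub_mem ht (hslice (fun i => t (i, false)) fun i => htrT t ht (i, false))
  suffices h : (fun i => δ (i, true)) ∈ Sb by
    have h' : ι (fun i => δ (i, true)) ∈ T := h
    rw [← hι] at h'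
    have h2 := T.add_mem h' (hslice (fun i => δ (i, false)) fun i => htr _)
    rwa [sub_add_cancel] at h2
  set b0 : Fin g → Mat r := fun i => δ (i, true)
  by_contra hb
  let Sc : (Fin g → ℂ) →ₗ[ℂ] Fin g → Mat r :=
    { toFun := fun μ i => μ i • 1
      map_add' := fun a b => funext fun i => add_smul (a i) (b i) 1
      map_smul' := fun c a => funext fun i => mul_smul c (a i) 1 }
  have hb' : b0 ∉ Sb ⊔ LinearMap.range Sc := by
    intro h
    obtain ⟨s, hs, _, ⟨μ, rfl⟩, he⟩ := Submodule.mem_sup.1 h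
    apply hb
    have hμ : ∀ i, μ i = 0 := fun i => by
      have h1 := congrArg Matrix.trace (congrFun he i)
      have h2 : (s i).trace = 0 := by
        have := htrT _ (show ι s ∈ T from hs) (i, true)
        simpa [ι] using this
      simp [Sc, h2, htr (i, true), b0] at h1
      exact h1.resolve_right (by omega)
    have : Sc μ = 0 := funext fun i => by simp [Sc, hμ]
    rw [this, add_zero] at he
    rwa [← he]
  obtain ⟨φ, hφ0, hφ⟩ := Submodule.exists_dual_map_eq_bot_of_notMem hb' inferInstance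
  have hker : ∀ s ∈ Sb ⊔ LinearMap.range Sc, φ s = 0 := fun s hs => by
    have := Submodule.mem_map_of_mem (f := φ) hs
    rwa [hφ, Submodule.mem_bot] at this
  obtain ⟨c, hc⟩ := pi_dual φ
  have hctr : ∀ i, (c i).trace = 0 := fun i => by
    have := hker _ (Submodule.mem_sup_right ⟨Pi.single i 1, rfl⟩)
    rw [hc, Finset.sum_eq_single i (fun j _ hj => by simp [Sc, hj]) (by simp)] at this
    simpa [Sc] using this
  obtain ⟨X, hX⟩ := spanning hg hr K c hK0 hK1 hK2
    fun u hu k hk => by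
      obtain ⟨e, hd, ha⟩ := exists_move (r := r) (by omega) hu
      let s : Fin r → ℂ := Pi.single ⟨k, hk⟩ 1
      let t := twistVec1 i0 e K s
      set y0 := e.f (SL r) (slice K)
      set W := flowGen (y0 (i0, false)).1 s
      have h0 := hker _ (Submodule.mem_sup_left (hSb t (hP e u hu ha s)))
      rw [hc] at h0
      have hd' := hd K c t
      rw [h0] at hd'
      have hjet : (fun x => (⟨slice K x, t x⟩ : Jet r)) = e.b (Jet r)
          (twist i0 ⟨1, tl W⟩ fun x => ⟨y0 x, 0⟩) := by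
        funext x
        refine Jet.ext ?_ rfl
        have h := congrFun (e.natural_b Jet.proj (twist i0 (⟨1, tl W⟩ : Jet r)
          fun x => (⟨y0 x, 0⟩ : Jet r))) x
        have e1 : (Jet.proj ∘ twist i0 (⟨1, tl W⟩ : Jet r) fun x => (⟨y0 x, 0⟩ : Jet r)) = y0 := by
          funext x'
          by_cases hx : x' = (i0, true)
          · subst hx; simp [twist]
          · simp [twist, hx]
        rw [e1] at h
        rw [show (e.b (Jet r) _ x).M = _ from h, e.left]
      rw [hjet, e.right] at hd'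
      have hsum : ∀ q : Fin g → Mat r, ∑ i, (q i *
          (twist i0 (⟨1, tl W⟩ : Jet r) (fun x => ⟨y0 x, 0⟩) (i, true)).v).trace =
            (q i0 * tl W).trace := fun q => by
        rw [Finset.sum_eq_single i0 (fun j _ hj => by simp [twist, hj]) (by simp)]
        simp [twist]
      rw [hsum, ha (Jet r), slice_false, Function.update_self] at hd'
      set p := (⟨K i0, c i0⟩ : Jet r) * FreeGroup.lift (fun i => (⟨K i, c i⟩ : Jet r)) u
      have hp : p ∈ Jet.traceless r :=
        (Jet.traceless r).mul_mem (show (c i0).trace = 0 from hctr i0)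
          (FreeGroup.range_lift_le (by rintro _ ⟨i, rfl⟩; exact hctr i) ⟨u, rfl⟩)
      have hM : p.M = y0 (i0, false) := by
        have hh : FreeGroup.lift K u =
            Jet.proj (FreeGroup.lift (fun i => (⟨K i, c i⟩ : Jet r)) u) :=
          DFunLike.congr_fun (FreeGroup.ext_hom (FreeGroup.lift K)
            (Jet.proj.comp (FreeGroup.lift fun i => (⟨K i, c i⟩ : Jet r))) fun i => by simp) u
        simp only [y0, i0, ha (SL r) K, slice_false, Function.update_self, p, Jet.mul_M, hh,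
          Jet.proj_apply]
      have hW : W = p.M.1 ^ k := by
        rw [hM]
        simp [W, flowGen, s, Pi.single_apply]
      rw [hW, tl_apply, mul_sub, Matrix.trace_sub, Matrix.mul_smul, mul_one, Matrix.trace_smul,
        show p.v.trace = 0 from hp, smul_zero, sub_zero] at hd'
      exact hd'.symm
  apply hφ0
  rw [hc]
  calc ∑ i, (c i * b0 i).trace = ∑ i, (X * (ad (K i)⁻¹ (b0 i) - b0 i)).trace := by
        refine Finset.sum_congr rfl fun i _ => ?_
        rw [hX, cob, sub_mul, Matrix.trace_sub, mul_sub, Matrix.trace_sub, trace_mul_ad]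
    _ = (X * ∑ i, (ad (K i)⁻¹ (b0 i) - b0 i)).trace := by
        rw [Finset.mul_sum, Matrix.trace_sum]
    _ = 0 := by rw [hK, mul_zero, Matrix.trace_zero]

/-- The homomorphism of pure tangent vectors. -/
noncomputable def vecJet : Multiplicative (Mat r) →* Jet r where
  toFun v := ⟨1, Multiplicative.toAdd v⟩
  map_one' := rfl
  map_mul' v w := Jet.ext (one_mul _).symm (by simp)

lemma rel_jets (K : Fin g → SL r) (δ : Gens g → Mat r) :
    rel (fun x => (⟨slice K x, δ x⟩ : Jet r)) =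
      ⟨1, ∑ i, (ad (K i)⁻¹ (δ (i, true)) - δ (i, true))⟩ := by
  have h : ∀ i, ⁅(⟨slice K (i, false), δ (i, false)⟩ : Jet r), ⟨slice K (i, true), δ (i, true)⟩⁆ =
      vecJet (Multiplicative.ofAdd (ad (K i)⁻¹ (δ (i, true)) - δ (i, true))) := by
    intro i
    refine Jet.ext ?_ ?_
    · simp [commutatorElement_def, vecJet]
    · simp [commutatorElement_def, vecJet]
      abel
  have h2 : rel (fun x => (⟨slice K x, δ x⟩ : Jet r)) = vecJet (List.ofFn fun i =>
      Multiplicative.ofAdd (ad (K i)⁻¹ (δ (i, true)) - δ (i, true))).prod := by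
    rw [rel, map_list_prod, List.map_ofFn]
    exact congrArg (fun f => (List.ofFn f).prod) (funext h)
  rw [h2, List.prod_ofFn, ← ofAdd_sum]
  rfl

lemma span_words {m : ℕ} (hr : 2 ≤ r) (K : Fin m → SL r) (i1 i2 : Fin m)
    (h1 : K i1 = el ⟨0, by omega⟩ (nxt ⟨0, by omega⟩) 1) (h2 : K i2 = cyc r) :
    Submodule.span ℂ (Set.range fun w : FreeGroup (Fin m) =>
      fun a b => (FreeGroup.lift K w).1 a b) = (⊤ : Submodule ℂ (Fin r → Fin r → ℂ)) := by
  set H := (FreeGroup.lift K).range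
  let A : Submodule ℂ (Mat r) := Submodule.span ℂ (Set.range fun w => (FreeGroup.lift K w).1)
  have hH : ∀ M ∈ H, M.1 ∈ A := by
    rintro _ ⟨w, rfl⟩
    exact Submodule.subset_span ⟨w, rfl⟩
  have hmul : ∀ X ∈ A, ∀ Y ∈ A, X * Y ∈ A := by
    intro X hX Y hY
    induction hX using Submodule.span_induction with
    | mem X hX =>
      obtain ⟨w, rfl⟩ := hX
      induction hY using Submodule.span_induction with
      | mem Y hY =>
        obtain ⟨w', rfl⟩ := hY
        exact Submodule.subset_span ⟨w * w', by simp⟩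
      | zero => simp
      | add a b _ _ ha hb => rw [mul_add]; exact A.add_mem ha hb
      | smul c a _ ha => rw [Matrix.mul_smul]; exact A.smul_mem c ha
    | zero => simp
    | add a b _ _ ha hb => rw [add_mul]; exact A.add_mem ha hb
    | smul c a _ ha => rw [Matrix.smul_mul]; exact A.smul_mem c ha
  have hel : ∀ p : Fin r, el p (nxt p) 1 ∈ H := by
    refine el_nxt_induction hr (h1 ▸ ⟨FreeGroup.of i1, by simp⟩) fun p ih => ?_
    have hc : cyc r ∈ H := h2 ▸ ⟨FreeGroup.of i2, by simp⟩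
    rw [cyc_conj hr]
    refine H.mul_mem (H.mul_mem (H.inv_mem hc) ?_) hc
    have hs : cycSign p * cycSign (nxt p) = 1 ∨ cycSign p * cycSign (nxt p) = -1 :=
      mul_self_eq_one_iff.1 (by rw [mul_mul_mul_comm, cycSign_sq, cycSign_sq, one_mul])
    rcases hs with hs | hs
    · rw [hs, mul_one]; exact ih
    · rw [hs, mul_one, ← el_inv (nxt_ne hr p).symm]; exact H.inv_mem ih
  have hE : ∀ p : Fin r, (single p (nxt p) 1 : Mat r) ∈ A := fun p => by
    have := A.sub_mem (hH _ (hel p)) (hH 1 H.one_mem)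
    rwa [el_val (nxt_ne hr p).symm, show ((1 : SL r).1 : Mat r) = 1 from rfl,
      add_sub_cancel_left] at this
  have hall : ∀ (n : ℕ) (p : Fin r), 0 < n →
      (single p ⟨(p.1 + n) % r, Nat.mod_lt _ p.pos⟩ 1 : Mat r) ∈ A := by
    intro n
    induction n with
    | zero => intro _ h; exact absurd h (lt_irrefl 0)
    | succ n ih =>
      intro p _
      rcases Nat.eq_zero_or_pos n with h | h
      · subst h; exact hE p
      · have := hmul _ (ih p h) _ (hE ⟨(p.1 + n) % r, Nat.mod_lt _ p.pos⟩)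
        rw [Matrix.single_mul_single_same, one_mul] at this
        have e : nxt (⟨(p.1 + n) % r, Nat.mod_lt _ p.pos⟩ : Fin r) =
            ⟨(p.1 + (n + 1)) % r, Nat.mod_lt _ p.pos⟩ := Fin.ext (by simp [nxt, Nat.add_assoc])
        rwa [e] at this
  have hsingle : ∀ p q : Fin r, (single p q 1 : Mat r) ∈ A := fun p q => by
    have := hall (q.1 + r - p.1) p (by have := p.isLt; omega)
    have e : (⟨(p.1 + (q.1 + r - p.1)) % r, Nat.mod_lt _ p.pos⟩ : Fin r) = q := Fin.ext (by
      show (p.1 + (q.1 + r - p.1)) % r = q.1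
      rw [show p.1 + (q.1 + r - p.1) = q.1 + r by have := p.isLt; omega, Nat.add_mod_right,
        Nat.mod_eq_of_lt q.2])
    rwa [e] at this
  have hAtop : A = ⊤ := by
    rw [eq_top_iff]
    intro X _
    rw [Matrix.matrix_eq_sum_single X]
    refine A.sum_mem fun p _ => A.sum_mem fun q _ => ?_
    have := A.smul_mem (X p q) (hsingle p q)
    rwa [Matrix.smul_single, smul_eq_mul, mul_one] at this
  let L : Mat r →ₗ[ℂ] Fin r → Fin r → ℂ :=
    { toFun := fun M a b => M a b, map_add' := fun _ _ => rfl, map_smul' := fun _ _ => rfl }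
  have := Submodule.map_span L (Set.range fun w : FreeGroup (Fin m) => (FreeGroup.lift K w).1)
  rw [← Set.range_comp] at this
  refine Eq.trans this.symm ?_
  rw [show Submodule.span ℂ (Set.range fun w => (FreeGroup.lift K w).1) = A from rfl, hAtop,
    Submodule.map_top, LinearMap.range_eq_top]
  exact fun f => ⟨Matrix.of f, rfl⟩

/-- The product between the first handle and the meridian `j`, away from the slice. -/
def offC {G : Type} [Group G] (j : Fin s) (z : Rest k s → G) : G :=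
  rel (z ∘ Sum.inl) * pre j fun l => z (Sum.inr l)

/-- The product between the first handle and the further handle `i`, away from the slice. -/
def offH {G : Type} [Group G] (i : Fin k) (z : Rest k s → G) : G :=
  pre i fun l => ⁅z (Sum.inl (l, false)), z (Sum.inl (l, true))⁆

lemma gapC_sliceT {G : Type} [Group G] (j : Fin s) (A : Fin (g + 1) → G) (z : Rest k s → G) :
    gapC j (sliceT A z) = offC j z := by
  rw [gapC, sliceT, Sum.elim_comp_inl, Sum.elim_comp_inr, tail_slice, one_mul]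
  rfl

lemma gapH_sliceT {G : Type} [Group G] (i : Fin k) (A : Fin (g + 1) → G) (z : Rest k s → G) :
    gapH i (sliceT A z) = offH i z := by
  rw [gapH, sliceT, Sum.elim_comp_inl, tail_slice, one_mul]
  rfl

lemma lift_sliceT {G : Type} [Group G] (e : Aut (g + 1)) {u : FreeGroup (Fin (g + 1))}
    (h : Acts 0 e u) (A : Fin (g + 1) → G) (z : Rest k s → G) :
    (e.lift (k := k) (s := s)).f G (sliceT A z) =
      sliceT (Function.update A 0 (A 0 * FreeGroup.lift A u)) z := by
  show Sum.elim (e.f G (sliceT A z ∘ Sum.inl)) (sliceT A z ∘ Sum.inr) = _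
  rw [sliceT, Sum.elim_comp_inl, Sum.elim_comp_inr, h]
  rfl

lemma drag_sliceT {G : Type} [Group G] (j : Fin s) (A : Fin (g + 1) → G) (z : Rest k s → G) :
    (dragMove j).f G (sliceT A z) =
      sliceT (Function.update A 0 ((offC j z * z (Sum.inr j) * (offC j z)⁻¹)⁻¹ * A 0)) z := by
  show putC j (sliceT A z) _ _ _ = _
  simp only [gapC_sliceT]
  funext x
  by_cases ha : x = aIdx
  · subst ha; simp [sliceT]
  by_cases hb : x = bIdx
  · subst hb; simp [sliceT]
  by_cases hc : x = cIdx j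
  · subst hc; simp [sliceT, mul_assoc]
  rw [putC_of_ne j _ _ _ _ ha hb hc]
  rcases x with ⟨i, b⟩ | x
  · cases b
    · have : i ≠ 0 := fun h => ha (by subst h; rfl)
      simp [sliceT, this]
    · simp [sliceT]
  · rfl

lemma far_sliceT {G : Type} [Group G] (i : Fin k) (A : Fin (g + 1) → G) (z : Rest k s → G) :
    (farMove (s := s) i).f G (sliceT A z) =
      sliceT (Function.update A 0 (A 0 * (offH i z * z (Sum.inl (i, false)) * (offH i z)⁻¹))) z := by
  show putH i (sliceT A z) _ _ _ _ = _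
  simp only [gapH_sliceT]
  funext x
  by_cases ha : x = aIdx
  · subst ha; simp [sliceT]
  by_cases hb : x = bIdx
  · subst hb; simp [sliceT]; group
  by_cases hp : x = pIdx i false
  · subst hp; simp [sliceT]; group
  by_cases hq : x = pIdx i true
  · subst hq; simp [sliceT]; group
  rw [putH_of_ne i _ _ _ _ _ ha hb hp hq]
  rcases x with ⟨l, b⟩ | x
  · cases b
    · have : l ≠ 0 := fun h => ha (by subst h; rfl)
      simp [sliceT, this]
    · simp [sliceT]
  · rfl

/-- The rotated values of the generators away from the slice. -/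
def rotRest {G : Type} [Group G] (i : Fin k) (z : Rest k s → G) : Rest k s → G :=
  Function.update (Function.update z (Sum.inl (i, false))
    (z (Sum.inl (i, false)) * z (Sum.inl (i, true)) * (z (Sum.inl (i, false)))⁻¹))
    (Sum.inl (i, true)) (z (Sum.inl (i, false)))⁻¹

lemma rot_sliceT {G : Type} [Group G] (i : Fin k) (A : Fin (g + 1) → G) (z : Rest k s → G) :
    (rotMove (s := s) i).f G (sliceT A z) = sliceT A (rotRest i z) := by
  show putH i (sliceT A z) _ _ _ _ = _
  funext x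
  by_cases ha : x = aIdx
  · subst ha; simp [sliceT]
  by_cases hb : x = bIdx
  · subst hb; simp [sliceT]
  by_cases hp : x = pIdx i false
  · subst hp; simp [sliceT, rotRest]
  by_cases hq : x = pIdx i true
  · subst hq; simp [sliceT, rotRest]
  rw [putH_of_ne i _ _ _ _ _ ha hb hp hq]
  rcases x with x | x
  · rfl
  · have h1 : x ≠ Sum.inl (i, false) := fun h => hp (by subst h; rfl)
    have h2 : x ≠ Sum.inl (i, true) := fun h => hq (by subst h; rfl)
    simp [sliceT, rotRest, h1, h2]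

lemma relT_jets (K : Fin (g + 1) → SL r) (z : Rest k s → SL r) (hz : relR z = 1)
    (δ : Idx (g + 1) k s → Mat r) :
    relT (fun x => (⟨sliceT K z x, δ x⟩ : Jet r)) =
      ⟨1, ∑ i, (ad (K i)⁻¹ (δ (Sum.inl (i, true))) - δ (Sum.inl (i, true))) +
        (relR fun x => (⟨z x, δ (Sum.inr x)⟩ : Jet r)).v⟩ := by
  have h1 : (relR fun x => (⟨z x, δ (Sum.inr x)⟩ : Jet r)).M = 1 := by
    have := map_relR (Jet.proj (r := r)) fun x : Rest k s => (⟨z x, δ (Sum.inr x)⟩ : Jet r)
    rw [← Jet.proj_apply, this]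
    exact hz
  have h2 := rel_jets K fun x : Gens (g + 1) => δ (Sum.inl x)
  have e : relT (fun x => (⟨sliceT K z x, δ x⟩ : Jet r)) =
      rel (fun x : Gens (g + 1) => (⟨slice K x, δ (Sum.inl x)⟩ : Jet r)) *
        relR fun x => (⟨z x, δ (Sum.inr x)⟩ : Jet r) := rfl
  rw [e, h2]
  refine Jet.ext ?_ ?_
  · simp [h1]
  · simp [h1]

variable {O : Subring ℂ} {C : Fin s → SL r} {K : Fin (g + 1) → SL r} {z₀ : Rest k s → SL r}
  {N : Fin L → SL r}

lemma Fam.rel_tan (P : Fam g r O C K z₀ N) (v : Fin P.n → ℂ) :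
    (relT fun x => (⟨sliceT K z₀ x, P.tan v x⟩ : Jet r)).v = 0 := by
  let yJ : Idx (g + 1) k s → (ℂ → SL r) × Jet r := fun x =>
    (fun z => P.Ψ (z • v) x, ⟨sliceT K z₀ x, P.tan v x⟩)
  have hyJ : ∀ x, yJ x ∈ jetGroup r := fun x => by
    have := hasJet_line (P.smooth x) v
    rw [show P.Ψ 0 x = sliceT K z₀ x from congrFun P.base x] at this
    exact this
  have hc : ∀ f : Gens (g + 1) → (ℂ → SL r) × Jet r, (∀ x, f x ∈ jetGroup r) →
      rel f ∈ jetGroup r := fun f hf => list_prod_mem fun w hw => by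
    obtain ⟨i, rfl⟩ := List.mem_ofFn.1 hw
    simp only [commutatorElement_def]
    exact mul_mem (mul_mem (mul_mem (hf _) (hf _)) (inv_mem (hf _))) (inv_mem (hf _))
  have hc' : ∀ f : Gens k → (ℂ → SL r) × Jet r, (∀ x, f x ∈ jetGroup r) →
      rel f ∈ jetGroup r := fun f hf => list_prod_mem fun w hw => by
    obtain ⟨i, rfl⟩ := List.mem_ofFn.1 hw
    simp only [commutatorElement_def]
    exact mul_mem (mul_mem (mul_mem (hf _) (hf _)) (inv_mem (hf _))) (inv_mem (hf _))
  have hrel : relT yJ ∈ jetGroup r := mul_mem (hc _ fun x => hyJ _) (mul_mem (hc' _ fun x => hyJ _)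
    (list_prod_mem fun w hw => by obtain ⟨i, rfl⟩ := List.mem_ofFn.1 hw; exact hyJ _))
  have e1 : (relT yJ).1 = fun _ => 1 := by
    funext z
    have := map_relT ((Pi.evalMonoidHom (fun _ : ℂ => SL r) z).comp
      (MonoidHom.fst (ℂ → SL r) (Jet r))) yJ
    exact this.trans (P.rel_eq (z • v))
  have e2 : (relT yJ).2 = relT fun x => (⟨sliceT K z₀ x, P.tan v x⟩ : Jet r) :=
    map_relT (MonoidHom.snd (ℂ → SL r) (Jet r)) yJ
  have h : HasJet (relT yJ).1 (relT yJ).2 := hrel
  rw [e1, e2] at h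
  exact (congrArg Jet.v (h.unique (hasJet_const (1 : SL r)))).trans rfl

/-- The finitely many values of the first handle at which the moves are evaluated. -/
def seeds (D : SL r) (z : Rest k s → SL r) : Option (Fin s ⊕ Fin k × Bool) → SL r
  | none => D
  | some (Sum.inl j) => offC j z * z (Sum.inr j) * (offC j z)⁻¹ * D
  | some (Sum.inr (i, false)) => D * (offH i z * z (Sum.inl (i, false)) * (offH i z)⁻¹)⁻¹
  | some (Sum.inr (i, true)) =>
      D * (offH i (rotRest i z) * rotRest i z (Sum.inl (i, false)) * (offH i (rotRest i z))⁻¹)⁻¹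

lemma ad_mem_all (Q : SL r) (M₀ : SL r) {T : Submodule ℂ (Mat r)}
    (hspan : Submodule.span ℂ (Set.range fun u : {u : FreeGroup (Fin (g + 1)) // u ∈ others 0} =>
      fun a b => (FreeGroup.lift K u.1).1 a b) = (⊤ : Submodule ℂ (Fin r → Fin r → ℂ)))
    (h : ∀ u ∈ others (0 : Fin (g + 1)), ad Q (tl (M₀.1 * (FreeGroup.lift K u).1)) ∈ T)
    (Y : Mat r) (hY : Y.trace = 0) : Y ∈ T := by
  let Λ : (Fin r → Fin r → ℂ) →ₗ[ℂ] Mat r :=
    { toFun := fun M => ad Q (tl (M₀.1 * Matrix.of M))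
      map_add' := fun A B => by
        rw [show (Matrix.of (A + B) : Mat r) = Matrix.of A + Matrix.of B from rfl, mul_add, map_add,
          ad_add]
      map_smul' := fun c A => by
        rw [show (Matrix.of (c • A) : Mat r) = c • Matrix.of A from rfl, Matrix.mul_smul, map_smul,
          ad_smul]
        rfl }
  have htop : T.comap Λ = ⊤ := by
    rw [eq_top_iff, ← hspan, Submodule.span_le]
    rintro _ ⟨u, rfl⟩
    exact h u.1 u.2
  have hmem : Λ (fun a b => ((M₀⁻¹).1 * ad Q⁻¹ Y) a b) ∈ T :=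
    (htop ▸ Submodule.mem_top : (fun a b => ((M₀⁻¹).1 * ad Q⁻¹ Y) a b) ∈ T.comap Λ)
  have e : Λ (fun a b => ((M₀⁻¹).1 * ad Q⁻¹ Y) a b) = Y := by
    show ad Q (tl (M₀.1 * ((M₀⁻¹).1 * ad Q⁻¹ Y))) = Y
    rw [← Matrix.mul_assoc, val_mul_inv, one_mul, tl_of_trace _ (by rw [trace_ad, hY]), ad_ad_inv]
  exact e ▸ hmem

lemma flowGen_first (hr : 2 ≤ r) (W : Mat r) :
    flowGen W (Pi.single (⟨1, by omega⟩ : Fin r) 1) = W := by
  simp [flowGen, Pi.single_apply]

lemma span_others {K : Fin (g + 1) → SL r} (hr : 2 ≤ r) (i1 i2 : Fin (g + 1)) (hK0 : K 0 = 1)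
    (h1 : K i1 = el ⟨0, by omega⟩ (nxt ⟨0, by omega⟩) 1) (h2 : K i2 = cyc r) :
    Submodule.span ℂ (Set.range fun u : {u : FreeGroup (Fin (g + 1)) // u ∈ others 0} =>
      fun a b => (FreeGroup.lift K u.1).1 a b) = (⊤ : Submodule ℂ (Fin r → Fin r → ℂ)) := by
  let π : FreeGroup (Fin (g + 1)) →* FreeGroup (Fin (g + 1)) :=
    FreeGroup.lift fun i => if i = 0 then 1 else FreeGroup.of i
  have hπ : ∀ w, π w ∈ others (0 : Fin (g + 1)) := fun w =>
    FreeGroup.range_lift_le (by
      rintro _ ⟨i, rfl⟩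
      by_cases hi : i = 0
      · simp [hi]
      · simpa [hi, others] using Subgroup.subset_closure (k := FreeGroup.of '' {j : Fin (g + 1) | j ≠ 0})
          ⟨i, hi, rfl⟩) ⟨w, rfl⟩
  have hlift : ∀ w, FreeGroup.lift K (π w) = FreeGroup.lift K w := fun w =>
    DFunLike.congr_fun (FreeGroup.ext_hom ((FreeGroup.lift K).comp π) (FreeGroup.lift K) fun i => by
      by_cases hi : i = 0
      · subst hi; simp [π, hK0]
      · simp [π, hi]) w
  rw [eq_top_iff, ← span_words hr K i1 i2 h1 h2]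
  refine Submodule.span_mono ?_
  rintro _ ⟨w, rfl⟩
  exact ⟨⟨π w, hπ w⟩, by simp [hlift]⟩

/-- A single puncture, moved by a drag. -/
theorem twistVec_drag (j : Fin s) (e : Aut (g + 1)) {u : FreeGroup (Fin (g + 1))} (he : Acts 0 e u)
    (sv : Fin r → ℂ) (x : Rest k s)
    {A' : SL r} (hA' : A' = (offC j z₀ * z₀ (Sum.inr j) * (offC j z₀)⁻¹)⁻¹ *
      (K 0 * FreeGroup.lift K u)) {Y : Mat r}
    (hY : Y = ad (offC j z₀) (ad A'⁻¹ (tl (flowGen A'.1 sv)))) :
    twistVec ((e.lift).trans (dragMove j)) K z₀ sv (Sum.inr x) =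
      if x = Sum.inr j then ad (z₀ (Sum.inr j)) Y - Y else 0 := by
  set A1 : Fin (g + 1) → SL r := Function.update K 0 (K 0 * FreeGroup.lift K u)
  set A2 : Fin (g + 1) → SL r := Function.update A1 0 A'
  have hy : ((e.lift).trans (dragMove j)).f (SL r) (sliceT K z₀) = sliceT A2 z₀ := by
    show (dragMove j).f (SL r) ((e.lift).f (SL r) (sliceT K z₀)) = _
    rw [lift_sliceT e he, drag_sliceT]
    simp [A1, A2, hA']
  have ha : sliceT A2 z₀ aIdx = A' := by simp [sliceT, A2]
  unfold twistVec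
  rw [hy, ha]
  set ξ : Jet r := ⟨1, tl (flowGen A'.1 sv)⟩
  set Yin := twistT ξ fun x => (⟨sliceT A2 z₀ x, 0⟩ : Jet r)
  show ((dragMove j).b (Jet r) Yin (Sum.inr x)).v = _
  have hgap : gapC j Yin = ⟨offC j z₀, 0⟩ := by
    rw [gapC_congr j (y' := fun x => (⟨sliceT A2 z₀ x, 0⟩ : Jet r))
      (fun x _ hb _ => by simp [Yin, twistT, hb])]
    have := map_gapC (Jet.zero (r := r)) j (sliceT A2 z₀)
    rw [gapC_sliceT] at this
    exact this.symm
  have h1 : Yin aIdx = ⟨A', 0⟩ := by simp [Yin, twistT, ha]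
  have h2 : Yin bIdx = ξ := Jet.ext (by simp [Yin, twistT, sliceT, ξ]) (by simp [Yin, twistT, sliceT, ξ])
  have h3 : Yin (cIdx j) = ⟨z₀ (Sum.inr j), 0⟩ := by simp [Yin, twistT, sliceT]
  by_cases hx : x = Sum.inr j
  · subst hx
    rw [if_pos rfl]
    show (putC j Yin _ _ _ (cIdx j)).v = _
    rw [putC_c]
    simp only [hgap, h1, h2, h3]
    simp [ξ, hY, ← ad_mul, mul_assoc]
    abel
  · rw [if_neg hx]
    show (putC j Yin _ _ _ (Sum.inr x)).v = _
    rw [putC_of_ne j _ _ _ _ (by simp) (by simp) (by simpa using hx)]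
    simp [Yin, twistT]

/-- A further handle, moved by a slide. -/
theorem twistVec_far (i : Fin k) (e : Aut (g + 1)) {u : FreeGroup (Fin (g + 1))} (he : Acts 0 e u)
    (sv : Fin r → ℂ) (x : Rest k s)
    {A' : SL r} (hA' : A' = (K 0 * FreeGroup.lift K u) *
      (offH i z₀ * z₀ (Sum.inl (i, false)) * (offH i z₀)⁻¹)) {η : Mat r}
    (hη : η = ad (offH i z₀) (tl (flowGen A'.1 sv))) :
    twistVec ((e.lift).trans (farMove i)) K z₀ sv (Sum.inr x) =
      if x = Sum.inl (i, false) then η - ad (z₀ (Sum.inl (i, false))) η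
      else if x = Sum.inl (i, true) then η else 0 := by
  set A1 : Fin (g + 1) → SL r := Function.update K 0 (K 0 * FreeGroup.lift K u)
  set A2 : Fin (g + 1) → SL r := Function.update A1 0 A'
  have hy : ((e.lift).trans (farMove i)).f (SL r) (sliceT K z₀) = sliceT A2 z₀ := by
    show (farMove i).f (SL r) ((e.lift).f (SL r) (sliceT K z₀)) = _
    rw [lift_sliceT e he, far_sliceT]
    simp [A1, A2, hA']
  have ha : sliceT A2 z₀ aIdx = A' := by simp [sliceT, A2]
  unfold twistVec
  rw [hy, ha]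
  set ξ : Jet r := ⟨1, tl (flowGen A'.1 sv)⟩
  set Yin := twistT ξ fun x => (⟨sliceT A2 z₀ x, 0⟩ : Jet r)
  show ((farMove i).b (Jet r) Yin (Sum.inr x)).v = _
  have hne : ∀ x, x ≠ bIdx → Yin x = ⟨sliceT A2 z₀ x, 0⟩ := fun x hb => by simp [Yin, twistT, hb]
  have hgap : gapH i Yin = ⟨offH i z₀, 0⟩ := by
    have e1 : gapH i Yin = gapH i fun x => (⟨sliceT A2 z₀ x, 0⟩ : Jet r) := by
      unfold gapH
      rw [tail_congr (y' := (fun x => (⟨sliceT A2 z₀ x, 0⟩ : Jet r)) ∘ Sum.inl)
        fun l c hl => hne _ (by simp [hl])]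
      congr 2
    have := map_gapH (Jet.zero (r := r)) i (sliceT A2 z₀)
    rw [gapH_sliceT] at this
    exact e1.trans this.symm
  have h1 : Yin aIdx = ⟨A', 0⟩ := by rw [hne _ (by simp), ha]
  have h2 : Yin bIdx = ξ := Jet.ext (by simp [Yin, twistT, sliceT, ξ]) (by simp [Yin, twistT, sliceT, ξ])
  have h3 : Yin (pIdx i false) = ⟨z₀ (Sum.inl (i, false)), 0⟩ := by simp [hne, sliceT]
  have h4 : Yin (pIdx i true) = ⟨z₀ (Sum.inl (i, true)), 0⟩ := by simp [hne, sliceT]
  by_cases hp : x = Sum.inl (i, false)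
  · subst hp
    rw [if_pos rfl]
    show (putH i Yin _ _ _ _ (pIdx i false)).v = _
    rw [putH_p]
    simp only [hgap, h2, h3]
    simp [ξ, hη, ← ad_mul, mul_assoc]
    abel
  · rw [if_neg hp]
    by_cases hq : x = Sum.inl (i, true)
    · subst hq
      rw [if_pos rfl]
      show (putH i Yin _ _ _ _ (pIdx i true)).v = _
      rw [putH_q]
      simp only [hgap, h2, h4]
      simp [ξ, hη]
    · rw [if_neg hq]
      show (putH i Yin _ _ _ _ (Sum.inr x)).v = _
      rw [putH_of_ne i _ _ _ _ _ (by simp) (by simp) (by simpa using hp) (by simpa using hq)]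
      simp [Yin, twistT]

/-- A further handle, rotated and then moved by a slide. -/
theorem twistVec_rot (i : Fin k) (e : Aut (g + 1)) {u : FreeGroup (Fin (g + 1))} (he : Acts 0 e u)
    (sv : Fin r → ℂ) (x : Rest k s)
    {z' : Rest k s → SL r} (hz' : z' = rotRest i z₀) {A' : SL r}
    (hA' : A' = (K 0 * FreeGroup.lift K u) *
      (offH i z' * z' (Sum.inl (i, false)) * (offH i z')⁻¹)) {η : Mat r}
    (hη : η = ad (offH i z') (tl (flowGen A'.1 sv))) :
    twistVec (((e.lift).trans (rotMove i)).trans (farMove i)) K z₀ sv (Sum.inr x) =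
      if x = Sum.inl (i, false) then -ad (z₀ (Sum.inl (i, false))) η else 0 := by
  subst hz'
  set z' := rotRest i z₀ with hz' 
  set A1 : Fin (g + 1) → SL r := Function.update K 0 (K 0 * FreeGroup.lift K u)
  set A2 : Fin (g + 1) → SL r := Function.update A1 0 A'
  have hy : (((e.lift).trans (rotMove i)).trans (farMove i)).f (SL r) (sliceT K z₀) =
      sliceT A2 z' := by
    show (farMove i).f (SL r) ((rotMove i).f (SL r) ((e.lift).f (SL r) (sliceT K z₀))) = _
    rw [lift_sliceT e he, rot_sliceT, far_sliceT]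
    simp [A1, A2, hA', z']
  have ha : sliceT A2 z' aIdx = A' := by simp [sliceT, A2]
  unfold twistVec
  rw [hy, ha]
  set ξ : Jet r := ⟨1, tl (flowGen A'.1 sv)⟩
  set Yin := twistT ξ fun x => (⟨sliceT A2 z' x, 0⟩ : Jet r)
  show ((rotMove i).b (Jet r) ((farMove i).b (Jet r) Yin) (Sum.inr x)).v = _
  have hne : ∀ x, x ≠ bIdx → Yin x = ⟨sliceT A2 z' x, 0⟩ := fun x hb => by simp [Yin, twistT, hb]
  have hgap : gapH i Yin = ⟨offH i z', 0⟩ := by
    have e1 : gapH i Yin = gapH i fun x => (⟨sliceT A2 z' x, 0⟩ : Jet r) := by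
      unfold gapH
      rw [tail_congr (y' := (fun x => (⟨sliceT A2 z' x, 0⟩ : Jet r)) ∘ Sum.inl)
        fun l c hl => hne _ (by simp [hl])]
      congr 2
    have := map_gapH (Jet.zero (r := r)) i (sliceT A2 z')
    rw [gapH_sliceT] at this
    exact e1.trans this.symm
  have h1 : Yin aIdx = ⟨A', 0⟩ := by rw [hne _ (by simp), ha]
  have h2 : Yin bIdx = ξ := Jet.ext (by simp [Yin, twistT, sliceT, ξ]) (by simp [Yin, twistT, sliceT, ξ])
  have h3 : Yin (pIdx i false) = ⟨z' (Sum.inl (i, false)), 0⟩ := by simp [hne, sliceT]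
  have h4 : Yin (pIdx i true) = ⟨z' (Sum.inl (i, true)), 0⟩ := by simp [hne, sliceT]
  have hp' : z' (Sum.inl (i, false)) =
      z₀ (Sum.inl (i, false)) * z₀ (Sum.inl (i, true)) * (z₀ (Sum.inl (i, false)))⁻¹ := by
    simp [z', rotRest]
  have hq' : z' (Sum.inl (i, true)) = (z₀ (Sum.inl (i, false)))⁻¹ := by simp [z', rotRest]
  set W := (farMove i).b (Jet r) Yin
  have hW1 : W (pIdx i false) =
      ⟨z' (Sum.inl (i, false)), η - ad (z' (Sum.inl (i, false))) η⟩ := by
    show putH i Yin _ _ _ _ (pIdx i false) = _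
    rw [putH_p]
    simp only [hgap, h2, h3]
    refine Jet.ext ?_ ?_
    · simp [ξ]; group
    · simp [ξ, hη, ← ad_mul, mul_assoc]; abel
  have hW2 : W (pIdx i true) = ⟨z' (Sum.inl (i, true)), η⟩ := by
    show putH i Yin _ _ _ _ (pIdx i true) = _
    rw [putH_q]
    simp only [hgap, h2, h4]
    refine Jet.ext ?_ ?_
    · simp [ξ]; group
    · simp [ξ, hη]
  by_cases hp : x = Sum.inl (i, false)
  · subst hp
    rw [if_pos rfl]
    show (putH i W _ _ _ _ (pIdx i false)).v = _
    rw [putH_p, hW2, hq']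
    simp
  · rw [if_neg hp]
    by_cases hq : x = Sum.inl (i, true)
    · subst hq
      show (putH i W _ _ _ _ (pIdx i true)).v = _
      rw [putH_q, hW1, hW2, hp', hq']
      simp [← ad_mul, mul_assoc]
      abel
    · show (putH i W _ _ _ _ (Sum.inr x)).v = _
      rw [putH_of_ne i _ _ _ _ _ (by simp) (by simp) (by simpa using hp) (by simpa using hq)]
      show (putH i Yin _ _ _ _ (Sum.inr x)).v = _
      rw [putH_of_ne i _ _ _ _ _ (by simp) (by simp) (by simpa using hp) (by simpa using hq)]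
      simp [Yin, twistT]

lemma single_c_mem (hg : 1 ≤ g) (hr : 2 ≤ r) (hK0 : K 0 = 1)
    (hspan : Submodule.span ℂ (Set.range fun u : {u : FreeGroup (Fin (g + 1)) // u ∈ others 0} =>
      fun a b => (FreeGroup.lift K u.1).1 a b) = (⊤ : Submodule ℂ (Fin r → Fin r → ℂ)))
    (T : Submodule ℂ (Idx (g + 1) k s → Mat r)) (j : Fin s)
    (hdrag : ∀ (e : Aut (g + 1)) u, u ∈ others 0 → Acts 0 e u → ∀ sv,
      twistVec ((e.lift).trans (dragMove j)) K z₀ sv ∈ T) (X : Mat r) :
    Pi.single (Sum.inr j : Rest k s) (ad (z₀ (Sum.inr j)) X - X) ∈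
      T.map (LinearMap.funLeft ℂ (Mat r) (Sum.inr : Rest k s → Idx (g + 1) k s)) := by
  let T' := T.map (LinearMap.funLeft ℂ (Mat r) (Sum.inr : Rest k s → Idx (g + 1) k s))
  let res : (Idx (g + 1) k s → Mat r) →ₗ[ℂ] Rest k s → Mat r := LinearMap.funLeft ℂ _ Sum.inr
  let sing : Rest k s → Mat r →ₗ[ℂ] Rest k s → Mat r := fun x => LinearMap.single ℂ (fun _ => Mat r) x
  have hmove : ∀ (u : FreeGroup (Fin (g + 1))), u ∈ others 0 →
      ∃ e : Aut (g + 1), Acts 0 e u := fun u hu => by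
    obtain ⟨e, -, he⟩ := exists_move (r := r) (g := g + 1) (by omega) hu
    exact ⟨e, he⟩
  show sing (Sum.inr j) (ad (z₀ (Sum.inr j)) X - X) ∈ T'
  let Λ : Mat r →ₗ[ℂ] Rest k s → Mat r :=
    (sing (Sum.inr j)).comp
      { toFun := fun X => ad (z₀ (Sum.inr j)) X - X
        map_add' := fun a b => by rw [ad_add]; abel
        map_smul' := fun c a => by rw [ad_smul, RingHom.id_apply, smul_sub] }
  suffices h : tl X ∈ T'.comap Λ by
    have e : ad (z₀ (Sum.inr j)) (tl X) - tl X = ad (z₀ (Sum.inr j)) X - X := by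
      rw [tl_apply, ad_sub, ad_smul,
        show ad (z₀ (Sum.inr j)) (1 : Mat r) = 1 by rw [ad, mul_one, val_inv_mul]]
      abel
    have h' : Λ (tl X) ∈ T' := h
    rw [show Λ (tl X) = sing (Sum.inr j) (ad (z₀ (Sum.inr j)) X - X) from
      congrArg (sing (Sum.inr j)) e] at h'
    exact h'
  refine ad_mem_all (g := g) (K := K) (offC j z₀)
    (offC j z₀ * z₀ (Sum.inr j) * (offC j z₀)⁻¹)⁻¹ hspan (fun u hu => ?_) _ (trace_tl X)
  obtain ⟨e, he⟩ := hmove u hu
  refine ⟨_, hdrag e u hu he (Pi.single ⟨1, by omega⟩ 1), funext fun x => ?_⟩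
  show twistVec ((e.lift).trans (dragMove j)) K z₀ (Pi.single ⟨1, by omega⟩ 1) (Sum.inr x) = _
  rw [twistVec_drag j e he _ _ rfl rfl]
  simp only [flowGen_first hr, hK0, one_mul, Λ, sing, LinearMap.comp_apply, LinearMap.coe_mk,
    AddHom.coe_mk, LinearMap.single_apply, Pi.single_apply]
  split_ifs with hx
  · congr 2 <;>
    · have key : ∀ M : SL r, ad M⁻¹ (tl M.1) = tl M.1 := fun M => by
        have h1 : Commute M.1 (tl M.1) := commute_tl (Commute.refl _)
        rw [ad, inv_inv, h1.eq, Matrix.mul_assoc, val_mul_inv, mul_one]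
      rw [key]; rfl
  · rfl

lemma single_p_mem (hg : 1 ≤ g) (hr : 2 ≤ r) (hK0 : K 0 = 1)
    (hspan : Submodule.span ℂ (Set.range fun u : {u : FreeGroup (Fin (g + 1)) // u ∈ others 0} =>
      fun a b => (FreeGroup.lift K u.1).1 a b) = (⊤ : Submodule ℂ (Fin r → Fin r → ℂ)))
    (T : Submodule ℂ (Idx (g + 1) k s → Mat r)) (i : Fin k)
    (hrot : ∀ (e : Aut (g + 1)) u, u ∈ others 0 → Acts 0 e u → ∀ sv,
      twistVec (((e.lift).trans (rotMove i)).trans (farMove i)) K z₀ sv ∈ T) (Y : Mat r)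
    (hY : Y.trace = 0) :
    Pi.single (Sum.inl (i, false) : Rest k s) Y ∈
      T.map (LinearMap.funLeft ℂ (Mat r) (Sum.inr : Rest k s → Idx (g + 1) k s)) := by
  let T' := T.map (LinearMap.funLeft ℂ (Mat r) (Sum.inr : Rest k s → Idx (g + 1) k s))
  let res : (Idx (g + 1) k s → Mat r) →ₗ[ℂ] Rest k s → Mat r := LinearMap.funLeft ℂ _ Sum.inr
  let sing : Rest k s → Mat r →ₗ[ℂ] Rest k s → Mat r := fun x => LinearMap.single ℂ (fun _ => Mat r) x
  have hmove : ∀ (u : FreeGroup (Fin (g + 1))), u ∈ others 0 →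
      ∃ e : Aut (g + 1), Acts 0 e u := fun u hu => by
    obtain ⟨e, -, he⟩ := exists_move (r := r) (g := g + 1) (by omega) hu
    exact ⟨e, he⟩
  show sing (Sum.inl (i, false)) Y ∈ T'
  set z' := rotRest i z₀
  let Λ : Mat r →ₗ[ℂ] Rest k s → Mat r :=
    (sing (Sum.inl (i, false))).comp
      { toFun := fun Y => -ad (z₀ (Sum.inl (i, false))) Y
        map_add' := fun a b => by rw [ad_add]; abel
        map_smul' := fun c a => by rw [ad_smul, RingHom.id_apply, smul_neg] }
  have h : ∀ Y : Mat r, Y.trace = 0 → Y ∈ T'.comap Λ := by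
    intro Y hY
    refine ad_mem_all (g := g) (K := K) (offH i z') 1 (T := T'.comap Λ) hspan ?_ Y hY
    intro u hu
    obtain ⟨e, he⟩ := hmove (u) hu
    set P' := offH i z' * z' (Sum.inl (i, false)) * (offH i z')⁻¹
    -- absorb the constant factor by linearity in the word
    let M : (Fin r → Fin r → ℂ) →ₗ[ℂ] Rest k s → Mat r :=
      Λ.comp
        { toFun := fun M => ad (offH i z') (tl (Matrix.of M * P'.1))
          map_add' := fun A B => by
            rw [show (Matrix.of (A + B) : Mat r) = Matrix.of A + Matrix.of B from rfl, add_mul,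
              map_add, ad_add]
          map_smul' := fun c A => by
            rw [show (Matrix.of (c • A) : Mat r) = c • Matrix.of A from rfl, Matrix.smul_mul,
              map_smul, ad_smul, RingHom.id_apply] }
    have htop : T'.comap M = ⊤ := by
      rw [eq_top_iff, ← hspan, Submodule.span_le]
      rintro _ ⟨⟨v, hv⟩, rfl⟩
      obtain ⟨e, he⟩ := hmove v hv
      refine ⟨_, hrot e v hv he (Pi.single ⟨1, by omega⟩ 1), funext fun x => ?_⟩
      show twistVec (((e.lift).trans (rotMove i)).trans (farMove i)) K z₀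
        (Pi.single ⟨1, by omega⟩ 1) (Sum.inr x) = _
      rw [twistVec_rot i e he _ _ rfl rfl rfl]
      simp only [flowGen_first hr, hK0, one_mul, M, Λ, sing, LinearMap.comp_apply,
        LinearMap.coe_mk, AddHom.coe_mk, LinearMap.single_apply, Pi.single_apply]
      split_ifs <;> rfl
    have hm : M (fun a b => ((1 : SL r).1 * (FreeGroup.lift K u).1 * (P'⁻¹).1) a b) ∈ T' :=
      (htop ▸ Submodule.mem_top : _ ∈ T'.comap M)
    show Λ (ad (offH i z') (tl ((1 : SL r).1 * (FreeGroup.lift K u).1))) ∈ T'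
    convert hm using 1
    show _ = Λ (ad (offH i z') (tl (((1 : SL r).1 * (FreeGroup.lift K u).1 * (P'⁻¹).1) * P'.1)))
    rw [Matrix.mul_assoc _ (P'⁻¹).1, val_inv_mul, mul_one]
  have h2 := h (-ad (z₀ (Sum.inl (i, false)))⁻¹ Y) (by simp [hY])
  have e : Λ (-ad (z₀ (Sum.inl (i, false)))⁻¹ Y) = sing (Sum.inl (i, false)) Y := by
    simp [Λ, ad_ad_inv]
  rwa [Submodule.mem_comap, e] at h2

lemma single_q_mem (hg : 1 ≤ g) (hr : 2 ≤ r) (hK0 : K 0 = 1)
    (hspan : Submodule.span ℂ (Set.range fun u : {u : FreeGroup (Fin (g + 1)) // u ∈ others 0} =>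
      fun a b => (FreeGroup.lift K u.1).1 a b) = (⊤ : Submodule ℂ (Fin r → Fin r → ℂ)))
    (T : Submodule ℂ (Idx (g + 1) k s → Mat r)) (i : Fin k)
    (hfar : ∀ (e : Aut (g + 1)) u, u ∈ others 0 → Acts 0 e u → ∀ sv,
      twistVec ((e.lift).trans (farMove i)) K z₀ sv ∈ T)
    (hP' : ∀ Y : Mat r, Y.trace = 0 → Pi.single (Sum.inl (i, false) : Rest k s) Y ∈
      T.map (LinearMap.funLeft ℂ (Mat r) (Sum.inr : Rest k s → Idx (g + 1) k s)))
    (Y : Mat r) (hY : Y.trace = 0) :
    Pi.single (Sum.inl (i, true) : Rest k s) Y ∈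
      T.map (LinearMap.funLeft ℂ (Mat r) (Sum.inr : Rest k s → Idx (g + 1) k s)) := by
  let T' := T.map (LinearMap.funLeft ℂ (Mat r) (Sum.inr : Rest k s → Idx (g + 1) k s))
  let res : (Idx (g + 1) k s → Mat r) →ₗ[ℂ] Rest k s → Mat r := LinearMap.funLeft ℂ _ Sum.inr
  let sing : Rest k s → Mat r →ₗ[ℂ] Rest k s → Mat r := fun x => LinearMap.single ℂ (fun _ => Mat r) x
  have hmove : ∀ (u : FreeGroup (Fin (g + 1))), u ∈ others 0 →
      ∃ e : Aut (g + 1), Acts 0 e u := fun u hu => by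
    obtain ⟨e, -, he⟩ := exists_move (r := r) (g := g + 1) (by omega) hu
    exact ⟨e, he⟩
  show sing (Sum.inl (i, true)) Y ∈ T'
  set P' := offH i z₀ * z₀ (Sum.inl (i, false)) * (offH i z₀)⁻¹
  let M : (Fin r → Fin r → ℂ) →ₗ[ℂ] Rest k s → Mat r :=
    (sing (Sum.inl (i, true))).comp
      { toFun := fun M => ad (offH i z₀) (tl (Matrix.of M * P'.1))
        map_add' := fun A B => by
          rw [show (Matrix.of (A + B) : Mat r) = Matrix.of A + Matrix.of B from rfl, add_mul,
            map_add, ad_add]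
        map_smul' := fun c A => by
          rw [show (Matrix.of (c • A) : Mat r) = c • Matrix.of A from rfl, Matrix.smul_mul,
            map_smul, ad_smul, RingHom.id_apply] }
  have htop : T'.comap M = ⊤ := by
    rw [eq_top_iff, ← hspan, Submodule.span_le]
    rintro _ ⟨⟨v, hv⟩, rfl⟩
    obtain ⟨e, he⟩ := hmove v hv
    have h1 : res (twistVec ((e.lift).trans (farMove i)) K z₀ (Pi.single ⟨1, by omega⟩ 1)) ∈ T' :=
      Submodule.mem_map_of_mem (hfar e v hv he _)
    set η := ad (offH i z₀) (tl ((FreeGroup.lift K v).1 * P'.1))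
    have h2 := T'.sub_mem h1 (hP' (η - ad (z₀ (Sum.inl (i, false))) η)
      (by simp [η, trace_tl]))
    show M (fun a b => (FreeGroup.lift K v).1 a b) ∈ T'
    convert h2 using 1
    funext x
    have hA : ((1 : SL r) * FreeGroup.lift K v * P').1 = (FreeGroup.lift K v).1 * P'.1 := by
      rw [one_mul]; rfl
    simp only [res, LinearMap.funLeft_apply, Pi.sub_apply, twistVec_far i e he _ _ rfl rfl, flowGen_first hr,
      hK0, sing, LinearMap.single_apply, Pi.single_apply, M, LinearMap.comp_apply,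
      LinearMap.coe_mk, AddHom.coe_mk]
    rw [show (1 * FreeGroup.lift K v * (offH i z₀ * z₀ (Sum.inl (i, false)) * (offH i z₀)⁻¹) :
      SL r).1 = (FreeGroup.lift K v).1 * P'.1 from hA]
    by_cases hx : x = Sum.inl (i, false)
    · subst hx; simp [η]
    · by_cases hx2 : x = Sum.inl (i, true)
      · subst hx2; simp; rfl
      · simp [hx, hx2]
  have hm : M (fun a b => (ad (offH i z₀)⁻¹ Y * (P'⁻¹).1) a b) ∈ T' :=
    (htop ▸ Submodule.mem_top : _ ∈ T'.comap M)
  convert hm using 1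
  show _ = sing (Sum.inl (i, true)) (ad (offH i z₀) (tl ((ad (offH i z₀)⁻¹ Y * (P'⁻¹).1) * P'.1)))
  rw [Matrix.mul_assoc, val_inv_mul, mul_one, tl_of_trace _ (by rw [trace_ad, hY]), ad_ad_inv]

theorem tangent_mem (hg : 2 ≤ g) (hr : 2 ≤ r) (hK0 : K 0 = 1)
    (hK1 : K ⟨1, by omega⟩ = el ⟨0, by omega⟩ (nxt ⟨0, by omega⟩) 1)
    (hK2 : K ⟨2, by omega⟩ = cyc r) (hz1 : relR z₀ = 1) (P : Fam g r O C K z₀ N) (D : SL r)
    (hD : ∀ α β : Fin r → ℕ, ¬ Par α β → hInd α β D.1 ≠ 0)
    (hN : ∀ o, ∃ l, N l = seeds D z₀ o)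
    (hP : ∀ e : Move (g + 1) k s,
      (∃ l, ∀ A : Fin (g + 1) → SL r, (∀ j, j ≠ 0 → A j = 1) → A 0 = N l →
        ∀ α β : Fin r → ℕ, ¬ Par α β → hInd α β (e.f (SL r) (sliceT A z₀) aIdx).1 ≠ 0) →
      ∀ sv, twistVec e K z₀ sv ∈ LinearMap.range P.tan)
    (δ : Idx (g + 1) k s → Mat r) (htr : ∀ x, (δ x).trace = 0)
    (hcls : ∀ j, ∃ X, δ (cIdx j) = ad (z₀ (Sum.inr j)) X - X)
    (hrel : (relT fun x => (⟨sliceT K z₀ x, δ x⟩ : Jet r)).v = 0) :
    δ ∈ LinearMap.range P.tan := by
  classical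
  set T := LinearMap.range P.tan
  have hone : ∀ (A : Fin (g + 1) → SL r), (∀ j, j ≠ 0 → A j = 1) →
      ∀ u ∈ others (0 : Fin (g + 1)), FreeGroup.lift A u = 1 := fun A hA u hu => by
    rw [lift_others (A' := fun _ => 1) hA hu,
      show FreeGroup.lift (fun _ : Fin (g + 1) => (1 : SL r)) = 1 from
        FreeGroup.ext_hom _ _ fun j => by simp]
    rfl
  have hmove : ∀ (u : FreeGroup (Fin (g + 1))), u ∈ others 0 →
      ∃ e : Aut (g + 1), Acts 0 e u := fun u hu => by
    obtain ⟨e, -, he⟩ := exists_move (r := r) (g := g + 1) (by omega) hu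
    exact ⟨e, he⟩
  -- twist vectors of the four kinds of moves lie in `T`
  have hlift : ∀ (e : Aut (g + 1)) u, u ∈ others 0 → Acts 0 e u → ∀ sv,
      twistVec (e.lift (k := k) (s := s)) K z₀ sv ∈ T := by
    intro e u hu he
    obtain ⟨l, hl⟩ := hN none
    refine hP _ ⟨l, fun A hA hA0 α β h => ?_⟩
    rw [lift_sliceT e he, show FreeGroup.lift A u = 1 from hone A hA u hu]
    simpa [sliceT, hA0, hl, seeds] using hD α β h
  have hdrag : ∀ j (e : Aut (g + 1)) u, u ∈ others 0 → Acts 0 e u → ∀ sv,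
      twistVec ((e.lift).trans (dragMove j)) K z₀ sv ∈ T := by
    intro j e u hu he
    obtain ⟨l, hl⟩ := hN (some (Sum.inl j))
    refine hP _ ⟨l, fun A hA hA0 α β h => ?_⟩
    show hInd α β ((dragMove j).f (SL r) ((e.lift).f (SL r) (sliceT A z₀)) aIdx).1 ≠ 0
    rw [lift_sliceT e he, show FreeGroup.lift A u = 1 from hone A hA u hu, drag_sliceT]
    simpa [sliceT, hA0, hl, seeds, mul_assoc] using hD α β h
  have hfar : ∀ i (e : Aut (g + 1)) u, u ∈ others 0 → Acts 0 e u → ∀ sv,
      twistVec ((e.lift).trans (farMove i)) K z₀ sv ∈ T := by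
    intro i e u hu he
    obtain ⟨l, hl⟩ := hN (some (Sum.inr (i, false)))
    refine hP _ ⟨l, fun A hA hA0 α β h => ?_⟩
    show hInd α β ((farMove i).f (SL r) ((e.lift).f (SL r) (sliceT A z₀)) aIdx).1 ≠ 0
    rw [lift_sliceT e he, show FreeGroup.lift A u = 1 from hone A hA u hu, far_sliceT]
    simpa [sliceT, hA0, hl, seeds, mul_assoc] using hD α β h
  have hrot : ∀ i (e : Aut (g + 1)) u, u ∈ others 0 → Acts 0 e u → ∀ sv,
      twistVec (((e.lift).trans (rotMove i)).trans (farMove i)) K z₀ sv ∈ T := by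
    intro i e u hu he
    obtain ⟨l, hl⟩ := hN (some (Sum.inr (i, true)))
    refine hP _ ⟨l, fun A hA hA0 α β h => ?_⟩
    show hInd α β ((farMove i).f (SL r) ((rotMove i).f (SL r) ((e.lift).f (SL r) (sliceT A z₀)))
      aIdx).1 ≠ 0
    rw [lift_sliceT e he, show FreeGroup.lift A u = 1 from hone A hA u hu, rot_sliceT, far_sliceT]
    simpa [sliceT, hA0, hl, seeds, mul_assoc] using hD α β h
  -- the part away from the slice
  let res : (Idx (g + 1) k s → Mat r) →ₗ[ℂ] Rest k s → Mat r := LinearMap.funLeft ℂ _ Sum.inr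
  let T' := T.map res
  let sing : Rest k s → Mat r →ₗ[ℂ] Rest k s → Mat r := fun x => LinearMap.single ℂ (fun _ => Mat r) x
  have hspan := span_others (K := K) hr ⟨1, by omega⟩ ⟨2, by omega⟩ hK0 hK1 hK2
  have hC : ∀ (j : Fin s) (X : Mat r),
      sing (Sum.inr j) (ad (z₀ (Sum.inr j)) X - X) ∈ T' := fun j X =>
    single_c_mem (by omega) hr hK0 hspan T j (hdrag j) X
  have hP' : ∀ (i : Fin k) (Y : Mat r), Y.trace = 0 → sing (Sum.inl (i, false)) Y ∈ T' :=
    fun i Y hY => single_p_mem (by omega) hr hK0 hspan T i (hrot i) Y hY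
  have hQ' : ∀ (i : Fin k) (Y : Mat r), Y.trace = 0 → sing (Sum.inl (i, true)) Y ∈ T' :=
    fun i Y hY => single_q_mem (by omega) hr hK0 hspan T i (hfar i)
      (single_p_mem (by omega) hr hK0 hspan T i (hrot i)) Y hY
  have hrest : res δ ∈ T' := by
    rw [show res δ = ∑ x, sing x (res δ x) from (Finset.univ_sum_single (res δ)).symm]
    refine T'.sum_mem fun x _ => ?_
    rcases x with ⟨i, b⟩ | j
    · cases b
      · exact hP' i _ (htr _)
      · exact hQ' i _ (htr _)
    · obtain ⟨X, hX⟩ := hcls j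
      show sing (Sum.inr j) (δ (cIdx j)) ∈ T'
      rw [hX]
      exact hC j X
  obtain ⟨t, ht, hte⟩ := hrest
  suffices h : δ - t ∈ T by simpa using T.add_mem h ht
  -- what is left is supported on the slice handles
  let ext0 : (Gens (g + 1) → Mat r) →ₗ[ℂ] Idx (g + 1) k s → Mat r :=
    { toFun := fun f => Sum.elim f (fun _ => 0)
      map_add' := fun a b => by funext x; rcases x with x | x <;> simp
      map_smul' := fun c a => by funext x; rcases x with x | x <;> simp }
  have hzero : δ - t = ext0 ((δ - t) ∘ Sum.inl) := by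
    funext x
    rcases x with x | x
    · rfl
    · show δ (Sum.inr x) - t (Sum.inr x) = 0
      rw [sub_eq_zero]
      exact (congrFun hte x).symm
  have htrT : ∀ t ∈ T, ∀ x, (t x).trace = 0 := by
    rintro _ ⟨v, rfl⟩ x
    exact P.trace_tan v x
  rw [hzero]
  refine tangent_first (g := g + 1) (by omega) hr hK0 hK1 hK2 (T.comap ext0) (fun a ha => ?_)
    (fun t ht x => htrT _ ht (Sum.inl x)) (fun e u hu he sv => ?_) _
    (fun x => by simp [htr, htrT t ht]) ?_
  · obtain ⟨v, hv⟩ := P.slice_tan a ha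
    exact ⟨v, funext fun x => (hv x).trans (by rcases x with x | x <;> rfl)⟩
  · show ext0 _ ∈ T
    convert hlift e u hu he sv using 1
    funext x
    have hin : sliceT K z₀ ∘ Sum.inl = slice K := rfl
    rcases x with x | x
    · show twistVec1 0 e K sv x = _
      unfold twistVec twistVec1
      show _ = (e.b (Jet r) (twistT _ _ ∘ Sum.inl) x).v
      rw [twistT_inl]
      rfl
    · show (0 : Mat r) = _
      simp [twistVec, twistT, Aut.lift]
  · have ht2 : (relT fun x => (⟨sliceT K z₀ x, t x⟩ : Jet r)).v = 0 := by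
      obtain ⟨v, rfl⟩ := ht
      exact P.rel_tan v
    rw [relT_jets K z₀ hz1] at hrel ht2
    simp only at hrel ht2
    have hsame : (fun x => (⟨z₀ x, δ (Sum.inr x)⟩ : Jet r)) = fun x => ⟨z₀ x, t (Sum.inr x)⟩ := by
      funext x
      rw [← show t (Sum.inr x) = δ (Sum.inr x) from congrFun hte x]
    rw [hsame] at hrel
    have h := sub_eq_zero.2 (hrel.trans ht2.symm)
    rw [add_sub_add_right_eq_sub, ← Finset.sum_sub_distrib] at h
    rw [← h]
    refine Finset.sum_congr rfl fun i _ => ?_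
    simp only [Function.comp_apply, Pi.sub_apply, ad_sub]
    abel

end Vale.Agent.P002.Surface
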